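import Crest.Agent.X212.Cmp73.Cv

-- ▼ part X212/Pat85/QB
section

/-!
# X212, PATCH (helper85), part 3: bundles of normed division algebras, partitions of unity
-/

set_option autoImplicit false
set_option linter.unusedSectionVars false

open Set Filter Topology Metric
open scoped ContDiff Manifold

noncomputable section

namespace Crest.Agent.X212.Pat85
open Cmp73

variable {α : Type} {E : Type} [NormedAddCommGroup E] [NormedSpace ℝ E] [FiniteDimensional ℝ E]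
  {HM : Type} [TopologicalSpace HM] {I : ModelWithCorners ℝ E HM} [I.Boundaryless]
  {M : Type} [TopologicalSpace M] [ChartedSpace HM M] [IsManifold I ∞ M]
  {𝔸 : Type} [NormedRing 𝔸] [NormedAlgebra ℝ 𝔸] [FiniteDimensional ℝ 𝔸]

section ev
variable {X : Type*} [TopologicalSpace X] {l : Filter α} {x : X} {P : α → X → Prop}

/-- an eventual property holds on neighbourhoods of the nearby points -/
theorem evn (h : ∀ᶠ q : α × X in l ×ˢ 𝓝 x, P q.1 q.2) :
    ∀ᶠ q : α × X in l ×ˢ 𝓝 x, ∀ᶠ y in 𝓝 q.2, P q.1 y := by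
  obtain ⟨pa, hpa, pb, hpb, H⟩ := eventually_prod_iff.1 h
  exact eventually_prod_iff.2 ⟨pa, hpa, _, hpb.eventually_nhds, fun hi _ hy =>
    hy.mono fun _ hz => H hi hz⟩

theorem evs (h : ∀ᶠ q : α × X in l ×ˢ 𝓝 x, P q.1 q.2) :
    ∀ᶠ y in 𝓝 x, ∀ᶠ q : α × X in l ×ˢ 𝓝 y, P q.1 q.2 := by
  obtain ⟨pa, hpa, pb, hpb, H⟩ := eventually_prod_iff.1 h
  exact hpb.eventually_nhds.mono fun y hy => eventually_prod_iff.2 ⟨pa, hpa, pb, hy, H⟩

theorem eva (h : ∀ᶠ q : α × X in l ×ˢ 𝓝 x, P q.1 q.2) : ∀ᶠ i in l, P i x :=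
  (h.curry).mono fun _ hi => hi.self_of_nhds

theorem evo {O : Set X} (hO : IsOpen O) (hx : x ∈ O) : ∀ᶠ q : α × X in l ×ˢ 𝓝 x, q.2 ∈ O :=
  tendsto_snd.eventually (hO.eventually_mem hx)

end ev

variable (I M 𝔸) in
/-- a field of subalgebras `H x` with unit `e x` and conjugation `s`, `s q * q = ν q • e x` -/
structure QB where
  H : M → Submodule ℝ 𝔸
  e : M → 𝔸
  s : 𝔸 →L[ℝ] 𝔸
  ν : 𝔸 → ℝ
  sν : ContDiff ℝ ∞ ν
  se : ContMDiff I 𝓘(ℝ, 𝔸) ∞ e
  s_mul : ∀ a b, s (a * b) = s b * s a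
  s_s : ∀ a, s (s a) = a
  e_mem : ∀ x, e x ∈ H x
  e_ne : ∀ x, e x ≠ 0
  s_e : ∀ x, s (e x) = e x
  e_mul : ∀ x, ∀ q ∈ H x, e x * q = q
  mul_mem : ∀ x, ∀ p ∈ H x, ∀ q ∈ H x, p * q ∈ H x
  s_mem : ∀ x, ∀ q ∈ H x, s q ∈ H x
  sq : ∀ x, ∀ q ∈ H x, s q * q = ν q • e x
  sq' : ∀ x, ∀ q ∈ H x, q * s q = ν q • e x

namespace QB
variable (Q : QB I M 𝔸)

/-- the unit sphere, a group with unit `e x` -/
def G (x : M) : Set 𝔸 := {q | q ∈ Q.H x ∧ Q.s q * q = Q.e x}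

/-- normalisation -/
def N (q : 𝔸) : 𝔸 := (√(Q.ν q))⁻¹ • q

/-- smooth unit sections over `O` -/
def Sec (O : Set M) (v : M → 𝔸) : Prop := ∀ x ∈ O, ContMDiffAt I 𝓘(ℝ, 𝔸) ∞ v x ∧ v x ∈ Q.G x

variable {Q} {x : M} {a b g g' : 𝔸}

theorem mul_e (ha : a ∈ Q.H x) : a * Q.e x = a := by
  have := congrArg Q.s (Q.e_mul x _ (Q.s_mem x a ha))
  rwa [Q.s_mul, Q.s_s, Q.s_e] at this

theorem ν_of (ha : a ∈ Q.H x) {c : ℝ} (h : Q.s a * a = c • Q.e x) : Q.ν a = c :=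
  smul_left_injective ℝ (Q.e_ne x) ((Q.sq x a ha).symm.trans h)

theorem ν_G (hg : g ∈ Q.G x) : Q.ν g = 1 := ν_of hg.1 (by rw [hg.2, one_smul])

theorem mem_G (ha : a ∈ Q.H x) (h : Q.ν a = 1) : a ∈ Q.G x := ⟨ha, by rw [Q.sq x a ha, h, one_smul]⟩

theorem s_mul_G (hg : g ∈ Q.G x) : Q.s g * g = Q.e x := hg.2

theorem mul_s_G (hg : g ∈ Q.G x) : g * Q.s g = Q.e x := by rw [Q.sq' x g hg.1, ν_G hg, one_smul]

theorem e_G (x : M) : Q.e x ∈ Q.G x := ⟨Q.e_mem x, by rw [Q.s_e, Q.e_mul x _ (Q.e_mem x)]⟩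

theorem s_G (hg : g ∈ Q.G x) : Q.s g ∈ Q.G x :=
  ⟨Q.s_mem x g hg.1, by rw [Q.s_s, mul_s_G hg]⟩

theorem cancel (hg : g ∈ Q.G x) (ha : a ∈ Q.H x) : Q.s g * (g * a) = a := by
  rw [← mul_assoc, hg.2, Q.e_mul x a ha]

theorem cancel' (hg : g ∈ Q.G x) (ha : a ∈ Q.H x) : g * (Q.s g * a) = a := by
  rw [← mul_assoc, mul_s_G hg, Q.e_mul x a ha]

theorem mul_G (hg : g ∈ Q.G x) (hg' : g' ∈ Q.G x) : g * g' ∈ Q.G x :=
  ⟨Q.mul_mem x g hg.1 g' hg'.1, by rw [Q.s_mul, mul_assoc, cancel hg hg'.1, hg'.2]⟩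

theorem eq_e (hg : g ∈ Q.G x) (h : g * g = g) : g = Q.e x := by
  rw [← cancel hg hg.1, h, hg.2]

theorem ν_left (hg : g ∈ Q.G x) (ha : a ∈ Q.H x) : Q.ν (g * a) = Q.ν a :=
  ν_of (Q.mul_mem x g hg.1 a ha) (by rw [Q.s_mul, mul_assoc, cancel hg ha, Q.sq x a ha])

theorem ν_right (hg : g ∈ Q.G x) (ha : a ∈ Q.H x) : Q.ν (a * g) = Q.ν a :=
  ν_of (Q.mul_mem x a ha g hg.1) (by
    rw [Q.s_mul, mul_assoc, ← mul_assoc (Q.s a), Q.sq x a ha, smul_mul_assoc, Q.e_mul x g hg.1,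
      mul_smul_comm, hg.2])

theorem N_G (ha : a ∈ Q.H x) (h : 0 < Q.ν a) : Q.N a ∈ Q.G x := by
  refine ⟨(Q.H x).smul_mem _ ha, ?_⟩
  rw [N, map_smul, smul_mul_smul_comm, Q.sq x a ha, smul_smul, ← mul_inv,
    Real.mul_self_sqrt h.le, inv_mul_cancel₀ h.ne', one_smul]

theorem N_of_G (hg : g ∈ Q.G x) : Q.N g = g := by simp [N, ν_G hg]

theorem N_eq (ha : a ∈ Q.H x) (hb : b ∈ Q.H x) (hg : g ∈ Q.G x) (hg' : g' ∈ Q.G x)
    (h : a * g = g' * b) : Q.N a * g = g' * Q.N b := by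
  have : Q.ν a = Q.ν b := by rw [← ν_right hg ha, h, ν_left hg' hb]
  rw [N, N, smul_mul_assoc, mul_smul_comm, h, this]

theorem ev_pos (h : 0 < Q.ν a) : ∀ᶠ b in 𝓝 a, 0 < Q.ν b :=
  Q.sν.continuous.continuousAt.eventually (lt_mem_nhds h)

theorem N_smoothAt (h : 0 < Q.ν a) : ContDiffAt ℝ ∞ Q.N a :=
  ((Q.sν.contDiffAt.sqrt h.ne').inv (Real.sqrt_pos.2 h).ne').smul contDiffAt_id

theorem N_smooth (h : 0 < Q.ν a) : ∀ᶠ b in 𝓝 a, ContDiffAt ℝ ∞ Q.N b :=
  (ev_pos h).mono fun _ hb => N_smoothAt hb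

theorem isClosed_G (x : M) : IsClosed (Q.G x) :=
  (Q.H x).closed_of_finiteDimensional.inter
    (isClosed_eq (Q.s.continuous.mul continuous_id) continuous_const)

variable {O O' : Set M} {v w : M → 𝔸}

theorem Sec.mono (h : Q.Sec O v) (hO : O' ⊆ O) : Q.Sec O' v := fun x hx => h x (hO hx)

theorem Sec.e (O : Set M) : Q.Sec O Q.e := fun x _ => ⟨Q.se x, e_G x⟩

theorem Sec.mul (h : Q.Sec O v) (h' : Q.Sec O w) : Q.Sec O fun x => v x * w x := fun x hx =>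
  ⟨((ContinuousLinearMap.mul ℝ 𝔸).contMDiff.contMDiffAt.comp x (h x hx).1).clm_apply (h' x hx).1,
    mul_G (h x hx).2 (h' x hx).2⟩

theorem Sec.s (h : Q.Sec O v) : Q.Sec O fun x => Q.s (v x) := fun x hx =>
  ⟨Q.s.contMDiff.contMDiffAt.comp x (h x hx).1, s_G (h x hx).2⟩

theorem Sec.mb (h : Q.Sec O v) (hO : IsOpen O) (hx : x ∈ O) (l : Filter α) (k : ℕ) :
    MB I l x k fun _ => v := MB.fixed ((hO.eventually_mem hx).mono fun y hy => (h y hy).1)

end QB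

variable (I) in
/-- a smooth partition of unity on `Ω` subordinate to `U` (no sign condition) -/
structure POU {β : Type} (χ : β → M → ℝ) (U : β → Set M) (Ω : Set M) : Prop where
  sm : ∀ i, ∀ x ∈ Ω, ContMDiffAt I 𝓘(ℝ, ℝ) ∞ (χ i) x
  loc : ∀ x ∈ Ω, ∃ s : Finset β, (∀ i ∈ s, x ∈ U i) ∧ ∀ᶠ y in 𝓝 x, ∀ i ∉ s, χ i y = 0
  sum : ∀ x ∈ Ω, ∑ᶠ i, χ i x = 1

namespace POU
variable {β : Type} {χ : β → M → ℝ} {U U' : β → Set M} {Ω Ω' : Set M}

theorem mono (h : POU I χ U Ω) (hΩ : Ω' ⊆ Ω) (hU : ∀ i, U i ∩ Ω' ⊆ U' i) : POU I χ U' Ω' :=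
  ⟨fun i x hx => h.sm i x (hΩ hx), fun x hx =>
    let ⟨s, h1, h2⟩ := h.loc x (hΩ hx); ⟨s, fun i hi => hU i ⟨h1 i hi, hx⟩, h2⟩,
    fun x hx => h.sum x (hΩ hx)⟩

/-- the local form of the sums -/
theorem nbhd (h : POU I χ U Ω) (hU : ∀ i, IsOpen (U i)) (hΩ : IsOpen Ω) {x : M} (hx : x ∈ Ω) :
    ∃ (s : Finset β) (O : Set M), IsOpen O ∧ x ∈ O ∧ O ⊆ Ω ∧ (∀ i ∈ s, O ⊆ U i) ∧
      (∀ y ∈ O, ∀ c : β → 𝔸, ∑ᶠ i, χ i y • c i = ∑ i ∈ s, χ i y • c i) ∧
      ∀ y ∈ O, ∑ i ∈ s, χ i y = 1 := by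
  obtain ⟨s, h1, h2⟩ := h.loc x hx
  have h3 : ∀ᶠ y in 𝓝 x, ∀ i ∈ s, y ∈ U i :=
    s.eventually_all.2 fun i hi => (hU i).eventually_mem (h1 i hi)
  obtain ⟨O, hO, hOo, hxO⟩ := eventually_nhds_iff.1 (h2.and (h3.and (hΩ.eventually_mem hx)))
  refine ⟨s, O, hOo, hxO, fun y hy => (hO y hy).2.2, fun i hi y hy => (hO y hy).2.1 i hi,
    fun y hy c => finsum_eq_sum_of_support_subset _ fun i hi => ?_, fun y hy => ?_⟩
  · by_contra hs
    exact hi (by simp [(hO y hy).1 i hs])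
  · rw [← h.sum y (hO y hy).2.2]
    refine (finsum_eq_sum_of_support_subset _ fun i hi => ?_).symm
    by_contra hs
    exact hi ((hO y hy).1 i hs)

theorem cover (h : POU I χ U Ω) {x : M} (hx : x ∈ Ω) : ∃ i, x ∈ U i := by
  obtain ⟨s, h1, h2⟩ := h.loc x hx
  by_contra hc
  have : ∀ i, χ i x = 0 := fun i => h2.self_of_nhds i fun hi => hc ⟨i, h1 i hi⟩
  simpa [this] using h.sum x hx

/-- existence over a closed set -/
theorem exists_closed [T2Space M] [SigmaCompactSpace M] {S : Set M} (hS : IsClosed S)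
    (hU : ∀ i, IsOpen (U i)) (hc : S ⊆ ⋃ i, U i) : ∃ χ : β → M → ℝ, POU I χ U S := by
  classical
  obtain ⟨f, hf⟩ := SmoothPartitionOfUnity.exists_isSubordinate I hS U hU hc
  refine ⟨fun i => f i, fun i x _ => (f i).contMDiff x, fun x _ => ?_,
    fun x hx => f.sum_eq_one hx⟩
  refine ⟨f.fintsupport x, fun i hi => hf i ((f.mem_fintsupport_iff x i).1 hi), ?_⟩
  filter_upwards [f.eventually_finsupport_subset x] with y hy i hi
  by_contra h0
  exact hi (hy ((f.mem_finsupport y).2 h0))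

end POU

end Crest.Agent.X212.Pat85
end
end

-- ▼ part X212/Pat85/Star

/-!
# X212, PATCH (helper85), part 6: finite star-shaped covers off a countable closed set
-/

set_option autoImplicit false
set_option linter.unusedSectionVars false

open Set Filter Topology Metric
open scoped ContDiff Manifold

noncomputable section

namespace Crest.Agent.X212.Pat85

section flat
variable {E : Type} [NormedAddCommGroup E] [NormedSpace ℝ E] {O C S : Set E} {c x : E}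

/-- the points of `O` which are visible from `c` -/
def vis (O : Set E) (c : E) : Set E := {x | segment ℝ c x ⊆ O}

theorem vis_subset : vis O c ⊆ O := fun x hx => hx (right_mem_segment ℝ c x)

theorem self_mem_vis (hc : c ∈ O) : c ∈ vis O c := by simpa [vis] using hc

theorem segment_subset_vis (hx : x ∈ vis O c) : segment ℝ c x ⊆ vis O c := fun _ hy =>
  ((convex_segment c x).segment_subset (left_mem_segment ℝ c x) hy).trans hx

theorem starConvex_vis : StarConvex ℝ c (vis O c) :=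
  starConvex_iff_segment_subset' fun _ hx => segment_subset_vis hx
where
  starConvex_iff_segment_subset' {s : Set E} (h : ∀ y ∈ s, segment ℝ c y ⊆ s) : StarConvex ℝ c s :=
    fun y hy a b ha hb hab => h y hy ⟨a, b, ha, hb, hab, rfl⟩

theorem isOpen_vis (hO : IsOpen O) (c : E) : IsOpen (vis O c) := by
  refine isOpen_iff_eventually.2 fun x hx => ?_
  have h1 : Continuous fun z : E × ℝ => c + z.2 • (z.1 - c) := by fun_prop
  have h2 := (isCompact_Icc (a := (0 : ℝ)) (b := 1)).eventually_forall_of_forall_eventually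
    (x₀ := x) (P := fun y t => c + t • (y - c) ∈ O) fun t ht =>
      h1.continuousAt.eventually (hO.mem_nhds (hx (by
        rw [segment_eq_image']; exact ⟨t, ht, rfl⟩)))
  refine h2.mono fun y hy => ?_
  change segment ℝ c y ⊆ O
  rw [segment_eq_image']
  rintro _ ⟨t, ht, rfl⟩
  exact hy t ht

/-- two generic centres see everything off a countable set -/
theorem exists_two_centres [FiniteDimensional ℝ E] (hd : 3 ≤ Module.finrank ℝ E) (hC : IsOpen C)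
    (hc : Convex ℝ C) (hne : C.Nonempty) (hS : S.Countable) :
    ∃ c₁ ∈ C \ S, ∃ c₂ ∈ C \ S, C \ S ⊆ vis (C \ S) c₁ ∪ vis (C \ S) c₂ := by
  classical
  have := FiniteDimensional.complete ℝ E
  have : Nontrivial E := Module.nontrivial_of_finrank_pos (R := ℝ) (by omega)
  obtain ⟨c₁, h1, h1'⟩ := (hS.dense_compl ℝ).inter_open_nonempty C hC hne
  let W : E × E → Submodule ℝ E := fun p => Submodule.span ℝ {p.1 - c₁, p.2 - c₁}
  have hW : ∀ p, W p ≠ ⊤ := fun p h => by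
    have h2 : Module.finrank ℝ (W p) ≤ 2 := by
      have := finrank_span_finset_le_card (R := ℝ) ({p.1 - c₁, p.2 - c₁} : Finset E)
      rw [Finset.coe_pair] at this
      exact this.trans Finset.card_le_two
    rw [h, finrank_top] at h2
    omega
  have hD : Dense (⋂ p ∈ S ×ˢ S, {y | y - c₁ ∉ W p}) := by
    refine dense_biInter_of_isOpen (fun p _ => ?_) (hS.prod hS) fun p _ => ?_
    · exact (W p).closed_of_finiteDimensional.isOpen_compl.preimage (by fun_prop)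
    · have h3 : Dense ((W p : Set E)ᶜ) := interior_eq_empty_iff_dense_compl.1
        (not_nonempty_iff_eq_empty.1 fun h => hW p ((W p).eq_top_of_nonempty_interior' h))
      exact h3.preimage (Homeomorph.subRight c₁).isOpenMap
  obtain ⟨c₂, h2, h2'⟩ := hD.inter_open_nonempty C hC hne
  have h3 : ∀ s ∈ S, ∀ s' ∈ S, c₂ - c₁ ∉ W (s, s') := fun s hs s' hs' =>
    mem_iInter₂.1 h2' (s, s') ⟨hs, hs'⟩
  refine ⟨c₁, ⟨h1, h1'⟩, c₂, ⟨h2, fun h => h3 _ h _ h (Submodule.subset_span (by simp))⟩,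
    fun x hx => ?_⟩
  by_contra hn
  obtain ⟨s, hs, hs1⟩ := not_subset.1 fun h => hn (Or.inl h)
  obtain ⟨s', hs', hs2⟩ := not_subset.1 fun h => hn (Or.inr h)
  have a1 : s ∈ S := by_contra fun h => hs1 ⟨hc.segment_subset h1 hx.1 hs, h⟩
  have a2 : s' ∈ S := by_contra fun h => hs2 ⟨hc.segment_subset h2 hx.1 hs', h⟩
  rw [segment_eq_image'] at hs hs'
  obtain ⟨a, -, ha⟩ := hs
  obtain ⟨b, -, hb⟩ := hs'
  have a3 : a ≠ 0 := fun h => h1' (by rw [show c₁ = s by simpa [h] using ha]; exact a1)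
  have a4 : 1 - b ≠ 0 := fun h => hx.2 (by
    have : b = 1 := by linarith
    rw [show x = s' by simpa [this] using hb]; exact a2)
  have b1 : s - c₁ ∈ W (s, s') := Submodule.subset_span (by simp)
  have b2 : s' - c₁ ∈ W (s, s') := Submodule.subset_span (by simp)
  have b3 : x - c₁ ∈ W (s, s') := ((W _).smul_mem_iff a3).1 (by
    rw [show a • (x - c₁) = s - c₁ by rw [← ha]; simp]; exact b1)
  refine h3 s a1 s' a2 (((W _).smul_mem_iff a4).1 ?_)
  rw [show (1 - b) • (c₂ - c₁) = (s' - c₁) - b • (x - c₁) by rw [← hb]; module]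
  exact (W _).sub_mem b2 ((W _).smul_mem b b3)

end flat

variable {E : Type} [NormedAddCommGroup E] [NormedSpace ℝ E] [FiniteDimensional ℝ E]
  {HM : Type} [TopologicalSpace HM] {I : ModelWithCorners ℝ E HM} [I.Boundaryless]
  {M : Type} [TopologicalSpace M] [ChartedSpace HM M] [IsManifold I ∞ M]
  {E' : Type} [NormedAddCommGroup E'] [NormedSpace ℝ E'] [FiniteDimensional ℝ E']

variable (I) in
/-- a smooth chart with values in a vector space -/
structure SCh (φ : OpenPartialHomeomorph M E') : Prop where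
  sm : ∀ x ∈ φ.source, ContMDiffAt I 𝓘(ℝ, E') ∞ φ x
  sm' : ∀ y ∈ φ.target, ContMDiffAt 𝓘(ℝ, E') I ∞ φ.symm y

variable (I) in
/-- `O` is covered by finitely many charts with convex images -/
def CvxOn (E' : Type) [NormedAddCommGroup E'] [NormedSpace ℝ E'] (O : Set M) : Prop :=
  ∃ (n : ℕ) (φ : Fin n → OpenPartialHomeomorph M E'), (∀ i, SCh I (φ i) ∧ Convex ℝ (φ i).target) ∧
    ∀ x ∈ O, ∃ i, x ∈ (φ i).source

theorem SCh.restr {φ : OpenPartialHomeomorph M E'} (h : SCh I φ) {D : Set E'} (hD : IsOpen D)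
    (hs : D ⊆ φ.target) : SCh I (φ.symm.restrOpen D hD).symm ∧
      (φ.symm.restrOpen D hD).symm.target = D ∧
      (φ.symm.restrOpen D hD).symm.source = φ.source ∩ φ ⁻¹' D :=
  ⟨⟨fun x hx => h.sm x hx.1, fun y hy => h.sm' y hy.1⟩, inter_eq_right.2 hs, rfl⟩

theorem CvxOn.mono {O O' : Set M} (h : CvxOn I E' O) (hO : O' ⊆ O) : CvxOn I E' O' :=
  let ⟨n, φ, h1, h2⟩ := h; ⟨n, φ, h1, fun x hx => h2 x (hO hx)⟩

theorem CvxOn.of_finite {β : Type} [Finite β] {O : Set M} (φ : β → OpenPartialHomeomorph M E')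
    (h1 : ∀ i, SCh I (φ i) ∧ Convex ℝ (φ i).target) (h2 : ∀ x ∈ O, ∃ i, x ∈ (φ i).source) :
    CvxOn I E' O := by
  obtain ⟨n, ⟨e⟩⟩ := Finite.exists_equiv_fin β
  refine ⟨n, fun i => φ (e.symm i), fun i => h1 _, fun x hx => ?_⟩
  obtain ⟨i, hi⟩ := h2 x hx
  exact ⟨e i, by simpa using hi⟩

theorem CvxOn.iUnion {β : Type} [Finite β] {O : β → Set M} (h : ∀ b, CvxOn I E' (O b)) :
    CvxOn I E' (⋃ b, O b) := by
  choose n φ h1 h2 using h
  refine CvxOn.of_finite (β := Σ b, Fin (n b)) (fun i => φ i.1 i.2) (fun i => h1 _ _) fun x hx => ?_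
  obtain ⟨b, hb⟩ := mem_iUnion.1 hx
  obtain ⟨i, hi⟩ := h2 b x hb
  exact ⟨⟨b, i⟩, hi⟩

theorem CvxOn.union {O O' : Set M} (h : CvxOn I E' O) (h' : CvxOn I E' O') :
    CvxOn I E' (O ∪ O') := by
  rw [union_eq_iUnion]
  exact CvxOn.iUnion fun b => by cases b; exacts [h', h]

/-- **finitely many star-shaped charts cover `O` minus a closed countable set** -/
theorem CvxOn.star {O S : Set M} (h : CvxOn I E' O) (hd : 3 ≤ Module.finrank ℝ E')
    (hS : IsClosed S) (hc : S.Countable) :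
    ∃ (n : ℕ) (φ : Fin n → OpenPartialHomeomorph M E') (c : Fin n → E'),
      (∀ i, SCh I (φ i) ∧ c i ∈ (φ i).target ∧ StarConvex ℝ (c i) (φ i).target ∧
        Disjoint (φ i).source S) ∧ ∀ x ∈ O, x ∉ S → ∃ i, x ∈ (φ i).source := by
  obtain ⟨n, φ, h1, h2⟩ := h
  have h3 : ∀ i, IsOpen ((φ i).target \ φ i '' (S ∩ (φ i).source)) := fun i => by
    have : (φ i).target \ φ i '' (S ∩ (φ i).source) = (φ i).target ∩ (φ i).symm ⁻¹' Sᶜ := by
      ext y
      refine and_congr_right fun hy => ⟨fun h h' => h ⟨_, ⟨h', (φ i).map_target hy⟩,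
        (φ i).right_inv hy⟩, ?_⟩
      rintro h ⟨x, hx, rfl⟩
      exact h (by rw [(φ i).left_inv hx.2]; exact hx.1)
    rw [this]
    exact (φ i).isOpen_inter_preimage_symm hS.isOpen_compl
  let β := {i // (φ i).target.Nonempty}
  choose c₁ a1 c₂ a2 a3 using fun i : β => exists_two_centres hd (φ i.1).open_target (h1 i.1).2 i.2
    ((hc.mono (inter_subset_left (t := (φ i.1).source))).image (φ i.1))
  let c : β × Bool → E' := fun p => if p.2 then c₁ p.1 else c₂ p.1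
  have hc' : ∀ p, c p ∈ (φ p.1.1).target \ φ p.1.1 '' (S ∩ (φ p.1.1).source) := fun p => by
    simp only [c]; split_ifs; exacts [a1 _, a2 _]
  obtain ⟨m, ⟨e⟩⟩ := Finite.exists_equiv_fin (β × Bool)
  have hr := fun p : β × Bool => (h1 p.1.1).1.restr (isOpen_vis (h3 p.1.1) (c p))
    (vis_subset.trans sdiff_subset)
  refine ⟨m, fun i => _, fun i => c (e.symm i), fun i => ⟨(hr (e.symm i)).1, ?_, ?_, ?_⟩,
    fun x hx hxS => ?_⟩
  · rw [(hr _).2.1]; exact self_mem_vis (hc' _)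
  · rw [(hr _).2.1]; exact starConvex_vis
  · rw [(hr _).2.2]
    exact disjoint_left.2 fun x hx hxS => (vis_subset hx.2).2 ⟨x, ⟨hxS, hx.1⟩, rfl⟩
  · obtain ⟨i, hi⟩ := h2 x hx
    have h4 : φ i x ∈ (φ i).target \ φ i '' (S ∩ (φ i).source) :=
      ⟨(φ i).map_source hi, fun ⟨y, hy, h⟩ => hxS ((φ i).injOn hy.2 hi h ▸ hy.1)⟩
    rcases a3 ⟨i, _, h4.1⟩ h4 with h5 | h5
    · refine ⟨e (⟨i, _, h4.1⟩, true), ?_⟩
      rw [(hr _).2.2, e.symm_apply_apply]
      exact ⟨hi, h5⟩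
    · refine ⟨e (⟨i, _, h4.1⟩, false), ?_⟩
      rw [(hr _).2.2, e.symm_apply_apply]
      exact ⟨hi, h5⟩

/-- the preferred chart, with values in `E'` -/
def echart (I : ModelWithCorners ℝ E HM) [I.Boundaryless] (L : E ≃L[ℝ] E') (x : M) :
    OpenPartialHomeomorph M E' :=
  (chartAt HM x).trans (I.toHomeomorph.trans L.toHomeomorph).toOpenPartialHomeomorph

theorem echart_source (L : E ≃L[ℝ] E') (x : M) : (echart I L x).source = (chartAt HM x).source := by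
  simp [echart]

theorem sch_echart (L : E ≃L[ℝ] E') (x : M) : SCh I (echart I L x) := by
  refine ⟨fun z hz => ?_, fun y hy => ?_⟩
  · rw [echart_source] at hz
    exact L.contDiff.contMDiff.contMDiffAt.comp z (contMDiffAt_extChartAt' hz)
  · have h1 : L.symm y ∈ (extChartAt I x).target := by
      simpa [echart, I.range_eq_univ] using hy
    exact ((contMDiffOn_extChartAt_symm x).contMDiffAt (extChartAt_target_mem_nhds' h1)).comp y
      L.symm.contDiff.contMDiff.contMDiffAt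

/-- compact sets have finite convex atlases -/
theorem cvxOn_compact (L : E ≃L[ℝ] E') {K : Set M} (hK : IsCompact K) : CvxOn I E' K := by
  have h1 : ∀ x : M, ∃ φ : OpenPartialHomeomorph M E', (SCh I φ ∧ Convex ℝ φ.target) ∧
      x ∈ φ.source := fun x => by
    have hx : x ∈ (echart I L x).source := by rw [echart_source]; exact mem_chart_source HM x
    obtain ⟨r, hr, hb⟩ := Metric.isOpen_iff.1 (echart I L x).open_target _
      ((echart I L x).map_source hx)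
    obtain ⟨a, b, c⟩ := (sch_echart L x).restr isOpen_ball hb
    exact ⟨_, ⟨a, b.symm ▸ convex_ball _ _⟩, c.symm ▸ ⟨hx, mem_ball_self hr⟩⟩
  choose φ h1 h2 using h1
  obtain ⟨s, hs⟩ := hK.elim_finite_subcover (fun x => (φ x).source) (fun x => (φ x).open_source)
    fun x _ => mem_iUnion.2 ⟨x, h2 x⟩
  refine CvxOn.of_finite (fun i : s => φ i) (fun i => h1 _) fun x hx => ?_
  obtain ⟨i, hi, h⟩ := mem_iUnion₂.1 (hs hx)
  exact ⟨⟨i, hi⟩, h⟩

section prod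
variable {EY : Type} [NormedAddCommGroup EY] [NormedSpace ℝ EY] [FiniteDimensional ℝ EY]
  {HY : Type} [TopologicalSpace HY] {J : ModelWithCorners ℝ EY HY} [J.Boundaryless]
  {Y : Type} [TopologicalSpace Y] [ChartedSpace HY Y] [IsManifold J ∞ Y] [CompactSpace Y]

/-- product regions `j (Y × T)`, `T` an open interval, have finite convex atlases -/
theorem cvxOn_prod (L : (EY × ℝ) ≃L[ℝ] E') (j : OpenPartialHomeomorph (Y × ℝ) M) {T : Set ℝ}
    (hT : IsOpen T) (hc : Convex ℝ T) (hs : univ ×ˢ T ⊆ j.source)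
    (hj : ∀ p ∈ j.source, ContMDiffAt (J.prod 𝓘(ℝ, ℝ)) I ∞ j p)
    (hj' : ∀ x ∈ j.target, ContMDiffAt I (J.prod 𝓘(ℝ, ℝ)) ∞ j.symm x) :
    CvxOn I E' (j '' (univ ×ˢ T)) := by
  obtain ⟨n, φ, h1, h2⟩ := cvxOn_compact (I := J) (ContinuousLinearEquiv.refl ℝ EY)
    (isCompact_univ (X := Y))
  refine ⟨n, fun i => j.symm.trans (((φ i).prod (OpenPartialHomeomorph.ofSet T hT)).trans
    L.toHomeomorph.toOpenPartialHomeomorph), fun i => ⟨⟨fun x hx => ?_, fun y hy => ?_⟩, ?_⟩, ?_⟩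
  · have h3 := hj' x hx.1
    exact L.contDiff.contMDiff.contMDiffAt.comp x
      ((((h1 i).1.sm _ hx.2.1.1).comp x (contMDiffAt_fst.comp x h3)).prodMk_space
        (contMDiffAt_snd.comp x h3))
  · have h3 := L.symm.contDiff.contMDiff.contMDiffAt (x := y) (n := ∞)
    have h4 : ContMDiffAt 𝓘(ℝ, E') (J.prod 𝓘(ℝ, ℝ)) ∞
        (fun y => ((φ i).symm (L.symm y).1, (L.symm y).2)) y :=
      (((h1 i).1.sm' _ hy.1.2.1).comp y (contDiff_fst.contMDiff.contMDiffAt.comp y h3)).prodMk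
        (contDiff_snd.contMDiff.contMDiffAt.comp y h3)
    exact (hj _ hy.2).comp y h4
  · have : (j.symm.trans (((φ i).prod (OpenPartialHomeomorph.ofSet T hT)).trans
        L.toHomeomorph.toOpenPartialHomeomorph)).target = L.symm ⁻¹' ((φ i).target ×ˢ T) := by
      ext y
      exact ⟨fun h => h.1.2, fun h => ⟨⟨trivial, h⟩, hs ⟨trivial, h.2⟩⟩⟩
    rw [this]
    exact ((h1 i).2.prod hc).linear_preimage L.symm.toLinearMap
  · rintro _ ⟨p, hp, rfl⟩
    obtain ⟨i, hi⟩ := h2 p.1 trivial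
    refine ⟨i, j.map_source (hs hp), ?_⟩
    simp only [OpenPartialHomeomorph.symm_symm, mem_preimage, j.left_inv (hs hp)]
    exact ⟨⟨hi, hp.2⟩, trivial⟩

end prod

variable (I) in
/-- a smooth partition of unity by squares on `Ω` -/
structure SqOn {β : Type} [Fintype β] (χ : β → M → ℝ) (U : β → Set M) (Ω : Set M) : Prop where
  sm : ∀ i, ∀ x ∈ Ω, ContMDiffAt I 𝓘(ℝ, ℝ) ∞ (χ i) x
  supp : ∀ i, ∀ x ∈ Ω, x ∉ U i → χ i =ᶠ[𝓝 x] 0
  sq : ∀ x ∈ Ω, ∑ i, χ i x ^ 2 = 1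

/-- partitions of unity on open subsets -/
theorem exists_pou_open [T2Space M] [SecondCountableTopology M] {β : Type} {U : β → Set M}
    {Ω : Set M} (hΩ : IsOpen Ω) (hU : ∀ i, IsOpen (U i)) (hc : ∀ x ∈ Ω, ∃ i, x ∈ U i) :
    ∃ χ : β → M → ℝ, POU I χ U Ω ∧ ∀ i x, 0 ≤ χ i x := by
  classical
  let O : TopologicalSpace.Opens M := ⟨Ω, hΩ⟩
  have : LocallyCompactSpace HM := I.locallyCompactSpace
  have : LocallyCompactSpace O := ChartedSpace.locallyCompactSpace HM O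
  obtain ⟨f, hf⟩ := SmoothPartitionOfUnity.exists_isSubordinate I (isClosed_univ (X := O))
    (fun i => Subtype.val ⁻¹' U i) (fun i => (hU i).preimage continuous_subtype_val)
    fun x _ => mem_iUnion.2 (hc x.1 x.2)
  let χ : β → M → ℝ := fun i x => if h : x ∈ Ω then f i ⟨x, h⟩ else 0
  have e : ∀ i (x : O), χ i x = f i x := fun i x => dif_pos x.2
  refine ⟨χ, ⟨fun i x hx => ?_, fun x hx => ?_, fun x hx => ?_⟩, fun i x => ?_⟩
  · refine (contMDiffAt_subtype_iff (U := O) (x := ⟨x, hx⟩)).1 ?_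
    simpa only [e] using (f i).contMDiff ⟨x, hx⟩
  · refine ⟨f.fintsupport ⟨x, hx⟩, fun i hi => hf i ((f.mem_fintsupport_iff _ i).1 hi), ?_⟩
    have h1 := f.eventually_finsupport_subset ⟨x, hx⟩
    rw [← hΩ.isOpenEmbedding_subtypeVal.map_nhds_eq ⟨x, hx⟩, eventually_map]
    filter_upwards [h1] with y hy i hi
    rw [e i y]
    by_contra h0
    exact hi (hy ((f.mem_finsupport y).2 h0))
  · simpa only [← e] using f.sum_eq_one (mem_univ (⟨x, hx⟩ : O))
  · simp only [χ]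
    split_ifs
    exacts [f.nonneg _ _, le_rfl]

theorem exists_sqOn [T2Space M] [SecondCountableTopology M] {β : Type} [Fintype β] {U : β → Set M}
    {Ω : Set M} (hΩ : IsOpen Ω) (hU : ∀ i, IsOpen (U i)) (hc : ∀ x ∈ Ω, ∃ i, x ∈ U i) :
    ∃ χ : β → M → ℝ, SqOn I χ U Ω := by
  obtain ⟨f, hf, h0⟩ := exists_pou_open (I := I) hΩ hU hc
  have hpos : ∀ x ∈ Ω, 0 < ∑ i, f i x ^ 2 := fun x hx => by
    have h1 := hf.sum x hx
    rw [finsum_eq_sum_of_fintype] at h1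
    obtain ⟨i, -, hi⟩ := Finset.exists_ne_zero_of_sum_ne_zero (h1.trans_ne one_ne_zero)
    exact Finset.sum_pos' (fun j _ => sq_nonneg _) ⟨i, Finset.mem_univ _, by positivity⟩
  refine ⟨fun i x => f i x * (√(∑ j, f j x ^ 2))⁻¹, fun i x hx => ?_, fun i x hx hi => ?_,
    fun x hx => ?_⟩
  · have h1 : ContMDiffAt I 𝓘(ℝ, ℝ) ∞ (fun y => ∑ j, f j y ^ 2) x :=
      contMDiffAt_finsetSum fun j _ => (hf.sm j x hx).pow 2
    exact (hf.sm i x hx).mul (ContDiffAt.comp_contMDiffAt (g := fun t => (√t)⁻¹)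
      (f := fun y => ∑ j, f j y ^ 2) ((Real.contDiffAt_sqrt (hpos x hx).ne').inv
      (Real.sqrt_pos.2 (hpos x hx)).ne') h1)
  · obtain ⟨s, h1, h2⟩ := hf.loc x hx
    filter_upwards [h2] with y hy
    simp [hy i fun h => hi (h1 i h)]
  · simp only [mul_pow, ← Finset.sum_mul, inv_pow, Real.sq_sqrt (hpos x hx).le]
    exact mul_inv_cancel₀ (hpos x hx).ne'

end Crest.Agent.X212.Pat85
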