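import Crest.Agent.X212.Pat85.Cht
import Crest.Agent.X212.Std94.Alt
import Crest.Agent.X212.Std94.Kl

-- ▼ part X212/Pat85/Loc
section

/-!
# X212, PATCH (helper85): radial frames on a chart of the manifold
-/

set_option autoImplicit false
set_option linter.unusedSectionVars false
open Set Filter Topology Function
open scoped ContDiff Manifold InnerProductSpace

noncomputable section
namespace Crest.Agent.X212.Pat85

open Cmp73 Sob92
open Wz78 (nab curv SA Frm)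
open N207.H (crv)

theorem exists_iso {V F : Type} [NormedAddCommGroup V] [InnerProductSpace ℝ V]
    [FiniteDimensional ℝ V] [NormedAddCommGroup F] [InnerProductSpace ℝ F] [FiniteDimensional ℝ F]
    {p : V →L[ℝ] V} (hs : ad p = p) (hi : p ∘L p = p)
    (ht : LinearMap.trace ℝ V (p : V →ₗ[ℝ] V) = Module.finrank ℝ F) :
    ∃ g : F →L[ℝ] V, ad g ∘L g = 1 ∧ g ∘L ad g = p := by
  obtain ⟨b, h1, -, h3⟩ := Std94.exists_frame (T := (p : V →ₗ[ℝ] V))
    (fun w => congrArg (fun L : V →L[ℝ] V => L w) hi) (symm_iff.1 hs) ht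
  let c := stdOrthonormalBasis ℝ F
  let g : F →L[ℝ] V := ∑ i, (innerSL ℝ (c i)).smulRight (b i)
  have g1 : ∀ v, g v = ∑ i, ⟪c i, v⟫_ℝ • b i := fun v => by simp [g, _root_.sum_apply]
  have g2 : ∀ w i, ⟪c i, ad g w⟫_ℝ = ⟪b i, w⟫_ℝ := fun w i => by
    rw [inner_ad', g1]
    simp [orthonormal_iff_ite.1 c.orthonormal]
  refine ⟨g, ?_, ?_⟩
  · ext v
    refine c.toBasis.ext_elem fun i => ?_
    simp only [OrthonormalBasis.coe_toBasis_repr_apply, OrthonormalBasis.repr_apply_apply]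
    change ⟪c i, ad g (g v)⟫_ℝ = ⟪c i, v⟫_ℝ
    rw [g2, g1]
    simpa using h1.inner_right_fintype (fun i => ⟪c i, v⟫_ℝ) i
  · ext w
    change g (ad g w) = p w
    rw [g1]
    simp only [g2]
    exact (h3 w).symm

variable {E : Type} [NormedAddCommGroup E] [NormedSpace ℝ E] [FiniteDimensional ℝ E]
  {HM : Type} [TopologicalSpace HM] {I : ModelWithCorners ℝ E HM} [I.Boundaryless]
  {M : Type} [TopologicalSpace M] [ChartedSpace HM M] [IsManifold I ∞ M]
  {E' : Type} [NormedAddCommGroup E'] [InnerProductSpace ℝ E'] [FiniteDimensional ℝ E']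
  {ι α : Type} [Fintype ι] {φ : OpenPartialHomeomorph M E'}

variable (I) in
/-- a unitary connection with a parallel projector, at a point -/
structure Pc {V : Type} [NormedAddCommGroup V] [InnerProductSpace ℝ V] [FiniteDimensional ℝ V]
    (e : ι → (x : M) → TangentSpace I x) (W : ι → M → V →L[ℝ] V) (p : M → V →L[ℝ] V)
    (J : V →L[ℝ] V) (r : ℕ) (x : M) : Prop where
  sW : ∀ a, SA I (W a) x
  sp : SA I p x
  sk : ∀ a, ad (W a x) = -W a x
  ker : ∀ s : ι → ℝ, ∑ a, s a • e a x = 0 → ∑ a, s a • W a x = 0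
  psym : ad (p x) = p x
  pidem : p x ∘L p x = p x
  prk : LinearMap.trace ℝ V (p x : V →ₗ[ℝ] V) = r
  par : ∀ a, cov I (e a) (W a) (W a) p x = 0
  JW : ∀ a, J ∘L W a x = W a x ∘L J
  Jp : J ∘L p x = p x ∘L J

variable {V : α → Type} [∀ n, NormedAddCommGroup (V n)] [∀ n, InnerProductSpace ℝ (V n)]
  [∀ n, FiniteDimensional ℝ (V n)]

variable (I) in
/-- the hypotheses of the patching theorem -/
structure Dat (l : Filter α) (S : Set M) (e : α → ι → (x : M) → TangentSpace I x)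
    (e₀ : ι → (x : M) → TangentSpace I x) (W : ∀ n, ι → M → V n →L[ℝ] V n)
    (p : ∀ n, M → V n →L[ℝ] V n) (J : ∀ n, V n →L[ℝ] V n) (r : ℕ) : Prop where
  vc : VC I l e e₀
  loc : ∀ x ∉ S, ∀ᶠ q in l ×ˢ 𝓝 x, Pc I (e q.1) (W q.1) (p q.1) (J q.1) r q.2
  crv : ∃ (P : α → ι → ι → M → ℝ) (c : α → ι → ι → ι → M → ℝ), (∀ n, Frm I (e n) (P n) (c n)) ∧ ∀ a b, ∃ R : ∀ n, M → V n →L[ℝ] V n,
    (∀ k x, DB I (iF l Sᶜ x) e (fun n => hom (W n) (W n)) k R) ∧ ∀ x ∉ S, ∀ᶠ q in l ×ˢ 𝓝 x,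
      R q.1 q.2 ∘L p q.1 q.2 = curv I (e q.1) (c q.1) (W q.1) a b q.2 ∘L p q.1 q.2

variable {l : Filter α} {S : Set M} {e : α → ι → (x : M) → TangentSpace I x}
  {e₀ : ι → (x : M) → TangentSpace I x} {W : ∀ n, ι → M → V n →L[ℝ] V n}
  {p : ∀ n, M → V n →L[ℝ] V n} {J : ∀ n, V n →L[ℝ] V n} {r : ℕ}

variable (I) in
/-- the connection form in a chart -/
def chG (φ : OpenPartialHomeomorph M E') (e : α → ι → (x : M) → TangentSpace I x)
    (W : ∀ n, ι → M → V n →L[ℝ] V n) (n : α) (z : E') : E' →L[ℝ] V n →L[ℝ] V n :=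
  comb ι (V n →L[ℝ] V n) (fun a => W n a (φ.symm z)) ∘L rinv fun a => chT I φ e n a z

theorem chG_apply (n : α) (z v : E') : chG I φ e W n z v =
    ∑ a, rinv (fun a => chT I φ e n a z) v a • W n a (φ.symm z) := comb_apply _ _

variable (I φ e W p J r) in
/-- good points of the chart -/
structure Gd (n : α) (z : E') : Prop where
  tg : z ∈ φ.target
  pc : Pc I (e n) (W n) (p n) (J n) r (φ.symm z)
  inv : (gram fun a => chT I φ e n a z).IsInvertible
  sθ : ContDiffAt ℝ ∞ (fun z => rinv fun a => chT I φ e n a z) z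

namespace Gd
variable (hφ : SCh I φ) {n : α} {z : E'} (h : Gd I φ e W p J r n z)
include hφ h

theorem sG : ContDiffAt ℝ ∞ (chG I φ e W n) z :=
  (cda_clm (comb ι (V n →L[ℝ] V n)) (contDiffAt_pi.2 fun a =>
    ((h.pc.sW a).comp z (hφ.sm' z h.tg)).contDiffAt)).clm_comp h.sθ

theorem sk (v : E') : ad (chG I φ e W n z v) = -chG I φ e W n z v := by
  simp only [chG_apply, map_sum, map_smul, h.pc.sk, smul_neg, Finset.sum_neg_distrib]

theorem GT (a : ι) : chG I φ e W n z (chT I φ e n a z) = W n a (φ.symm z) := by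
  classical
  have h1 := congrArg (mfderiv 𝓘(ℝ, E') I φ.symm z) (rinv_sum h.inv (chT I φ e n a z))
  have h2 : ∑ b, rinv (fun a => chT I φ e n a z) (chT I φ e n a z) b • e n b (φ.symm z) =
      e n a (φ.symm z) := by
    rw [← hφ.rel' (e := e) h.tg n a, ← h1]
    refine Eq.trans ?_ (map_sum (mfderiv 𝓘(ℝ, E') I φ.symm z) _ _).symm
    exact Finset.sum_congr rfl fun b _ => by
      rw [← hφ.rel' (e := e) h.tg n b]; exact (map_smul (mfderiv 𝓘(ℝ, E') I φ.symm z) _ _).symm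
  have h3 := h.pc.ker (fun b => rinv (fun a => chT I φ e n a z) (chT I φ e n a z) b -
    if b = a then 1 else 0) (by simp [sub_smul, Finset.sum_sub_distrib, h2])
  rw [chG_apply, ← sub_eq_zero, ← h3]
  simp [sub_smul, Finset.sum_sub_distrib]

theorem par : DifferentiableAt ℝ (fun y => p n (φ.symm y)) z ∧ ∀ v,
    fderiv ℝ (fun y => p n (φ.symm y)) z v + (chG I φ e W n z v ∘L p n (φ.symm z) -
      p n (φ.symm z) ∘L chG I φ e W n z v) = 0 := by
  refine ⟨(h.pc.sp.comp z (hφ.sm' z h.tg)).contDiffAt.differentiableAt (by simp), fun v => ?_⟩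
  rw [← rinv_sum h.inv v]
  simp only [map_sum, map_smul, ContinuousLinearMap.comp_finsetSum,
    ContinuousLinearMap.finsetSum_comp, ContinuousLinearMap.comp_smul,
    ContinuousLinearMap.smul_comp, ← Finset.sum_sub_distrib, ← Finset.sum_add_distrib, ← smul_sub,
    ← smul_add, h.GT hφ]
  refine Finset.sum_eq_zero fun a _ => smul_eq_zero_of_right _ ?_
  rw [← dv_flat (chT I φ e n a), dv_rel (hφ.sm' z h.tg) (hφ.rel' h.tg n a) h.pc.sp,
    ← add_sub_assoc]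
  exact h.pc.par a

theorem JG (v : E') : J n ∘L chG I φ e W n z v = chG I φ e W n z v ∘L J n := by
  simp only [chG_apply, ContinuousLinearMap.comp_finsetSum, ContinuousLinearMap.finsetSum_comp,
    ContinuousLinearMap.comp_smul, ContinuousLinearMap.smul_comp, h.pc.JW]

end Gd

theorem crv_frame (hφ : SCh I φ) {n : α} {z : E'} (h : ∀ᶠ y in 𝓝 z, Gd I φ e W p J r n y)
    {P : ι → ι → M → ℝ} {c : ι → ι → ι → M → ℝ} (F : Frm I (e n) P c) (a b : ι) :
    crv (chG I φ e W n) z (chT I φ e n a z) (chT I φ e n b z) =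
      curv I (e n) c (W n) a b (φ.symm z) := by
  have h0 := h.self_of_nhds
  have hx := φ.map_target h0.tg
  have sφ := hφ.sm _ hx
  have ez := φ.right_inv h0.tg
  have sG : SA 𝓘(ℝ, E') (chG I φ e W n) (φ (φ.symm z)) := by rw [ez]; exact (h0.sG hφ).contMDiffAt
  have key : ∀ a b, dv I (e n a) (W n b) (φ.symm z) =
      fderiv ℝ (chG I φ e W n) z (chT I φ e n a z) (chT I φ e n b z) +
        chG I φ e W n z (dv I (e n a) (dv I (e n b) φ) (φ.symm z)) := fun a b => by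
    have e1 : W n b =ᶠ[𝓝 (φ.symm z)] fun y => chG I φ e W n (φ y) (dv I (e n b) φ y) := by
      have h1 : ∀ᶠ y in 𝓝 (φ (φ.symm z)), Gd I φ e W p J r n y := by rwa [ez]
      filter_upwards [sφ.continuousAt.eventually h1, φ.open_source.mem_nhds hx] with y h2 h3
      have := h2.GT hφ b
      rw [chT, φ.left_inv h3] at this
      exact this.symm
    rw [dv_congr e1, dv_app (f := fun y => chG I φ e W n (φ y)) (SA.md (sG.comp _ sφ)) (F.sD b sφ).md,
      dv_rel sφ (hφ.rel hx n a) sG, dv_flat, ez]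
    rfl
  have h1 := congrArg (chG I φ e W n z) (F.brV a b sφ)
  rw [map_sub, map_sum] at h1
  have h2 : ∀ k, chG I φ e W n z (c a b k (φ.symm z) • dv I (e n k) φ (φ.symm z)) =
      c a b k (φ.symm z) • W n k (φ.symm z) := fun k => by rw [map_smul, ← h0.GT hφ k]; rfl
  simp only [h2] at h1
  rw [crv, curv, key, key, ← h1, h0.GT hφ, h0.GT hφ]
  abel

variable {F : Type} [NormedAddCommGroup F] [InnerProductSpace ℝ F] [FiniteDimensional ℝ F] {c : E'}

theorem SCh.pl (hφ : SCh I φ) {w : E'} (hw : w ∈ φ.target) {P : α → M → Prop}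
    (hP : ∀ᶠ q in l ×ˢ 𝓝 (φ.symm w), P q.1 q.2) : ∀ᶠ q in l ×ˢ 𝓝 w, P q.1 (φ.symm q.2) :=
  (tendsto_id.prodMap (hφ.sm' w hw).continuousAt.tendsto).eventually hP

theorem SCh.ps (hφ : SCh I φ) {x : M} (hx : x ∈ φ.source) {P : α → E' → Prop}
    (hP : ∀ᶠ q in l ×ˢ 𝓝 (φ x), P q.1 q.2) : ∀ᶠ q in l ×ˢ 𝓝 x, P q.1 (φ q.2) :=
  (tendsto_id.prodMap (hφ.sm x hx).continuousAt.tendsto).eventually hP

theorem Gd.fra (hφ : SCh I φ) {n : α} {y : M} (hy : y ∈ φ.source) (h : Gd I φ e W p J r n (φ y))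
    {g : E' → F →L[ℝ] V n} (hg : RF (chG I φ e W n) (fun y => p n (φ.symm y)) c g (φ y))
    (hT : ∀ a, ContDiffAt ℝ ∞ (chT I φ e n a) (φ y)) :
    Fra I (e n) (W n) (p n) (fun a x => rcn (chG I φ e W n) g (φ x) (chT I φ e n a (φ x)))
      (fun x => g (φ x)) y := by
  have ey : φ.symm (φ y) = y := φ.left_inv hy
  have sφ := hφ.sm y hy
  refine ⟨hg.sg.contMDiffAt.comp y sφ, fun a => (hg.sB.clm_apply (hT a)).contMDiffAt.comp y sφ,
    hg.iso, hg.rg.trans (congrArg (p n) ey), fun a => ?_, fun a => hg.skB _, fun a => ?_⟩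
  · have := h.pc.sk a
    rwa [ey] at this
  · simp only [cov]
    rw [dv_rel sφ (hφ.rel hy n a) hg.sg.contMDiffAt, dv_flat, hg.par, h.GT hφ, ey]
    abel

namespace Dat
variable [l.NeBot] (h : Dat I l S e e₀ W p J r) (hφ : SCh I φ)
include h hφ

theorem gd (c z : E') :
    ∀ᶠ q in sF l (φ.target ∩ φ.symm ⁻¹' Sᶜ) c z, Gd I φ e W p J r q.1 q.2 := sF_ev fun w hw => by
  filter_upwards [hφ.pl (P := fun n y => Pc I (e n) (W n) (p n) (J n) r y) hw.1 (h.loc _ hw.2),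
    (hφ.ff h.vc hw.1).2, ((hφ.ff h.vc hw.1).1.cθ 0).smooth,
    tendsto_snd.eventually (φ.open_target.eventually_mem hw.1)] with q a1 a2 a3 a4
  exact ⟨a4, a1, a2, a3⟩

theorem ff {z : E'} (sg : segment ℝ c z ⊆ φ.target) : FF (sF l (φ.target ∩ φ.symm ⁻¹' Sᶜ) c z)
    (chT I φ e) fun n y => rinv fun a => chT I φ e n a y :=
  ⟨sb_sF.ob, fun k a => sF_cb fun _ hw => ((hφ.ff h.vc (sg hw)).1.cT k a).mono iF_le,
    fun k => sF_cb fun _ hw => ((hφ.ff h.vc (sg hw)).1.cθ k).mono iF_le,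
    sF_ev fun _ hw => (hφ.ff h.vc hw.1).1.sp⟩

theorem cb {z : E'} (sg : segment ℝ c z ⊆ φ.target) {g : ∀ n, E' → F →L[ℝ] V n}
    (rf : ∀ᶠ q in sF l (φ.target ∩ φ.symm ⁻¹' Sᶜ) c z,
      RF (chG I φ e W q.1) (fun y => p q.1 (φ.symm y)) c (g q.1) q.2) (k : ℕ) :
    CB (sF l (φ.target ∩ φ.symm ⁻¹' Sᶜ) c z) k fun n => rcn (chG I φ e W n) (g n) := by
  obtain ⟨P, c', hFr, hR⟩ := h.crv
  choose R R1 R2 using hR
  have ff := h.ff hφ sg
  have gd := h.gd hφ c z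
  refine cb_rcn (p := fun n y => p n (φ.symm y)) ff sb_sF ?_ rf
    (R := fun a b n y => R a b n (φ.symm y)) (fun k a b => ?_) ?_ k
  · exact sF_ex (P := fun K q => ‖q.2 - c‖ ≤ K) (fun _ _ _ a b => b.trans a) fun w _ =>
      ⟨‖w - c‖ + 1, iF_le (tendsto_snd.eventually
        ((continuous_id.sub continuous_const).norm.continuousAt.eventually
          (Iic_mem_nhds (lt_add_one _))))⟩
  · refine DB.congr' ff.ob (.of_forall fun _ _ => rfl) (gd.mono fun q hq a => ?_)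
      (sF_db fun w hw => hφ.to_flat (sg hw) (R1 a b k _)) (.of_forall fun _ => rfl)
    simp only [hom, hq.GT hφ]
  · filter_upwards [ff.ob.ev gd, rf, sF_ev fun w hw => hφ.pl (P := fun n y => ∀ a b,
      R a b n y ∘L p n y = curv I (e n) (c' n) (W n) a b y ∘L p n y) hw.1
      (eventually_all.2 fun a => eventually_all.2 fun b => R2 a b _ hw.2)] with q a1 a2 a3 a b
    have e1 : p q.1 (φ.symm q.2) ∘L g q.1 q.2 = g q.1 q.2 := by
      rw [← a2.rg, ContinuousLinearMap.comp_assoc, a2.iso]; rfl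
    rw [crv_frame hφ a1 (hFr q.1), ← e1, ← ContinuousLinearMap.comp_assoc, a3,
      ContinuousLinearMap.comp_assoc]

theorem exists_rf (hF : Module.finrank ℝ F = r) (c : E') :
    ∃ (g : ∀ n, E' → F →L[ℝ] V n) (J₀ : α → F →L[ℝ] F), ∀ z,
      ∀ᶠ q in sF l (φ.target ∩ φ.symm ⁻¹' Sᶜ) c z,
        RF (chG I φ e W q.1) (fun y => p q.1 (φ.symm y)) c (g q.1) q.2 ∧
          J q.1 ∘L g q.1 q.2 = g q.1 q.2 ∘L J₀ q.1 := by
  have : ∀ n, ∃ g₀ : F →L[ℝ] V n, Gd I φ e W p J r n c →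
      ad g₀ ∘L g₀ = 1 ∧ g₀ ∘L ad g₀ = p n (φ.symm c) := fun n => by
    by_cases h1 : Gd I φ e W p J r n c
    · exact (exists_iso h1.pc.psym h1.pc.pidem (hF ▸ h1.pc.prk)).imp fun _ a _ => a
    · exact ⟨0, fun a => absurd a h1⟩
  choose g₀ hg₀ using this
  choose g hg using fun n => Pat85.exists_rf (chG I φ e W n) (fun y => p n (φ.symm y)) c (g₀ n)
  refine ⟨g, fun n => ad (g₀ n) ∘L J n ∘L g₀ n, fun z => ?_⟩
  filter_upwards [sb_sF _ (h.gd hφ c z)] with q hq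
  have a : ∀ y ∈ interior {z | Gd I φ e W p J r q.1 z}, Gd I φ e W p J r q.1 y :=
    fun y hy => interior_subset (s := {z | Gd I φ e W p J r q.1 z}) hy
  have a0 := a c (hq (left_mem_segment ℝ c q.2))
  obtain ⟨b1, b2⟩ := hg q.1 _ isOpen_interior (hg₀ q.1 a0).1 (hg₀ q.1 a0).2
    (fun y hy => ⟨(a y hy).sG hφ, (a y hy).sk hφ⟩) (fun y hy => (a y hy).par hφ) q.2 hq
  exact ⟨b1, b2 _ a0.pc.Jp fun y hy => (a y hy).JG hφ⟩

/-- **radial frames on a chart** -/
theorem exists_fra (hc : Convex ℝ φ.target) (hc' : c ∈ φ.target) (hF : Module.finrank ℝ F = r) :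
    ∃ (g : ∀ n, M → F →L[ℝ] V n) (B : α → ι → M → F →L[ℝ] F) (J₀ : α → F →L[ℝ] F),
      (∀ x ∈ φ.source ∩ φ ⁻¹' vis (φ.target ∩ φ.symm ⁻¹' Sᶜ) c, ∀ᶠ q in l ×ˢ 𝓝 x,
        Fra I (e q.1) (W q.1) (p q.1) (B q.1) (g q.1) q.2 ∧
          J q.1 ∘L g q.1 q.2 = g q.1 q.2 ∘L J₀ q.1) ∧
      ∀ x ∈ φ.source, ∀ k a, DB I (iF l (φ.source ∩ φ ⁻¹' vis (φ.target ∩ φ.symm ⁻¹' Sᶜ) c) x) e
        (z0 ι M fun _ => F →L[ℝ] F) k fun n => B n a := by
  obtain ⟨g, J₀, rf⟩ := h.exists_rf hφ hF c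
  refine ⟨fun n x => g n (φ x), fun n a x => rcn (chG I φ e W n) (g n) (φ x) (chT I φ e n a (φ x)),
    J₀, fun x hx => ?_, fun x hx k a => ?_⟩
  · have h1 : l ×ˢ 𝓝 (φ x) ≤ sF l (φ.target ∩ φ.symm ⁻¹' Sᶜ) c (φ x) :=
      (le_iF (T := vis (φ.target ∩ φ.symm ⁻¹' Sᶜ) c) (x := φ x) hx.2).trans iF_le_sF
    have b1 := (rf (φ x)).filter_mono h1
    have b2 := (h.gd hφ c (φ x)).filter_mono h1
    have b3 : ∀ᶠ q in l ×ˢ 𝓝 (φ x), ∀ a, ContDiffAt ℝ ∞ (chT I φ e q.1 a) q.2 :=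
      eventually_all.2 fun a => ((hφ.ff h.vc (φ.map_source hx.1)).1.cT 0 a).smooth
    have t := tendsto_id.prodMap (hφ.sm x hx.1).continuousAt.tendsto (a := l)
    filter_upwards [t.eventually b1, t.eventually b2, t.eventually b3,
      tendsto_snd.eventually (φ.open_source.eventually_mem hx.1)] with q a1 a2 a3 a4
    exact ⟨a2.fra hφ a4 a1.1 a3, a1.2⟩
  · have sg : segment ℝ c (φ x) ⊆ φ.target := hc.segment_subset hc' (φ.map_source hx)
    have ff := h.ff hφ sg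
    exact hφ.of_flat hx (f := fun n z => rcn (chG I φ e W n) (g n) z (chT I φ e n a z))
      ((ff.mono ob_iF iF_le_sF).db (((h.cb hφ sg ((rf _).mono fun _ a => a.1) k).app
        (ff.cT k a)).mono iF_le_sF))

end Dat

end Crest.Agent.X212.Pat85
end
end

-- ▼ part X212/Pat85/Ext

/-!
# X212, PATCH (helper85): limits which extend over thin sets, the atlas of radial frames

`EX I l U Ω f g` : `f n → g` smoothly on `Ω` and `g` is smooth on `U`.
-/

set_option autoImplicit false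
set_option linter.unusedSectionVars false
open Set Filter Topology Function
open scoped ContDiff Manifold InnerProductSpace

noncomputable section
namespace Crest.Agent.X212.Pat85

open Cmp73 Sob92
open Wz78 (nab curv SA Frm)
open Eps63 (Thin)
open Std94 (Kl)

variable {E : Type} [NormedAddCommGroup E] [NormedSpace ℝ E] [FiniteDimensional ℝ E]
  {HM : Type} [TopologicalSpace HM] {I : ModelWithCorners ℝ E HM} [I.Boundaryless]
  {M : Type} [TopologicalSpace M] [ChartedSpace HM M] [IsManifold I ∞ M]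
  {E' : Type} [NormedAddCommGroup E'] [InnerProductSpace ℝ E'] [FiniteDimensional ℝ E']
  {ι α : Type} [Fintype ι] {G H N : Type} [NormedAddCommGroup G] [NormedSpace ℝ G]
  [NormedAddCommGroup H] [NormedSpace ℝ H] [NormedAddCommGroup N] [NormedSpace ℝ N]
  {l : Filter α} {U U' Ω Ω' S : Set M} {x : M} {k : ℕ} {f f' : α → M → G} {g g' : M → G}
  {e : α → ι → (x : M) → TangentSpace I x} {e₀ : ι → (x : M) → TangentSpace I x}

theorem neBot_iF [l.NeBot] (hx : x ∈ closure Ω) : (iF l Ω x).NeBot := by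
  have := mem_closure_iff_nhdsWithin_neBot.1 hx
  refine ⟨fun h => ?_⟩
  obtain ⟨y, hy⟩ := (ev_iF.1 (h ▸ eventually_bot : ∀ᶠ _q in iF l Ω x, False)).exists
  exact hy.exists.elim fun _ a => a

theorem ev_iF_snd (hΩ : IsOpen Ω) {p : M → Prop} (h : ∀ᶠ y in 𝓝[Ω] x, p y) :
    ∀ᶠ q in iF l Ω x, p q.2 := by
  obtain ⟨O, h1, h2, h3⟩ := mem_nhdsWithin.1 h
  refine ev_iF.2 ?_
  filter_upwards [self_mem_nhdsWithin, nhdsWithin_le_nhds (h1.mem_nhds h2)] with y a b
  exact tendsto_snd.eventually (((h1.inter hΩ).eventually_mem ⟨b, a⟩).mono fun z hz => h3 hz)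

variable (I) in
/-- smooth convergence on `Ω` to a function which is smooth on `U` -/
structure EX (l : Filter α) (U Ω : Set M) (f : α → M → G) (g : M → G) : Prop where
  sm : ∀ x ∈ U, SA I g x
  cv : Cv I l Ω f g

/-- a family and its limit as one function -/
def oj (f : α → M → G) (g : M → G) : Option α × M → G := fun q => q.1.elim (g q.2) (f · q.2)

variable (I) in
/-- the class of `EX` -/
def exK (l : Filter α) (U Ω : Set M) : Kl (Option α × M) :=
  ⟨fun F => EX I l U Ω (fun n x => F (some n, x)) fun x => F (none, x),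
    fun c => ⟨fun _ _ => contMDiffAt_const, Cv.const c⟩,
    fun a b => ⟨fun x hx => (a.sm x hx).add (b.sm x hx), a.cv.add b.cv⟩,
    fun a b => ⟨fun x hx => (a.sm x hx).clm_apply (b.sm x hx), a.cv.app b.cv⟩⟩

namespace EX

theorem kl (h : EX I l U Ω f g) : (exK I l U Ω).mem (oj f g) := h

theorem mono (h : EX I l U Ω f g) (hU : U' ⊆ U) (hΩ : Ω' ⊆ Ω) : EX I l U' Ω' f g :=
  ⟨fun x hx => h.sm x (hU hx), h.cv.mono le_rfl hΩ⟩

theorem tend (h : EX I l U Ω f g) (hx : x ∈ U) :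
    Tendsto (fun q : α × M => f q.1 q.2) (iF l Ω x) (𝓝 (g x)) := fun s hs => by
  obtain ⟨t, h1, h2, h3⟩ := mem_nhds_iff.1 hs
  refine ev_iF.2 ?_
  filter_upwards [self_mem_nhdsWithin, nhdsWithin_le_nhds
    ((h.sm x hx).continuousAt.eventually (h2.eventually_mem h3))] with y a b
  exact ((h.cv.tendsto a).eventually (h2.eventually_mem b)).mono fun _ c => h1 c

/-- identities pass to the limit -/
theorem eq [l.NeBot] (h : EX I l U Ω f g) (h' : EX I l U Ω f' g') (hx : x ∈ U)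
    (hc : x ∈ closure Ω) (e : ∀ y ∈ Ω, ∀ᶠ q in l ×ˢ 𝓝 y, f q.1 q.2 = f' q.1 q.2) : g x = g' x :=
  have := neBot_iF (l := l) hc
  tendsto_nhds_unique_of_eventuallyEq (h.tend hx) (h'.tend hx) (ev_iF_of e)

theorem congr (h : EX I l U Ω f g) (e : ∀ y ∈ Ω, ∀ᶠ q in l ×ˢ 𝓝 y, f' q.1 q.2 = f q.1 q.2) :
    EX I l U Ω f' g := ⟨h.sm, h.cv.congr e fun _ _ => rfl⟩

theorem congr_lim (h : EX I l U Ω f g) (hU : IsOpen U) (hΩ : Ω ⊆ U) (e : ∀ y ∈ U, g' y = g y) :
    EX I l U Ω f g' :=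
  ⟨fun x hx => (h.sm x hx).congr_of_eventuallyEq ((hU.eventually_mem hx).mono e),
    h.cv.congr (fun _ _ => .of_forall fun _ => rfl) fun x hx => e x (hΩ hx)⟩

theorem fixed (hΩ : IsOpen Ω) (hU : Ω ⊆ U) (h : ∀ x ∈ U, SA I g x) : EX I l U Ω (fun _ => g) g :=
  ⟨h, Cv.fixed hΩ fun x hx => h x (hU hx)⟩

theorem fixed' (h : ∀ x, SA I g x) : EX I l U Ω (fun _ => g) g := ⟨fun x _ => h x, Cv.fixed' h⟩

theorem of_cv [FiniteDimensional ℝ G] [l.NeBot] (h : Cv I l univ f g) : EX I l U Ω f g :=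
  ⟨fun _ _ => h.smoothAt isOpen_univ trivial, h.mono le_rfl (subset_univ _)⟩

theorem consts {c : α → G} {d : G} (h : Tendsto c l (𝓝 d)) :
    EX I l U Ω (fun i _ => c i) fun _ => d := ⟨fun _ _ => contMDiffAt_const, Cv.consts h⟩

theorem const (c : G) : EX I l U Ω (fun _ _ => c) fun _ => c := consts tendsto_const_nhds

theorem add (h : EX I l U Ω f g) (h' : EX I l U Ω f' g') :
    EX I l U Ω (fun i x => f i x + f' i x) fun x => g x + g' x := (exK I l U Ω).add h.kl h'.kl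

theorem sub (h : EX I l U Ω f g) (h' : EX I l U Ω f' g') :
    EX I l U Ω (fun i x => f i x - f' i x) fun x => g x - g' x := Kl.sub h.kl h'.kl

theorem neg (h : EX I l U Ω f g) : EX I l U Ω (fun i x => -f i x) fun x => -g x := Kl.neg h.kl

theorem clm (T : G →L[ℝ] H) (h : EX I l U Ω f g) :
    EX I l U Ω (fun i x => T (f i x)) fun x => T (g x) := Kl.clm T h.kl

theorem app {A : α → M → G →L[ℝ] H} {B : M → G →L[ℝ] H} (hA : EX I l U Ω A B) (h : EX I l U Ω f g) :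
    EX I l U Ω (fun i x => A i x (f i x)) fun x => B x (g x) := (exK I l U Ω).app hA.kl h.kl

theorem appc {A : α → M → G →L[ℝ] H} {B : M → G →L[ℝ] H} (hA : EX I l U Ω A B) (v : G) :
    EX I l U Ω (fun i x => A i x v) fun x => B x v := hA.app (const v)

theorem bil (β : G →L[ℝ] H →L[ℝ] N) (h : EX I l U Ω f g) {u : α → M → H} {v : M → H}
    (h' : EX I l U Ω u v) : EX I l U Ω (fun i x => β (f i x) (u i x)) fun x => β (g x) (v x) :=
  Kl.bil β h.kl h'.kl

theorem comp {A : α → M → G →L[ℝ] H} {B : M → G →L[ℝ] H} {A' : α → M → N →L[ℝ] G}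
    {B' : M → N →L[ℝ] G} (h : EX I l U Ω A B) (h' : EX I l U Ω A' B') :
    EX I l U Ω (fun i x => A i x ∘L A' i x) fun x => B x ∘L B' x := Kl.comp h.kl h'.kl

theorem mul {A A' : α → M → G →L[ℝ] G} {B B' : M → G →L[ℝ] G} (h : EX I l U Ω A B)
    (h' : EX I l U Ω A' B') : EX I l U Ω (fun i x => A i x * A' i x) fun x => B x * B' x :=
  h.comp h'

theorem smul {u : α → M → ℝ} {v : M → ℝ} (hu : EX I l U Ω u v) (h : EX I l U Ω f g) :
    EX I l U Ω (fun i x => u i x • f i x) fun x => v x • g x := Kl.smul hu.kl h.kl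

theorem csmul (c : ℝ) (h : EX I l U Ω f g) :
    EX I l U Ω (fun i x => c • f i x) fun x => c • g x := Kl.csmul c h.kl

theorem sum {β : Type} [Fintype β] {w : β → α → M → G} {v : β → M → G}
    (h : ∀ a, EX I l U Ω (w a) (v a)) :
    EX I l U Ω (fun i x => ∑ a, w a i x) fun x => ∑ a, v a x :=
  Kl.fsum (K := exK I l U Ω) Finset.univ fun a => (h a).kl

theorem dv [FiniteDimensional ℝ G] [l.NeBot] (h : EX I l U Ω f g) (hv : VC I l e e₀)
    (hΩ : IsOpen Ω) (a : ι) : EX I l U Ω (fun n => dv I (e n a) (f n)) (dv I (e₀ a) g) :=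
  ⟨fun x hx => dv_smoothAt (hv.s0 a x) (h.sm x hx), hv.dv hΩ h.cv a⟩

theorem nab [FiniteDimensional ℝ G] [l.NeBot] (h : EX I l U Ω f g) (hv : VC I l e e₀)
    (hΩ : IsOpen Ω) {A : α → ι → M → G →L[ℝ] G} {A₀ : ι → M → G →L[ℝ] G} (a : ι)
    (hA : EX I l U Ω (fun n => A n a) (A₀ a)) :
    EX I l U Ω (fun n => nab I (e n) (A n) a (f n)) (nab I e₀ A₀ a g) :=
  (h.dv hv hΩ a).add (hA.app h)

theorem of_apply [FiniteDimensional ℝ G] {A : α → M → G →L[ℝ] H} {B : G → M → H}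
    (h : ∀ v, EX I l U Ω (fun n x => A n x v) (B v)) : ∃ B', EX I l U Ω A B' := by
  let b := Module.finBasis ℝ G
  let c := fun i => ContinuousLinearMap.smulRightL ℝ G H (b.coord i).toContinuousLinearMap
  refine ⟨_, (sum fun i => (h (b i)).clm (c i)).congr fun _ _ => .of_forall fun q => ?_⟩
  ext v
  conv_lhs => rw [← b.sum_repr v, map_sum]
  simp [c, _root_.sum_apply]

end EX

/-- **bounds pass to the limit** -/
theorem DB.lim [l.NeBot] [FiniteDimensional ℝ G] (hv : VC I l e e₀) (hΩ : IsOpen Ω)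
    {A : α → ι → M → G →L[ℝ] G} {A₀ : ι → M → G →L[ℝ] G}
    (hA : ∀ a, Cv I l Ω (fun n => A n a) (A₀ a)) : ∀ {k : ℕ} {f : α → M → G} {g : M → G},
    Cv I l Ω f g → DB I (iF l Ω x) e A k f →
    DB I (iF l Ω x) (fun _ => e₀) (fun _ => A₀) k fun _ => g := by
  have h0 : ∀ {f : α → M → G} {g : M → G}, Cv I l Ω f g → D0 I (iF l Ω x) f →
      D0 I (iF l Ω x) fun _ => g := fun {f g} h h' =>
    ⟨ev_iF_snd hΩ (eventually_nhdsWithin_of_forall fun y hy => h.smoothAt hΩ hy),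
      h'.2.imp fun K hK => ev_iF_snd (p := fun y => ‖g y‖ ≤ K) hΩ
        (((ev_iF.1 hK).and self_mem_nhdsWithin).mono fun y hy =>
          le_of_tendsto (h.pt y hy.2).norm (ev_at (p := fun n y => ‖f n y‖ ≤ K) hy.1))⟩
  intro k
  induction k with
  | zero => exact h0
  | succ k ih => exact fun h h' => ⟨h0 h h'.1, fun a =>
      ih ((hv.dv hΩ h a).add ((hA a).app h)) (h'.2 a)⟩

/-- bounds on a dense subset -/
theorem DB.dense [l.NeBot] (he : SmV I e₀) (hU : IsOpen U) (hd : U ⊆ closure Ω) :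
    ∀ {k : ℕ} {g : M → G}, (∀ y ∈ U, SA I g y) →
    DB I (iF l Ω x) (fun _ => e₀) (z0 ι M fun _ => G) k (fun _ => g) →
    DB I (iF l U x) (fun _ => e₀) (z0 ι M fun _ => G) k fun _ => g := by
  have h0 : ∀ {g : M → G}, (∀ y ∈ U, SA I g y) → D0 I (iF l Ω x) (fun _ => g) →
      D0 I (iF l U x) fun _ => g := fun {g} h h' => by
    refine ⟨ev_iF_snd hU (eventually_nhdsWithin_of_forall h), h'.2.imp fun K hK =>
      ev_iF_snd (p := fun y => ‖g y‖ ≤ K) hU ?_⟩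
    obtain ⟨O, h1, h2, h3⟩ := mem_nhdsWithin.1 (ev_iF.1 hK)
    filter_upwards [self_mem_nhdsWithin, nhdsWithin_le_nhds (h1.mem_nhds h2)] with y a b
    have := mem_closure_iff_nhdsWithin_neBot.1 (hd a)
    refine le_of_tendsto ((h y a).continuousAt.norm.tendsto.mono_left
      (nhdsWithin_le_nhds (s := Ω))) ?_
    filter_upwards [self_mem_nhdsWithin, nhdsWithin_le_nhds (h1.mem_nhds b)] with z c d
    exact (ev_at (p := fun _ y => ‖g y‖ ≤ K) (h3 ⟨d, c⟩)).exists.elim fun _ a => a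
  intro k
  induction k with
  | zero => exact h0
  | succ k ih => exact fun h h' => ⟨h0 h h'.1, fun a => ih (fun y hy =>
      (dv_smoothAt (he a y) (h y hy)).add (contMDiffAt_const.clm_apply (h y hy))) (h'.2 a)⟩

variable (I) in
/-- `Ω` is the complement of a thin set in the chart domain `U` -/
structure Tch (E' : Type) [NormedAddCommGroup E'] [InnerProductSpace ℝ E'] (U Ω : Set M) :
    Prop where
  opU : IsOpen U
  op : IsOpen Ω
  sub : Ω ⊆ U
  ch : ∃ φ : OpenPartialHomeomorph M E', SCh I φ ∧ U ⊆ φ.source ∧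
    ∃ Z, Thin Z ∧ ∀ x ∈ U, φ x ∉ Z → x ∈ Ω

namespace Tch
variable {𝒰 : Ultrafilter α}

theorem inter (h : Tch I E' U Ω) (hU : IsOpen U') : Tch I E' (U ∩ U') (Ω ∩ U') :=
  let ⟨φ, a, b, Z, c, d⟩ := h.ch
  ⟨h.opU.inter hU, h.op.inter hU, inter_subset_inter_left _ h.sub, φ, a,
    inter_subset_left.trans b, Z, c, fun x hx hZ => ⟨d x hx.1 hZ, hx.2⟩⟩

theorem dense (h : Tch I E' U Ω) : U ⊆ closure Ω := fun _ hx =>
  let ⟨_, a, b, _, c, d⟩ := h.ch; a.mem_closure c h.opU b d hx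

theorem dense₂ (h : Tch I E' U Ω) (h' : Tch I E' U' Ω') : U ∩ U' ⊆ closure (Ω ∩ Ω') := by
  refine (h'.inter h.opU).dense.trans' (inter_comm U U').subset |>.trans
    (closure_minimal ?_ isClosed_closure)
  rw [inter_comm]
  exact (h.inter h'.op).dense

theorem ext [FiniteDimensional ℝ G] (h : Tch I E' U Ω) (hv : VC I (𝒰 : Filter α) e e₀)
    (hf : ∀ k, ∀ x ∈ U, DB I (iF 𝒰 Ω x) e (z0 ι M fun _ => G) k f) : ∃ g, EX I 𝒰 U Ω f g :=
  let ⟨_, a, b, _, c, d⟩ := h.ch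
  (a.ext_lim hv c h.opU h.op b h.sub d hf).imp fun _ a => ⟨a.1, a.2⟩

theorem ext₂ [FiniteDimensional ℝ G] (h : Tch I E' U Ω) (h' : Tch I E' U' Ω')
    (hv : VC I (𝒰 : Filter α) e e₀)
    (hf : ∀ k, ∀ x ∈ U ∩ U', DB I (iF 𝒰 (Ω ∩ Ω') x) e (z0 ι M fun _ => G) k f) :
    ∃ g, EX I 𝒰 (U ∩ U') (Ω ∩ Ω') f g := by
  have h1 := h.inter h'.op
  obtain ⟨g, hg⟩ := h1.ext hv fun k x hx => hf k x ⟨hx.1, h'.sub hx.2⟩
  obtain ⟨g', hg'⟩ := (h'.inter h.opU).ext (f := fun _ => g) (hv.const 𝒰) fun k x hx => by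
    rw [inter_comm Ω']
    exact DB.dense hv.s0 h1.opU h1.dense hg.sm (DB.lim hv h1.op (A₀ := fun _ _ => 0)
      (fun _ => Cv.const 0) hg.cv (hf k x hx.symm))
  exact ⟨g', fun x hx => hg'.sm x hx.symm, hg.cv.congr (fun _ _ => .of_forall fun _ => rfl)
    fun x hx => tendsto_nhds_unique (hg'.cv.pt x ⟨hx.2, h.sub hx.1⟩) tendsto_const_nhds⟩

end Tch

theorem pre_compl (φ : OpenPartialHomeomorph M E') :
    φ.target ∩ φ.symm ⁻¹' Sᶜ = φ.target \ φ '' (S ∩ φ.source) := by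
  ext y
  refine and_congr_right fun hy => ⟨?_, fun h h' => h ⟨_, ⟨h', φ.map_target hy⟩, φ.right_inv hy⟩⟩
  rintro h ⟨x, hx, rfl⟩
  exact h (by rw [φ.left_inv hx.2]; exact hx.1)

theorem tch_point (hd : 3 < Module.finrank ℝ E) (hS : IsClosed S) (hc : S.Countable) (x : M) :
    Tch I (EuclideanSpace ℝ (Fin (Module.finrank ℝ E))) (chartAt HM x).source
      ((chartAt HM x).source ∩ Sᶜ) :=
  ⟨(chartAt HM x).open_source, (chartAt HM x).open_source.inter hS.isOpen_compl, inter_subset_left,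
    echart I toEuclidean x, sch_echart _ x, (echart_source _ x).superset, _,
    thin_lines (by simpa using hd) 0 (hc.image (echart I toEuclidean x)),
    fun y hy h => ⟨hy, fun hs => h ⟨_, ⟨y, hs, rfl⟩, 1, by simp⟩⟩⟩

theorem dense_compl (I : ModelWithCorners ℝ E HM) [I.Boundaryless] [IsManifold I ∞ M]
    (hd : 3 < Module.finrank ℝ E) (hS : IsClosed S) (hc : S.Countable) (x : M) :
    x ∈ closure Sᶜ :=
  closure_mono inter_subset_right ((tch_point (I := I) hd hS hc x).dense (mem_chart_source HM x))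

/-- **removal of the exceptional set** -/
theorem ext_S [FiniteDimensional ℝ G] {𝒰 : Ultrafilter α} (hv : VC I (𝒰 : Filter α) e e₀)
    (hd : 3 < Module.finrank ℝ E) (hS : IsClosed S) (hc : S.Countable)
    {A : α → ι → M → G →L[ℝ] G} {A₀ : ι → M → G →L[ℝ] G}
    (hA : ∀ a, EX I 𝒰 univ Sᶜ (fun n => A n a) (A₀ a))
    (hf : ∀ k x, DB I (iF 𝒰 Sᶜ x) e A k f) : ∃ g, EX I 𝒰 univ Sᶜ f g := by
  have op := hS.isOpen_compl
  obtain ⟨g, hg⟩ := MBOn.exists_cv (I := I) (𝒰 := 𝒰) (Ω := Sᶜ) (f := f) fun k x hx =>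
    hv.to_mb (DB.plain (ob_prod _ _) (fun j _ a => hv.to_db ((hA a).cv.mb j x hx))
      (iF_eq (l := (𝒰 : Filter α)) hx ▸ hf k x))
  have t := tch_point (I := I) hd hS hc
  choose w hw using fun x => (t x).ext (f := fun _ => g) (hv.const 𝒰) fun k y _ =>
    (DB.plain ob_iF (fun j _ a => (hv.const 𝒰).db_fixed (.of_forall fun z => (hA a).sm z trivial))
      (DB.lim hv op (fun a => (hA a).cv) hg (hf k y))).mono (iF_mono inter_subset_right)
  have key : ∀ x, ∀ y ∈ (chartAt HM x).source, w y y = w x y := fun x y hy =>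
    ((hw y).mono inter_subset_left inter_subset_left).eq
      ((hw x).mono inter_subset_right inter_subset_right) ⟨mem_chart_source HM y, hy⟩
      ((t y).dense₂ (t x) ⟨mem_chart_source HM y, hy⟩) fun _ _ => .of_forall fun _ => rfl
  refine ⟨fun y => w y y, fun x _ => ((hw x).sm x (mem_chart_source HM x)).congr_of_eventuallyEq
    (Eventually.mono (chart_source_mem_nhds HM x) (key x)),
    hg.congr (fun _ _ => .of_forall fun _ => rfl) fun x hx =>
      tendsto_nhds_unique ((hw x).cv.pt x ⟨mem_chart_source HM x, hx⟩) tendsto_const_nhds⟩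

variable {V : α → Type} [∀ n, NormedAddCommGroup (V n)] [∀ n, InnerProductSpace ℝ (V n)]
  [∀ n, FiniteDimensional ℝ (V n)] {W : ∀ n, ι → M → V n →L[ℝ] V n}
  {p : ∀ n, M → V n →L[ℝ] V n} {J : ∀ n, V n →L[ℝ] V n} {r : ℕ}
  {F : Type} [NormedAddCommGroup F] [InnerProductSpace ℝ F] [FiniteDimensional ℝ F]

variable (I l e W p J) in
/-- parallel frames on `Ω` with connection matrices which are bounded near the points of `U` -/
structure Frs (E' : Type) [NormedAddCommGroup E'] [InnerProductSpace ℝ E'] (U Ω : Set M)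
    (g : ∀ n, M → F →L[ℝ] V n) (B : α → ι → M → F →L[ℝ] F) (J₀ : α → F →L[ℝ] F) : Prop where
  tch : Tch I E' U Ω
  ne : Ω.Nonempty
  fra : ∀ x ∈ Ω, ∀ᶠ q in l ×ˢ 𝓝 x, Fra I (e q.1) (W q.1) (p q.1) (B q.1) (g q.1) q.2
  hJ : ∀ x ∈ Ω, ∀ᶠ q in l ×ˢ 𝓝 x, J q.1 ∘L g q.1 q.2 = g q.1 q.2 ∘L J₀ q.1
  db : ∀ x ∈ U, ∀ k a, DB I (iF l Ω x) e (z0 ι M fun _ => F →L[ℝ] F) k fun n => B n a

/-- **the atlas of radial frames** -/
theorem Dat.atlas [l.NeBot] (h : Dat I l S e e₀ W p J r) (hS : IsClosed S) (hc : S.Countable)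
    (hM : CvxOn I E' (univ : Set M)) (hd : 3 < Module.finrank ℝ E')
    (hF : Module.finrank ℝ F = r) :
    ∃ (K : Type) (_ : Fintype K) (U Ω : K → Set M) (g : K → ∀ n, M → F →L[ℝ] V n)
      (B : K → α → ι → M → F →L[ℝ] F) (J₀ : K → α → F →L[ℝ] F),
      (∀ i, Frs I l e W p J E' (U i) (Ω i) (g i) (B i) (J₀ i) ∧ Ω i ⊆ Sᶜ) ∧
        (∀ x, ∃ i, x ∈ U i) ∧ ∀ x ∉ S, ∃ i, x ∈ Ω i := by
  classical
  obtain ⟨n, φ, h1, h2⟩ := hM
  let β := {i // (φ i).target.Nonempty}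
  have hc' := fun i => (hc.mono (inter_subset_left (t := (φ i).source))).image (φ i)
  choose c₁ a1 c₂ a2 a3 using fun i : β =>
    exists_two_centres hd.le (φ i.1).open_target (h1 i.1).2 i.2 (hc' i.1)
  let c : β × Bool → E' := fun p => if p.2 then c₁ p.1 else c₂ p.1
  have b1 : ∀ p, c p ∈ (φ p.1.1).target \ φ p.1.1 '' (S ∩ (φ p.1.1).source) := fun p => by
    simp only [c]; split_ifs; exacts [a1 _, a2 _]
  choose g B J₀ b2 b3 using fun p : β × Bool =>
    h.exists_fra (F := F) (h1 p.1.1).1 (h1 p.1.1).2 (b1 p).1 hF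
  refine ⟨β × Bool, inferInstance, fun p => (φ p.1.1).source, fun p => (φ p.1.1).source ∩
    φ p.1.1 ⁻¹' vis ((φ p.1.1).target ∩ (φ p.1.1).symm ⁻¹' Sᶜ) (c p), g, B, J₀,
    fun p => ⟨⟨⟨(φ _).open_source, (φ _).isOpen_inter_preimage (isOpen_vis
      ((φ _).isOpen_inter_preimage_symm hS.isOpen_compl) _), inter_subset_left, φ p.1.1,
      (h1 _).1, subset_rfl, _, thin_lines hd (c p) (hc' p.1.1), fun x hx hZ => ⟨hx, ?_⟩⟩,
      ⟨(φ p.1.1).symm (c p), (φ _).map_target (b1 p).1, ?_⟩,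
      fun x hx => (b2 p x hx).mono fun _ a => a.1, fun x hx => (b2 p x hx).mono fun _ a => a.2,
      b3 p⟩, fun x hx hs => ?_⟩, fun x => ?_, fun x hx => ?_⟩
  · rw [pre_compl]
    exact diff_lines (h1 _).2 (b1 p) ⟨(φ _).map_source hx, hZ⟩
  · rw [pre_compl, mem_preimage, (φ _).right_inv (b1 p).1]
    exact self_mem_vis (b1 p)
  · have := (vis_subset hx.2).2
    rw [mem_preimage, (φ _).left_inv hx.1] at this
    exact this hs
  · obtain ⟨i, hi⟩ := h2 x trivial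
    exact ⟨(⟨i, _, (φ i).map_source hi⟩, true), hi⟩
  · obtain ⟨i, hi⟩ := h2 x trivial
    have h4 : φ i x ∈ (φ i).target \ φ i '' (S ∩ (φ i).source) :=
      ⟨(φ i).map_source hi, fun ⟨y, hy, h⟩ => hx ((φ i).injOn hy.2 hi h ▸ hy.1)⟩
    simp only [pre_compl]
    rcases a3 ⟨i, _, h4.1⟩ h4 with h5 | h5
    exacts [⟨(⟨i, _, h4.1⟩, true), hi, h5⟩, ⟨(⟨i, _, h4.1⟩, false), hi, h5⟩]

end Crest.Agent.X212.Pat85
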