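import Crest.Agent.X212.Cmp73.Cov
import Crest.Agent.X212.Cmp73.Wt
import Mathlib
import Crest.Agent.N207.H.Tr2
import Crest.Agent.X212.Pat85.Star
import Crest.Agent.X212.Pat85.CB
import Crest.Agent.N250.Gr.AA

-- ▼ part X212/Pat85/DB
section

/-!
# X212, PATCH (helper85): bounded covariant words along a filter, varying fibres

`DB I 𝓕 e A k f` : along the filter `𝓕` on `α × M` the sections `f n` are smooth and their covariant
words of length `≤ k` are bounded.  `iF l T x` : the iterated filter (first `n → l`, then `y → x`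
inside `T`).
-/

set_option autoImplicit false
set_option linter.unusedSectionVars false
open Set Filter Topology Function
open scoped ContDiff Manifold

noncomputable section
namespace Crest.Agent.X212.Pat85

open Cmp73 Sob92
open Wz78 (nab curv SA)

section filt
variable {α X Y : Type} [TopologicalSpace X] [TopologicalSpace Y]

/-- filters generated by sets with open fibres -/
def OB (𝓕 : Filter (α × X)) : Prop := ∀ D ∈ 𝓕, ∀ᶠ q in 𝓕, ∀ᶠ y in 𝓝 q.2, (q.1, y) ∈ D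

theorem OB.ev {𝓕 : Filter (α × X)} (h : OB 𝓕) {p : α → X → Prop} (hp : ∀ᶠ q in 𝓕, p q.1 q.2) :
    ∀ᶠ q in 𝓕, ∀ᶠ y in 𝓝 q.2, p q.1 y := h _ hp

theorem ob_prod (l : Filter α) (x : X) : OB (l ×ˢ 𝓝 x) := fun _ hD => by
  obtain ⟨pa, hpa, pb, hpb, H⟩ := eventually_prod_iff.1 hD
  filter_upwards [hpa.prod_mk hpb.eventually_nhds] with q hq using hq.2.mono fun _ hy => H hq.1 hy

theorem ob_bind {β : Type} (f : Filter β) {m : β → Filter (α × X)} (h : ∀ b, OB (m b)) :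
    OB (f.bind m) := fun D hD =>
  eventually_bind.2 (Eventually.mono (mem_bind'.1 hD) fun b hb => h b D hb)

/-- the iterated filter -/
def iF (l : Filter α) (T : Set X) (x : X) : Filter (α × X) := (𝓝[T] x).bind fun y => l ×ˢ 𝓝 y

variable {l : Filter α} {T T' : Set X} {x : X} {p : α × X → Prop}

theorem ev_iF : (∀ᶠ q in iF l T x, p q) ↔ ∀ᶠ y in 𝓝[T] x, ∀ᶠ q in l ×ˢ 𝓝 y, p q := eventually_bind

theorem ob_iF : OB (iF l T x) := ob_bind _ fun y => ob_prod l y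

theorem ev_spread (h : ∀ᶠ q in l ×ˢ 𝓝 x, p q) : ∀ᶠ y in 𝓝 x, ∀ᶠ q in l ×ˢ 𝓝 y, p q := by
  obtain ⟨pa, hpa, pb, hpb, H⟩ := eventually_prod_iff.1 h
  exact hpb.eventually_nhds.mono fun y hy => (hpa.prod_mk hy).mono fun q hq => H hq.1 hq.2

theorem iF_le : iF l T x ≤ l ×ˢ 𝓝 x := fun _ hD =>
  ev_iF.2 ((ev_spread hD).filter_mono nhdsWithin_le_nhds)

theorem le_iF (hx : x ∈ T) : l ×ˢ 𝓝 x ≤ iF l T x := fun _ hD =>
  (ev_iF.1 hD).self_of_nhdsWithin hx

theorem iF_eq (hx : x ∈ T) : iF l T x = l ×ˢ 𝓝 x := le_antisymm iF_le (le_iF hx)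

theorem iF_mono (h : T ⊆ T') : iF l T x ≤ iF l T' x := fun _ hD =>
  ev_iF.2 ((ev_iF.1 hD).filter_mono (nhdsWithin_mono x h))

theorem ev_iF_of (h : ∀ y ∈ T, ∀ᶠ q in l ×ˢ 𝓝 y, p q) : ∀ᶠ q in iF l T x, p q :=
  ev_iF.2 (eventually_nhdsWithin_of_forall h)

theorem ev_at {p : α → X → Prop} (h : ∀ᶠ q in l ×ˢ 𝓝 x, p q.1 q.2) : ∀ᶠ n in l, p n x :=
  h.curry.mono fun _ hi => hi.self_of_nhds

theorem tendsto_iF {ψ : X → Y} {T₁ : Set Y} (h0 : ContinuousAt ψ x)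
    (h : ∀ᶠ y in 𝓝[T] x, ContinuousAt ψ y ∧ ψ y ∈ T₁) :
    Tendsto (Prod.map id ψ) (iF l T x) (iF l T₁ (ψ x)) := fun D hD => by
  have h1 : Tendsto ψ (𝓝[T] x) (𝓝[T₁] (ψ x)) :=
    tendsto_nhdsWithin_iff.2 ⟨h0.tendsto.mono_left nhdsWithin_le_nhds, h.mono fun _ a => a.2⟩
  refine ev_iF.2 ?_
  filter_upwards [h, h1.eventually (ev_iF.1 hD)] with y a b
  exact (tendsto_id.prodMap a.1.tendsto).eventually b

end filt

variable {E : Type} [NormedAddCommGroup E] [NormedSpace ℝ E] {HM : Type} [TopologicalSpace HM]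
  {I : ModelWithCorners ℝ E HM} {M : Type} [TopologicalSpace M] [ChartedSpace HM M]
  [IsManifold I ∞ M] {ι : Type} [Fintype ι] {α : Type}
  {U V W : α → Type} [∀ n, NormedAddCommGroup (U n)] [∀ n, NormedSpace ℝ (U n)]
  [∀ n, NormedAddCommGroup (V n)] [∀ n, NormedSpace ℝ (V n)]
  [∀ n, NormedAddCommGroup (W n)] [∀ n, NormedSpace ℝ (W n)]

variable (I) in
/-- smooth and bounded along `𝓕` -/
def D0 (𝓕 : Filter (α × M)) (f : ∀ n, M → V n) : Prop :=
  (∀ᶠ q in 𝓕, SA I (f q.1) q.2) ∧ ∃ K, ∀ᶠ q in 𝓕, ‖f q.1 q.2‖ ≤ K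

variable (I) in
/-- covariant words of length `≤ k` are bounded along `𝓕` -/
def DB (𝓕 : Filter (α × M)) (e : α → ι → (x : M) → TangentSpace I x)
    (A : ∀ n, ι → M → V n →L[ℝ] V n) : ℕ → (∀ n, M → V n) → Prop
  | 0, f => D0 I 𝓕 f
  | k + 1, f => D0 I 𝓕 f ∧ ∀ a, DB 𝓕 e A k fun n => nab I (e n) (A n) a (f n)

/-- the trivial connection -/
abbrev z0 (ι M : Type) {α : Type} (V : α → Type) [∀ n, NormedAddCommGroup (V n)]
    [∀ n, NormedSpace ℝ (V n)] : ∀ n, ι → M → V n →L[ℝ] V n := fun _ _ _ => 0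

variable {𝓕 𝓖 : Filter (α × M)} {e e' : α → ι → (x : M) → TangentSpace I x}
  {A A' : ∀ n, ι → M → V n →L[ℝ] V n} {B : ∀ n, ι → M → W n →L[ℝ] W n}
  {C : ∀ n, ι → M → U n →L[ℝ] U n} {f g : ∀ n, M → V n} {k : ℕ}

theorem D0.congr (ho : OB 𝓕) (h : D0 I 𝓕 f) (hg : ∀ᶠ q in 𝓕, g q.1 q.2 = f q.1 q.2) : D0 I 𝓕 g :=
  ⟨(h.1.and (ho.ev (p := fun n y => g n y = f n y) hg)).mono fun _ hq =>
    hq.1.congr_of_eventuallyEq hq.2, h.2.imp fun _ hK => (hK.and hg).mono fun _ hq => hq.2 ▸ hq.1⟩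

theorem D0.add (h : D0 I 𝓕 f) (h' : D0 I 𝓕 g) : D0 I 𝓕 fun n x => f n x + g n x :=
  let ⟨K, hK⟩ := h.2; let ⟨K', hK'⟩ := h'.2
  ⟨(h.1.and h'.1).mono fun _ hq => hq.1.add hq.2, K + K', (hK.and hK').mono fun _ hq =>
    (norm_add_le _ _).trans (add_le_add hq.1 hq.2)⟩

theorem D0.app {T : ∀ n, M → V n →L[ℝ] W n} (h : D0 I 𝓕 T) (h' : D0 I 𝓕 f) :
    D0 I 𝓕 fun n x => T n x (f n x) :=
  let ⟨K, hK⟩ := h.2; let ⟨K', hK'⟩ := h'.2
  ⟨(h.1.and h'.1).mono fun _ hq => hq.1.app hq.2, K * K', (hK.and hK').mono fun _ hq =>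
    (ContinuousLinearMap.le_opNorm _ _).trans
      (mul_le_mul hq.1 hq.2 (norm_nonneg _) ((norm_nonneg _).trans hq.1))⟩

namespace DB

theorem d0 : ∀ {k : ℕ}, DB I 𝓕 e A k f → D0 I 𝓕 f
  | 0, h => h
  | _ + 1, h => h.1

theorem sm (h : DB I 𝓕 e A k f) : ∀ᶠ q in 𝓕, SA I (f q.1) q.2 := h.d0.1

theorem pred : ∀ {k : ℕ} {f : ∀ n, M → V n}, DB I 𝓕 e A (k + 1) f → DB I 𝓕 e A k f
  | 0, _, h => h.1
  | _ + 1, _, h => ⟨h.1, fun a => pred (h.2 a)⟩

theorem of_le (h : DB I 𝓕 e A k f) {j : ℕ} (hj : j ≤ k) : DB I 𝓕 e A j f := by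
  induction hj with
  | refl => exact h
  | step _ ih => exact ih h.pred

theorem mono (hG : 𝓖 ≤ 𝓕) : ∀ {k : ℕ} {f : ∀ n, M → V n}, DB I 𝓕 e A k f → DB I 𝓖 e A k f
  | 0, _, h => ⟨hG h.1, h.2.imp fun _ a => hG a⟩
  | _ + 1, _, h => ⟨⟨hG h.1.1, h.1.2.imp fun _ a => hG a⟩, fun a => mono hG (h.2 a)⟩

/-- change of the data on a set of the filter -/
theorem congr' (ho : OB 𝓕) (he : ∀ᶠ q in 𝓕, ∀ a, e' q.1 a q.2 = e q.1 a q.2)
    (hA : ∀ᶠ q in 𝓕, ∀ a, A' q.1 a q.2 = A q.1 a q.2) : ∀ {k : ℕ} {f g : ∀ n, M → V n},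
    DB I 𝓕 e A k f → (∀ᶠ q in 𝓕, g q.1 q.2 = f q.1 q.2) → DB I 𝓕 e' A' k g
  | 0, _, _, h, hg => D0.congr ho h hg
  | _ + 1, f, g, h, hg => ⟨h.1.congr ho hg, fun a => congr' ho he hA (h.2 a) (by
      filter_upwards [he, hA, ho.ev (p := fun n y => g n y = f n y) hg] with q h1 h2 h3
      rw [Wz78.nab_congr a h3]
      simp only [nab, dv, h1 a, h2 a])⟩

theorem congr (ho : OB 𝓕) (h : DB I 𝓕 e A k f) (hg : ∀ᶠ q in 𝓕, g q.1 q.2 = f q.1 q.2) :
    DB I 𝓕 e A k g := congr' ho (.of_forall fun _ _ => rfl) (.of_forall fun _ _ => rfl) h hg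

theorem zero : ∀ k : ℕ, DB I 𝓕 e A k fun _ _ => 0
  | 0 => ⟨.of_forall fun _ => contMDiffAt_const, 0, by simp⟩
  | k + 1 => ⟨⟨.of_forall fun _ => contMDiffAt_const, 0, by simp⟩, fun a => by
      simpa only [nab_const0] using zero k⟩

theorem add (ho : OB 𝓕) : ∀ {k : ℕ} {f g : ∀ n, M → V n}, DB I 𝓕 e A k f → DB I 𝓕 e A k g →
    DB I 𝓕 e A k fun n x => f n x + g n x
  | 0, _, _, h, h' => D0.add h h'
  | _ + 1, _, _, h, h' => ⟨h.1.add h'.1, fun a => (add ho (h.2 a) (h'.2 a)).congr ho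
      ((h.sm.and h'.sm).mono fun _ hq => Wz78.nab_add a hq.1 hq.2)⟩

theorem fsum (ho : OB 𝓕) {κ : Type*} (s : Finset κ) {w : κ → ∀ n, M → V n}
    (h : ∀ i ∈ s, DB I 𝓕 e A k (w i)) : DB I 𝓕 e A k fun n x => ∑ i ∈ s, w i n x := by
  classical
  induction s using Finset.induction_on with
  | empty => simpa using zero k
  | insert a s ha ih =>
    simp only [Finset.sum_insert ha]
    exact add ho (h a (by simp)) (ih fun i hi => h i (by simp [hi]))

/-- bounded parallel sections -/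
theorem par (ho : OB 𝓕) (h0 : D0 I 𝓕 f) (h : ∀ᶠ q in 𝓕, ∀ a, nab I (e q.1) (A q.1) a (f q.1) q.2 = 0) :
    ∀ k, DB I 𝓕 e A k f
  | 0 => h0
  | k + 1 => ⟨h0, fun a => (zero k).congr ho (h.mono fun _ hq => hq a)⟩

/-- the product rule -/
theorem app (ho : OB 𝓕) : ∀ {k : ℕ} {T : ∀ n, M → V n →L[ℝ] W n} {f : ∀ n, M → V n},
    DB I 𝓕 e (fun n => hom (A n) (B n)) k T → DB I 𝓕 e A k f →
    DB I 𝓕 e B k fun n x => T n x (f n x)
  | 0, _, _, h, h' => D0.app h h'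
  | _ + 1, _, _, h, h' => ⟨h.1.app h'.1, fun a =>
      (add ho (app ho (h.2 a) h'.pred) (app ho h.pred (h'.2 a))).congr ho
        ((h.sm.and h'.sm).mono fun _ hq => nab_hom a hq.1 hq.2)⟩

/-- a bounded parallel map -/
theorem map (ho : OB 𝓕) {T : ∀ n, M → V n →L[ℝ] W n} (h0 : D0 I 𝓕 T)
    (h : ∀ᶠ q in 𝓕, ∀ a, dv I (e q.1 a) (T q.1) q.2 +
      (B q.1 a q.2 ∘L T q.1 q.2 - T q.1 q.2 ∘L A q.1 a q.2) = 0) (hf : DB I 𝓕 e A k f) :
    DB I 𝓕 e B k fun n x => T n x (f n x) := app ho (par ho h0 h k) hf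

/-- constant maps which intertwine the connections -/
theorem cmap (ho : OB 𝓕) (T : ∀ n, V n →L[ℝ] W n) {K : ℝ} (h0 : ∀ n, ‖T n‖ ≤ K)
    (h : ∀ n a x v, B n a x (T n v) = T n (A n a x v)) (hf : DB I 𝓕 e A k f) :
    DB I 𝓕 e B k fun n x => T n (f n x) :=
  map ho (T := fun n _ => T n) ⟨.of_forall fun _ => contMDiffAt_const, K, .of_forall fun _ => h0 _⟩
    (.of_forall fun q a => by ext v; simp [dv_cst, h]) hf

theorem neg (ho : OB 𝓕) (hf : DB I 𝓕 e A k f) : DB I 𝓕 e A k fun n x => -f n x :=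
  cmap ho (fun n => -ContinuousLinearMap.id ℝ (V n)) (K := 1)
    (fun _ => by rw [norm_neg]; exact ContinuousLinearMap.norm_id_le) (fun _ _ _ _ => by simp) hf

theorem sub (ho : OB 𝓕) (h : DB I 𝓕 e A k f) (h' : DB I 𝓕 e A k g) :
    DB I 𝓕 e A k fun n x => f n x - g n x := by
  simpa only [sub_eq_add_neg] using add ho h (neg ho h')

/-- composition of fields of maps -/
theorem comp (ho : OB 𝓕) {S : ∀ n, M → V n →L[ℝ] W n} {T : ∀ n, M → U n →L[ℝ] V n}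
    (hS : DB I 𝓕 e (fun n => hom (A n) (B n)) k S) (hT : DB I 𝓕 e (fun n => hom (C n) (A n)) k T) :
    DB I 𝓕 e (fun n => hom (C n) (B n)) k fun n x => S n x ∘L T n x :=
  app ho (cmap ho (B := fun n => hom (hom (C n) (A n)) (hom (C n) (B n)))
    (fun n => ContinuousLinearMap.compL ℝ (U n) (V n) (W n)) (K := 1)
    (fun _ => ContinuousLinearMap.norm_compL_le _ _ _ _)
    (fun _ _ _ _ => by ext; simp [hom_apply]) hS) hT

theorem smul (ho : OB 𝓕) {φ : α → M → ℝ} (hφ : DB I 𝓕 e (z0 ι M fun _ => ℝ) k φ)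
    (hf : DB I 𝓕 e A k f) : DB I 𝓕 e A k fun n x => φ n x • f n x :=
  app ho (cmap ho (B := fun n => hom (A n) (A n))
    (fun n => ContinuousLinearMap.lsmul ℝ ℝ (E := V n)) (K := 1)
    (fun _ => ContinuousLinearMap.opNorm_lsmul_le) (fun _ _ _ _ => by ext; simp [hom_apply]) hφ) hf

/-- change of the connection -/
theorem twist (ho : OB 𝓕) : ∀ {k : ℕ} {f : ∀ n, M → V n},
    (∀ j < k, ∀ a, DB I 𝓕 e (fun n => hom (A' n) (A' n)) j fun n x => A' n a x - A n a x) →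
    DB I 𝓕 e A k f → DB I 𝓕 e A' k f
  | 0, _, _, h => h
  | k + 1, f, hA, h => ⟨h.1, fun a => by
      have hA' := fun j (hj : j < k) => hA j (hj.trans k.lt_succ_self)
      refine (add ho (twist ho hA' (h.2 a)) (app ho (hA k k.lt_succ_self a)
        (twist ho hA' h.pred))).congr ho (.of_forall fun q => ?_)
      simp only [nab, _root_.sub_apply]; abel⟩

theorem hom0 {T : ∀ n, M → V n →L[ℝ] W n} :
    DB I 𝓕 e (fun n => hom (z0 ι M V n) (z0 ι M W n)) k T ↔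
      DB I 𝓕 e (z0 ι M fun n => V n →L[ℝ] W n) k T := by
  have : (fun n => hom (z0 ι M V n) (z0 ι M W n)) = z0 ι M fun n => V n →L[ℝ] W n := by
    funext n a x; ext T v; simp [hom_apply]
  rw [this]

/-- passage to the trivial connection -/
theorem plain (ho : OB 𝓕)
    (hA : ∀ j < k, ∀ a, DB I 𝓕 e (z0 ι M fun n => V n →L[ℝ] V n) j fun n => A n a)
    (h : DB I 𝓕 e A k f) : DB I 𝓕 e (z0 ι M V) k f :=
  twist ho (fun j hj a => hom0.2 ((neg ho (hA j hj a)).congr ho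
    (.of_forall fun _ => zero_sub _))) h

theorem z_comp (ho : OB 𝓕) {S : ∀ n, M → V n →L[ℝ] W n} {T : ∀ n, M → U n →L[ℝ] V n}
    (hS : DB I 𝓕 e (z0 ι M fun n => V n →L[ℝ] W n) k S)
    (hT : DB I 𝓕 e (z0 ι M fun n => U n →L[ℝ] V n) k T) :
    DB I 𝓕 e (z0 ι M fun n => U n →L[ℝ] W n) k fun n x => S n x ∘L T n x :=
  hom0.1 (comp ho (hom0.2 hS) (hom0.2 hT))

theorem plain_hom (ho : OB 𝓕) : ∀ {k : ℕ} {T : ∀ n, M → V n →L[ℝ] W n},
    (∀ j < k, ∀ a, DB I 𝓕 e (z0 ι M fun n => V n →L[ℝ] V n) j fun n => A n a) →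
    (∀ j < k, ∀ a, DB I 𝓕 e (z0 ι M fun n => W n →L[ℝ] W n) j fun n => B n a) →
    DB I 𝓕 e (fun n => hom (A n) (B n)) k T → DB I 𝓕 e (z0 ι M fun n => V n →L[ℝ] W n) k T
  | 0, _, _, _, h => h
  | k + 1, T, hA, hB, h => ⟨h.1, fun a => by
      have hA' := fun j (hj : j < k) => hA j (hj.trans k.lt_succ_self)
      have hB' := fun j (hj : j < k) => hB j (hj.trans k.lt_succ_self)
      have h1 := plain_hom ho hA' hB' h.pred
      refine (sub ho (plain_hom ho hA' hB' (h.2 a)) (sub ho (z_comp ho (hB k k.lt_succ_self a) h1)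
        (z_comp ho h1 (hA k k.lt_succ_self a)))).congr ho (.of_forall fun q => ?_)
      simp only [nab, hom_apply, _root_.zero_apply, add_zero, add_sub_cancel_right]⟩

/-- from bounds of words -/
theorem of_words (he : ∀ᶠ q in 𝓕, ∀ a, ContMDiffAt I I.tangent ∞
      (fun x => (⟨x, e q.1 a x⟩ : TangentBundle I M)) q.2)
    (hA : ∀ᶠ q in 𝓕, ∀ a, SA I (A q.1 a) q.2) : ∀ {k : ℕ} {f : ∀ n, M → V n},
    (∀ᶠ q in 𝓕, SA I (f q.1) q.2) → (∀ v : List ι, v.length ≤ k →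
      ∃ K, ∀ᶠ q in 𝓕, ‖Dw I (e q.1) (A q.1) v (f q.1) q.2‖ ≤ K) → DB I 𝓕 e A k f
  | 0, _, hf, h => ⟨hf, h [] le_rfl⟩
  | _ + 1, _, hf, h => ⟨⟨hf, h [] (Nat.zero_le _)⟩, fun a => of_words he hA
      (by filter_upwards [he, hA, hf] with q h1 h2 h3
          exact (dv_smoothAt (h1 a) h3).add ((h2 a).app h3))
      fun v hv => h (a :: v) (Nat.succ_le_succ hv)⟩

theorem words : ∀ (v : List ι) {f : ∀ n, M → V n}, DB I 𝓕 e A v.length f →
    D0 I 𝓕 fun n => Dw I (e n) (A n) v (f n)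
  | [], _, h => h
  | a :: v, _, h => words v (h.2 a)

end DB

section pull
variable {E' : Type} [NormedAddCommGroup E'] [NormedSpace ℝ E'] {HM' : Type} [TopologicalSpace HM']
  {I' : ModelWithCorners ℝ E' HM'}

theorem dv_rel {M' : Type} [TopologicalSpace M'] [ChartedSpace HM' M'] {G : Type}
    [NormedAddCommGroup G] [NormedSpace ℝ G] {ψ : M → M'} {X : (x : M) → TangentSpace I x}
    {X' : (x : M') → TangentSpace I' x} {x : M} (hψ : ContMDiffAt I I' ∞ ψ x)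
    (h : mfderiv I I' ψ x (X x) = X' (ψ x)) {u : M' → G} (hu : SA I' u (ψ x)) :
    dv I X (fun y => u (ψ y)) x = dv I' X' u (ψ x) := by
  unfold dv
  rw [show (fun y => u (ψ y)) = u ∘ ψ from rfl,
    mfderiv_comp x (hu.mdifferentiableAt (by simp)) (hψ.mdifferentiableAt (by simp)), ← h]; rfl

/-- pull-back along a map which relates the frames -/
theorem DB.pull {M' : Type} [TopologicalSpace M'] [ChartedSpace HM' M'] [IsManifold I' ∞ M']
    (ho : OB 𝓕) {𝓕' : Filter (α × M')} {ψ : M → M'} (ht : Tendsto (Prod.map id ψ) 𝓕 𝓕')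
    {e' : α → ι → (x : M') → TangentSpace I' x} {A' : ∀ n, ι → M' → V n →L[ℝ] V n}
    (hψ : ∀ᶠ q in 𝓕, ContMDiffAt I I' ∞ ψ q.2 ∧
      ∀ a, mfderiv I I' ψ q.2 (e q.1 a q.2) = e' q.1 a (ψ q.2)) : ∀ {k : ℕ} {f : ∀ n, M' → V n},
    DB I' 𝓕' e' A' k f → DB I 𝓕 e (fun n a x => A' n a (ψ x)) k fun n x => f n (ψ x) := by
  have h0 : ∀ {f : ∀ n, M' → V n}, D0 I' 𝓕' f → D0 I 𝓕 fun n x => f n (ψ x) := fun h =>
    ⟨((ht.eventually h.1).and hψ).mono fun q hq => hq.1.comp q.2 hq.2.1,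
      h.2.imp fun _ hK => ht.eventually hK⟩
  intro k
  induction k with
  | zero => exact h0
  | succ k ih =>
    refine fun h => ⟨h0 h.1, fun a => (ih (h.2 a)).congr ho ?_⟩
    filter_upwards [ht.eventually h.sm, hψ] with q h1 h2
    exact congrArg (· + _) (dv_rel h2.1 (h2.2 a) h1)

/-- from bounds on a family of manifolds -/
theorem DB.of_rel {X : α → Type} [∀ n, TopologicalSpace (X n)] [∀ n, ChartedSpace HM' (X n)]
    [∀ n, IsManifold I' ∞ (X n)] (ho : OB 𝓕) {ψ : ∀ n, M → X n}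
    {e' : ∀ n, ι → (x : X n) → TangentSpace I' x} (se : ∀ n, SmV I' (e' n))
    {A' : ∀ n, ι → X n → V n →L[ℝ] V n} (sA : ∀ n a, An.Sm I' (A' n a))
    (hψ : ∀ᶠ q in 𝓕, ContMDiffAt I I' ∞ (ψ q.1) q.2 ∧
      ∀ a, mfderiv I I' (ψ q.1) q.2 (e q.1 a q.2) = e' q.1 a (ψ q.1 q.2)) :
    ∀ {k : ℕ} {f : ∀ n, X n → V n}, (∀ n, An.Sm I' (f n)) → (∀ v : List ι, v.length ≤ k →
      ∃ K, ∀ᶠ q in 𝓕, ‖Dw I' (e' q.1) (A' q.1) v (f q.1) (ψ q.1 q.2)‖ ≤ K) →
    DB I 𝓕 e (fun n a x => A' n a (ψ n x)) k fun n x => f n (ψ n x) := by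
  have h0 : ∀ {f : ∀ n, X n → V n}, (∀ n, An.Sm I' (f n)) →
      ∀ᶠ q in 𝓕, SA I (fun x => f q.1 (ψ q.1 x)) q.2 := fun h =>
    hψ.mono fun q hq => (h q.1 _).comp q.2 hq.1
  intro k
  induction k with
  | zero => exact fun hf h => ⟨h0 hf, h [] le_rfl⟩
  | succ k ih =>
    refine fun hf h => ⟨⟨h0 hf, h [] (Nat.zero_le _)⟩, fun a => (ih
      (fun n => sm_nab (se n) (sA n) (hf n) a) fun v hv =>
        h (a :: v) (Nat.succ_le_succ hv)).congr ho ?_⟩
    filter_upwards [hψ] with q h2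
    simp only [nab]
    rw [dv_rel h2.1 (h2.2 a) (hf q.1 _)]

end pull

end Crest.Agent.X212.Pat85
end
end

-- ▼ part X212/Eps63/Bc
section

/-!
# Row 212, AN (helper63): uniformly bounded covariant jets of families

`Ω i` open subsets of `E`, `u i : E → V` smooth on `Ω i`, `A i x v : V →L V` a connection form.
`BD Ω A k u`: all words `D_{v₁} ⋯ D_{v_j} u`, `j ≤ k`, are bounded on `Ω i` uniformly in `i`.
`BC Ω k u` is the same for the trivial connection.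
-/

set_option autoImplicit false
set_option linter.unusedSectionVars false

open Set Filter Topology
open scoped ContDiff

noncomputable section

namespace Crest.Agent.X212.Eps63

variable {ι E V W Z : Type} [NormedAddCommGroup E] [NormedSpace ℝ E] [NormedAddCommGroup V]
  [NormedSpace ℝ V] [NormedAddCommGroup W] [NormedSpace ℝ W] [NormedAddCommGroup Z]
  [NormedSpace ℝ Z]

/-- covariant derivative in the constant direction `v` -/
def cD (A : E → E →L[ℝ] V →L[ℝ] V) (v : E) (u : E → V) (x : E) : V :=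
  fderiv ℝ u x v + A x v (u x)

/-- uniform bound -/
def B0 (Ω : ι → Set E) (u : ι → E → V) : Prop := ∃ C : ℝ, ∀ i, ∀ x ∈ Ω i, ‖u i x‖ ≤ C

/-- smooth family on open sets -/
def Sm (Ω : ι → Set E) (u : ι → E → V) : Prop := ∀ i, ∀ x ∈ Ω i, ContDiffAt ℝ ∞ (u i) x

/-- uniform bounds of covariant words of length `≤ k` -/
def BD (Ω : ι → Set E) (A : ι → E → E →L[ℝ] V →L[ℝ] V) : ℕ → (ι → E → V) → Prop
  | 0, u => B0 Ω u
  | k + 1, u => B0 Ω u ∧ ∀ v, BD Ω A k fun i => cD (A i) v (u i)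

/-- uniform bounds of partial derivatives of order `≤ k` -/
def BC (Ω : ι → Set E) : ℕ → (ι → E → V) → Prop
  | 0, u => B0 Ω u
  | k + 1, u => B0 Ω u ∧ ∀ v, BC Ω k fun i x => fderiv ℝ (u i) x v

variable {Ω : ι → Set E} {A : ι → E → E →L[ℝ] V →L[ℝ] V}

theorem Sm.da {u : ι → E → V} (h : Sm Ω u) {i : ι} {x : E} (hx : x ∈ Ω i) :
    DifferentiableAt ℝ (u i) x := (h i x hx).differentiableAt (by simp)

theorem Sm.fderiv {u : ι → E → V} (h : Sm Ω u) : Sm Ω fun i => fderiv ℝ (u i) :=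
  fun i x hx => (h i x hx).fderiv_right (m := ∞) (by simp)

theorem Sm.c2 {u : ι → E → V} (h : Sm Ω u) {i : ι} {x : E} (hx : x ∈ Ω i) :
    ContDiffAt ℝ 2 (u i) x := (h i x hx).of_le (by norm_cast)

theorem Sm.symm {u : ι → E → V} (h : Sm Ω u) {i : ι} {x : E} (hx : x ∈ Ω i) :
    IsSymmSndFDerivAt ℝ (u i) x := (h.c2 hx).isSymmSndFDerivAt (by simp)

theorem Sm.pd {u : ι → E → V} (h : Sm Ω u) (v : E) : Sm Ω fun i x => _root_.fderiv ℝ (u i) x v :=
  fun i x hx => (h.fderiv i x hx).clm_apply contDiffAt_const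

theorem Sm.add {u w : ι → E → V} (h : Sm Ω u) (h' : Sm Ω w) : Sm Ω fun i x => u i x + w i x :=
  fun i x hx => (h i x hx).add (h' i x hx)

theorem Sm.sub {u w : ι → E → V} (h : Sm Ω u) (h' : Sm Ω w) : Sm Ω fun i x => u i x - w i x :=
  fun i x hx => (h i x hx).sub (h' i x hx)

theorem Sm.clm {u : ι → E → V} (h : Sm Ω u) (L : V →L[ℝ] W) : Sm Ω fun i x => L (u i x) :=
  fun i x hx => L.contDiff.contDiffAt.comp x (h i x hx)

theorem Sm.app {u : ι → E → V →L[ℝ] W} {w : ι → E → V} (h : Sm Ω u) (h' : Sm Ω w) :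
    Sm Ω fun i x => u i x (w i x) := fun i x hx => (h i x hx).clm_apply (h' i x hx)

theorem Sm.const (c : V) : Sm Ω fun _ _ => c := fun _ _ _ => contDiffAt_const

theorem Sm.cD {u : ι → E → V} (hA : Sm Ω A) (h : Sm Ω u) (v : E) :
    Sm Ω fun i => cD (A i) v (u i) := (h.pd v).add ((hA.app (Sm.const v)).app h)

theorem Sm.congr (ho : ∀ i, IsOpen (Ω i)) {u w : ι → E → V} (h : Sm Ω u)
    (e : ∀ i, ∀ x ∈ Ω i, w i x = u i x) : Sm Ω w := fun i x hx =>
  (h i x hx).congr_of_eventuallyEq (eventually_of_mem ((ho i).mem_nhds hx) (e i))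

theorem B0.congr {u w : ι → E → V} (h : B0 Ω u) (e : ∀ i, ∀ x ∈ Ω i, w i x = u i x) : B0 Ω w :=
  h.imp fun _ hC i x hx => by rw [e i x hx]; exact hC i x hx

theorem B0.add {u w : ι → E → V} (h : B0 Ω u) (h' : B0 Ω w) : B0 Ω fun i x => u i x + w i x := by
  obtain ⟨C, hC⟩ := h
  obtain ⟨D, hD⟩ := h'
  exact ⟨C + D, fun i x hx => (norm_add_le _ _).trans (add_le_add (hC i x hx) (hD i x hx))⟩

theorem B0.app {u : ι → E → V →L[ℝ] W} {w : ι → E → V} (h : B0 Ω u) (h' : B0 Ω w) :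
    B0 Ω fun i x => u i x (w i x) := by
  obtain ⟨C, hC⟩ := h
  obtain ⟨D, hD⟩ := h'
  exact ⟨C * D, fun i x hx => ((u i x).le_opNorm _).trans
    (mul_le_mul (hC i x hx) (hD i x hx) (norm_nonneg _) ((norm_nonneg _).trans (hC i x hx)))⟩

theorem B0.const (c : V) : B0 Ω fun _ _ => c := ⟨‖c‖, fun _ _ _ => le_rfl⟩

theorem B0.clm {u : ι → E → V} (h : B0 Ω u) (L : V →L[ℝ] W) : B0 Ω fun i x => L (u i x) :=
  (B0.const L).app h

theorem fderiv_congr (ho : ∀ i, IsOpen (Ω i)) {u w : ι → E → V}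
    (e : ∀ i, ∀ x ∈ Ω i, w i x = u i x) {i : ι} {x : E} (hx : x ∈ Ω i) :
    fderiv ℝ (w i) x = fderiv ℝ (u i) x :=
  Filter.EventuallyEq.fderiv_eq (eventually_of_mem ((ho i).mem_nhds hx) (e i))

/-! ### `BD` -/

theorem BD.b0 : ∀ {k : ℕ} {u : ι → E → V}, BD Ω A k u → B0 Ω u
  | 0, _, h => h
  | _ + 1, _, h => h.1

theorem BD.pred : ∀ {k : ℕ} {u : ι → E → V}, BD Ω A (k + 1) u → BD Ω A k u
  | 0, _, h => h.1
  | _ + 1, _, h => ⟨h.1, fun v => BD.pred (h.2 v)⟩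

theorem BD.congr (ho : ∀ i, IsOpen (Ω i)) : ∀ {k : ℕ} {u w : ι → E → V}, BD Ω A k u →
    (∀ i, ∀ x ∈ Ω i, w i x = u i x) → BD Ω A k w
  | 0, _, _, h, e => B0.congr h e
  | _ + 1, _, _, h, e => ⟨h.1.congr e, fun v => BD.congr ho (h.2 v) fun i x hx => by
      rw [cD, cD, fderiv_congr ho e hx, e i x hx]⟩

theorem BD.congrA (ho : ∀ i, IsOpen (Ω i)) {A' : ι → E → E →L[ℝ] V →L[ℝ] V}
    (e : ∀ i, ∀ x ∈ Ω i, A' i x = A i x) : ∀ {k : ℕ} {u : ι → E → V}, BD Ω A k u → BD Ω A' k u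
  | 0, _, h => h
  | _ + 1, _, h => ⟨h.1, fun v => BD.congr ho (BD.congrA ho e (h.2 v)) fun i x hx => by
      rw [cD, cD, e i x hx]⟩

theorem cD_add {A : E → E →L[ℝ] V →L[ℝ] V} {u w : E → V} {x : E} (hu : DifferentiableAt ℝ u x)
    (hw : DifferentiableAt ℝ w x) (v : E) :
    cD A v (fun y => u y + w y) x = cD A v u x + cD A v w x := by
  rw [cD, cD, cD, fderiv_fun_add hu hw, map_add, add_apply]; abel

theorem BD.add (ho : ∀ i, IsOpen (Ω i)) (hA : Sm Ω A) : ∀ {k : ℕ} {u w : ι → E → V}, Sm Ω u →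
    Sm Ω w → BD Ω A k u → BD Ω A k w → BD Ω A k fun i x => u i x + w i x
  | 0, _, _, _, _, h, h' => B0.add h h'
  | _ + 1, _, _, s, s', h, h' => ⟨h.1.add h'.1, fun v =>
      (BD.add ho hA (hA.cD s v) (hA.cD s' v) (h.2 v) (h'.2 v)).congr ho fun _ _ hx =>
        cD_add (s.da hx) (s'.da hx) v⟩

/-- parallel linear maps act on bounded words -/
theorem BD.clm (ho : ∀ i, IsOpen (Ω i)) (hA : Sm Ω A) {A' : ι → E → E →L[ℝ] W →L[ℝ] W}
    (L : V →L[ℝ] W) (hL : ∀ i, ∀ x ∈ Ω i, ∀ v y, A' i x v (L y) = L (A i x v y)) :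
    ∀ {k : ℕ} {u : ι → E → V}, Sm Ω u → BD Ω A k u → BD Ω A' k fun i x => L (u i x)
  | 0, _, _, h => B0.clm h L
  | _ + 1, u, s, h => ⟨h.1.clm L, fun v =>
      (BD.clm ho hA L hL (hA.cD s v) (h.2 v)).congr ho fun i x hx => by
        have := (L.hasFDerivAt.comp x (s.da hx).hasFDerivAt).fderiv
        rw [cD, cD, hL i x hx, map_add]
        exact congrArg (· + _) (congrArg (fun T : E →L[ℝ] W => T v) this)⟩

theorem BD.zero (ho : ∀ i, IsOpen (Ω i)) : ∀ k : ℕ, BD Ω A k fun _ _ => 0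
  | 0 => B0.const 0
  | k + 1 => ⟨B0.const 0, fun v => (BD.zero ho k).congr ho fun i x _ => by simp [cD]⟩

theorem BD.sum (ho : ∀ i, IsOpen (Ω i)) (hA : Sm Ω A) {κ : Type} (s : Finset κ) {k : ℕ}
    {u : κ → ι → E → V} (hs : ∀ a, Sm Ω (u a)) (h : ∀ a, BD Ω A k (u a)) :
    Sm Ω (fun i x => ∑ a ∈ s, u a i x) ∧ BD Ω A k fun i x => ∑ a ∈ s, u a i x := by
  classical
  induction s using Finset.induction_on with
  | empty => simpa using ⟨Sm.const 0, BD.zero ho k⟩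
  | insert a s ha ih =>
    simp only [Finset.sum_insert ha]
    exact ⟨(hs a).add ih.1, BD.add ho hA (hs a) ih.1 (h a) ih.2⟩

theorem BD.smul (ho : ∀ i, IsOpen (Ω i)) (hA : Sm Ω A) (c : ℝ) {k : ℕ} {u : ι → E → V}
    (s : Sm Ω u) (h : BD Ω A k u) : BD Ω A k fun i x => c • u i x :=
  BD.clm ho hA (c • ContinuousLinearMap.id ℝ V) (fun _ _ _ _ _ => by simp) s h

/-- it is enough to bound the words in a basis -/
theorem bd_of_basis (ho : ∀ i, IsOpen (Ω i)) (hA : Sm Ω A) {κ : Type} [Fintype κ]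
    (b : Module.Basis κ ℝ E) (P : (ι → E → V) → Prop) (h0 : ∀ u, P u → Sm Ω u ∧ B0 Ω u)
    (h1 : ∀ u, P u → ∀ a, P fun i => cD (A i) (b a) (u i)) :
    ∀ (k : ℕ) (u : ι → E → V), P u → BD Ω A k u
  | 0, u, h => (h0 u h).2
  | k + 1, u, h => ⟨(h0 u h).2, fun v => by
      have s := fun a => hA.cD (h0 u h).1 (b a)
      refine (BD.sum ho hA Finset.univ
        (u := fun a i x => b.repr v a • cD (A i) (b a) (u i) x)
        (fun a => (s a).clm (b.repr v a • ContinuousLinearMap.id ℝ V))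
        (fun a => BD.smul ho hA _ (s a) (bd_of_basis ho hA b P h0 h1 k _ (h1 u h a)))).2.congr ho
        fun i x _ => ?_
      conv_lhs => rw [← b.sum_repr v]
      simp only [cD, map_sum, map_smul, smul_add, Finset.sum_add_distrib, sum_apply, smul_apply]⟩

/-- gauge change: `dG = G A - A' G` -/
theorem BD.gauge (ho : ∀ i, IsOpen (Ω i)) (hA : Sm Ω A) {A' : ι → E → E →L[ℝ] W →L[ℝ] W}
    {G : ι → E → V →L[ℝ] W} (hG : Sm Ω G) (bG : B0 Ω G)
    (e : ∀ i, ∀ x ∈ Ω i, ∀ v y, fderiv ℝ (G i) x v y = G i x (A i x v y) - A' i x v (G i x y)) :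
    ∀ {k : ℕ} {u : ι → E → V}, Sm Ω u → BD Ω A k u → BD Ω A' k fun i x => G i x (u i x)
  | 0, _, _, h => B0.app bG h
  | _ + 1, u, s, h => ⟨bG.app h.1, fun v =>
      (BD.gauge ho hA hG bG e (hA.cD s v) (h.2 v)).congr ho fun i x hx => by
        rw [cD, cD, fderiv_clm_apply (hG.da hx) (s.da hx)]
        simp [e i x hx, add_assoc]⟩

/-! ### `BC` -/

theorem bc_iff_bd (ho : ∀ i, IsOpen (Ω i)) : ∀ {k : ℕ} {u : ι → E → V},
    BC Ω k u ↔ BD Ω (fun _ _ => 0) k u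
  | 0, _ => Iff.rfl
  | _ + 1, u => and_congr_right fun _ => forall_congr' fun v => (bc_iff_bd ho).trans
      ⟨fun h => h.congr ho fun i x _ => by simp [cD], fun h => h.congr ho fun i x _ => by simp [cD]⟩

theorem BC.b0 : ∀ {k : ℕ} {u : ι → E → V}, BC Ω k u → B0 Ω u
  | 0, _, h => h
  | _ + 1, _, h => h.1

theorem BC.pred : ∀ {k : ℕ} {u : ι → E → V}, BC Ω (k + 1) u → BC Ω k u
  | 0, _, h => h.1
  | _ + 1, _, h => ⟨h.1, fun v => BC.pred (h.2 v)⟩

theorem BC.congr (ho : ∀ i, IsOpen (Ω i)) {k : ℕ} {u w : ι → E → V} (h : BC Ω k u)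
    (e : ∀ i, ∀ x ∈ Ω i, w i x = u i x) : BC Ω k w :=
  (bc_iff_bd ho).2 (((bc_iff_bd ho).1 h).congr ho e)

theorem BC.add (ho : ∀ i, IsOpen (Ω i)) {k : ℕ} {u w : ι → E → V} (s : Sm Ω u) (s' : Sm Ω w)
    (h : BC Ω k u) (h' : BC Ω k w) : BC Ω k fun i x => u i x + w i x :=
  (bc_iff_bd ho).2 (BD.add ho (Sm.const 0) s s' ((bc_iff_bd ho).1 h) ((bc_iff_bd ho).1 h'))

theorem BC.clm (ho : ∀ i, IsOpen (Ω i)) (L : V →L[ℝ] W) {k : ℕ} {u : ι → E → V} (s : Sm Ω u)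
    (h : BC Ω k u) : BC Ω k fun i x => L (u i x) :=
  (bc_iff_bd ho).2 (BD.clm ho (Sm.const 0) L (fun _ _ _ _ _ => by simp) s ((bc_iff_bd ho).1 h))

theorem BC.sub (ho : ∀ i, IsOpen (Ω i)) {k : ℕ} {u w : ι → E → V} (s : Sm Ω u) (s' : Sm Ω w)
    (h : BC Ω k u) (h' : BC Ω k w) : BC Ω k fun i x => u i x - w i x :=
  (BC.add ho s (s'.clm (-ContinuousLinearMap.id ℝ V)) h (BC.clm ho _ s' h')).congr ho
    fun _ _ _ => by simp [sub_eq_add_neg]

theorem BC.const (ho : ∀ i, IsOpen (Ω i)) (c : V) : ∀ k : ℕ, BC Ω k fun _ _ => c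
  | 0 => B0.const c
  | k + 1 => ⟨B0.const c, fun v => ((bc_iff_bd ho).2 (BD.zero ho k)).congr ho fun i x _ => by simp⟩

theorem BC.sum (ho : ∀ i, IsOpen (Ω i)) {κ : Type} (s : Finset κ) {k : ℕ}
    {u : κ → ι → E → V} (hs : ∀ a, Sm Ω (u a)) (h : ∀ a, BC Ω k (u a)) :
    BC Ω k fun i x => ∑ a ∈ s, u a i x :=
  (bc_iff_bd ho).2 (BD.sum ho (Sm.const 0) s hs fun a => (bc_iff_bd ho).1 (h a)).2

theorem BC.app (ho : ∀ i, IsOpen (Ω i)) : ∀ {k : ℕ} {u : ι → E → V →L[ℝ] W} {w : ι → E → V},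
    Sm Ω u → Sm Ω w → BC Ω k u → BC Ω k w → BC Ω k fun i x => u i x (w i x)
  | 0, _, _, _, _, h, h' => B0.app h h'
  | _ + 1, _, _, s, s', h, h' => ⟨h.1.app h'.1, fun v =>
      (BC.add ho (s.app (s'.pd v)) ((s.pd v).app s') (BC.app ho s (s'.pd v) h.pred (h'.2 v))
        (BC.app ho (s.pd v) s' (h.2 v) h'.pred)).congr ho fun i x hx => by
        rw [fderiv_clm_apply (s.da hx) (s'.da hx)]
        simp⟩

/-- from covariant to plain derivatives -/
theorem BD.bc (ho : ∀ i, IsOpen (Ω i)) (hA : Sm Ω A) : ∀ {k : ℕ} {u : ι → E → V}, Sm Ω u →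
    (∀ v, BC Ω k fun i x => A i x v) → BD Ω A (k + 1) u → BC Ω (k + 1) u
  | 0, u, _, a, h => ⟨h.1, fun v => by
      have h1 : B0 Ω fun i x => cD (A i) v (u i) x := h.2 v
      refine (h1.add ((B0.app (a v) h.1).clm (-ContinuousLinearMap.id ℝ V))).congr fun i x _ => ?_
      simp [cD]⟩
  | k + 1, u, s, a, h => ⟨h.1, fun v => by
      have a' := fun v => (a v).pred
      refine (BC.sub ho (hA.cD s v) ((hA.app (Sm.const v)).app s)
        (BD.bc ho hA (hA.cD s v) a' (h.2 v))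
        (BC.app ho (hA.app (Sm.const v)) s (a v) (BD.bc ho hA s a' h.pred))).congr ho
        fun i x _ => ?_
      simp [cD]⟩

/-- from plain to covariant derivatives -/
theorem BC.bd (ho : ∀ i, IsOpen (Ω i)) (hA : Sm Ω A) (a : ∀ k v, BC Ω k fun i x => A i x v) :
    ∀ {k : ℕ} {u : ι → E → V}, Sm Ω u → BC Ω k u → BD Ω A k u
  | 0, _, _, h => h
  | k + 1, _, s, h => ⟨h.1, fun v => BC.bd ho hA a (hA.cD s v)
      (BC.add ho (s.pd v) ((hA.app (Sm.const v)).app s) (h.2 v)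
        (BC.app ho (hA.app (Sm.const v)) s (a k v) h.pred))⟩

/-- a family of linear maps is bounded if its values on vectors are -/
theorem bc_of_apply [FiniteDimensional ℝ V] (ho : ∀ i, IsOpen (Ω i)) {k : ℕ}
    {T : ι → E → V →L[ℝ] W} (s : Sm Ω T) (h : ∀ v, BC Ω k fun i x => T i x v) : BC Ω k T := by
  let b := Module.finBasis ℝ V
  let L : Fin (Module.finrank ℝ V) → W →L[ℝ] V →L[ℝ] W := fun a =>
    ContinuousLinearMap.smulRightL ℝ V W (LinearMap.toContinuousLinearMap (b.coord a))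
  refine (BC.sum ho Finset.univ (u := fun a i x => L a (T i x (b a)))
    (fun a => (s.app (Sm.const _)).clm _)
    fun a => BC.clm ho _ (s.app (Sm.const _)) (h _)).congr ho fun i x _ => ?_
  ext v
  conv_lhs => rw [← b.sum_repr v]
  simp only [map_sum, map_smul, sum_apply]
  rfl

theorem BC.fderiv [FiniteDimensional ℝ E] (ho : ∀ i, IsOpen (Ω i)) {k : ℕ} {u : ι → E → V}
    (s : Sm Ω u) (h : BC Ω (k + 1) u) : BC Ω k fun i => fderiv ℝ (u i) :=
  bc_of_apply ho s.fderiv h.2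

/-- `BC` bounds the iterated derivatives -/
theorem BC.itd [FiniteDimensional ℝ E] (ho : ∀ i, IsOpen (Ω i)) : ∀ (k : ℕ) {V : Type}
    [NormedAddCommGroup V] [NormedSpace ℝ V] {u : ι → E → V}, Sm Ω u → BC Ω k u →
    ∃ C : ℝ, ∀ i, ∀ x ∈ Ω i, ‖iteratedFDeriv ℝ k (u i) x‖ ≤ C
  | 0, _, _, _, _, _, h => by simpa only [norm_iteratedFDeriv_zero, BC, B0] using h
  | k + 1, _, _, _, _, s, h => by
      simpa only [norm_iteratedFDeriv_fderiv] using BC.itd ho k s.fderiv (h.fderiv ho s)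

theorem bc_of_itd (ho : ∀ i, IsOpen (Ω i)) : ∀ (k : ℕ) {V : Type}
    [NormedAddCommGroup V] [NormedSpace ℝ V] {u : ι → E → V}, Sm Ω u →
    (∀ j ≤ k, ∃ C : ℝ, ∀ i, ∀ x ∈ Ω i, ‖iteratedFDeriv ℝ j (u i) x‖ ≤ C) → BC Ω k u
  | 0, _, _, _, _, _, h => by simpa only [norm_iteratedFDeriv_zero, BC, B0] using h 0 le_rfl
  | k + 1, V, _, _, _, s, h => ⟨by
      simpa only [norm_iteratedFDeriv_zero, B0] using h 0 k.succ.zero_le,
      fun v => BC.clm ho (ContinuousLinearMap.apply ℝ V v) s.fderiv (bc_of_itd ho k s.fderiv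
        fun j hj => by simpa only [norm_iteratedFDeriv_fderiv] using h (j + 1) (by omega))⟩

theorem B0.reindex {ι' : Type} {Ω' : ι' → Set E} (f : ι' → ι) (hf : ∀ j, Ω' j ⊆ Ω (f j))
    {u : ι → E → V} (h : B0 Ω u) : B0 Ω' fun j => u (f j) :=
  h.imp fun _ hC j x hx => hC (f j) x (hf j hx)

theorem BD.reindex {ι' : Type} {Ω' : ι' → Set E} (f : ι' → ι) (hf : ∀ j, Ω' j ⊆ Ω (f j)) :
    ∀ {k : ℕ} {u : ι → E → V}, BD Ω A k u → BD Ω' (fun j => A (f j)) k fun j => u (f j)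
  | 0, _, h => B0.reindex f hf h
  | _ + 1, _, h => ⟨h.1.reindex f hf, fun v => BD.reindex f hf (h.2 v)⟩

theorem BC.reindex {ι' : Type} {Ω' : ι' → Set E} (f : ι' → ι) (hf : ∀ j, Ω' j ⊆ Ω (f j)) :
    ∀ {k : ℕ} {u : ι → E → V}, BC Ω k u → BC Ω' k fun j => u (f j)
  | 0, _, h => B0.reindex f hf h
  | _ + 1, _, h => ⟨h.1.reindex f hf, fun v => BC.reindex f hf (h.2 v)⟩

theorem Sm.reindex {ι' : Type} {Ω' : ι' → Set E} (f : ι' → ι) (hf : ∀ j, Ω' j ⊆ Ω (f j))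
    {u : ι → E → V} (h : Sm Ω u) : Sm Ω' fun j => u (f j) := fun j x hx => h (f j) x (hf j hx)

/-! ### the radial equation on star shaped sets -/

/-- `Ω i` is star shaped about `p i` -/
def Star (Ω : ι → Set E) (p : ι → E) : Prop :=
  ∀ i, ∀ x ∈ Ω i, ∀ t ∈ Icc (0 : ℝ) 1, p i + t • (x - p i) ∈ Ω i

theorem b0_of_radial {p : ι → E} (hs : Star Ω p) {φ : ι → E → V} (s : Sm Ω φ) (m : ℕ)
    (h : B0 Ω fun i x => ((m : ℝ) + 1) • φ i x + fderiv ℝ (φ i) x (x - p i)) : B0 Ω φ := by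
  obtain ⟨C, hC⟩ := h
  refine ⟨C, fun i x hx => ?_⟩
  have key : ∀ t ∈ Icc (0 : ℝ) 1, HasDerivWithinAt
      (fun t : ℝ => t ^ (m + 1) • φ i (p i + t • (x - p i)))
      (t ^ m • (((m : ℝ) + 1) • φ i (p i + t • (x - p i)) +
        fderiv ℝ (φ i) (p i + t • (x - p i)) (p i + t • (x - p i) - p i))) (Icc 0 1) t := by
    intro t ht
    have h1 : HasDerivAt (fun t : ℝ => p i + t • (x - p i)) (x - p i) t := by
      simpa using ((hasDerivAt_id t).smul_const (x - p i)).const_add (p i)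
    have h2 := (s.da (hs i x hx t ht)).hasFDerivAt.comp_hasDerivAt t h1
    refine ((hasDerivAt_pow (m + 1) t).smul h2).hasDerivWithinAt.congr_deriv ?_
    simp only [Function.comp, add_sub_cancel_left, map_smul, smul_add, smul_smul,
      Nat.add_sub_cancel, Nat.cast_add, Nat.cast_one]
    rw [add_comm, mul_comm (t ^ m) ((m : ℝ) + 1), pow_succ]
  have := norm_image_sub_le_of_norm_deriv_le_segment_01' (C := C) key fun t ht => by
    have h0 := hC i _ (hs i x hx t (Ico_subset_Icc_self ht))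
    rw [norm_smul, norm_pow, Real.norm_of_nonneg ht.1]
    exact (mul_le_of_le_one_left (norm_nonneg _) (pow_le_one₀ ht.1 ht.2.le)).trans h0
  simpa using this

theorem bc_of_radial (ho : ∀ i, IsOpen (Ω i)) {p : ι → E} (hs : Star Ω p) :
    ∀ (k m : ℕ) {φ : ι → E → V}, Sm Ω φ →
      (BC Ω k fun i x => ((m : ℝ) + 1) • φ i x + fderiv ℝ (φ i) x (x - p i)) → BC Ω k φ
  | 0, m, _, s, h => b0_of_radial hs s m h
  | k + 1, m, φ, s, h => ⟨b0_of_radial hs s m h.1, fun v => by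
      refine bc_of_radial ho hs k (m + 1) (s.pd v) ((h.2 v).congr ho fun i x hx => ?_)
      have d1 := (s.da hx).hasFDerivAt
      have d2 := (s.fderiv.da hx).hasFDerivAt
      have e1 := ((d1.const_smul ((m : ℝ) + 1)).add
        (d2.clm_apply ((hasFDerivAt_id x).sub_const (p i)))).fderiv
      have e2 := (d2.clm_apply (hasFDerivAt_const v x)).fderiv
      have sy := (s.symm hx) v (x - p i)
      refine Eq.trans ?_ (congrArg (fun T : E →L[ℝ] V => T v) e1).symm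
      rw [e2]
      simp [sy, add_smul, add_assoc, -map_sub]⟩

end Crest.Agent.X212.Eps63

end
end

-- ▼ part X212/Eps63/Rad
section

/-!
# Row 212, AN (helper63): gauge changes and the radial gauge (RAD)

`Γ x v ∈ 𝔸` skew, `𝔸` a real C*-type algebra (`V →L V`, quaternions), `D = d + Γ`.
`Gauge Ω Γ B g`: `g` smooth unitary, `dg = g Γ - B g`, i.e. `g ∘ D^Γ = D^B ∘ g`.
-/

set_option autoImplicit false
set_option linter.unusedSectionVars false

open Set Filter Topology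
open scoped ContDiff
open Crest.Agent.N207.H

noncomputable section

namespace Crest.Agent.X212.Eps63

variable {ι E V 𝔸 : Type} [NormedAddCommGroup E] [NormedSpace ℝ E] [NormedAddCommGroup V]
  [NormedSpace ℝ V] [NormedRing 𝔸] [NormedAlgebra ℝ 𝔸] [CompleteSpace 𝔸] [StarRing 𝔸]
  [CStarRing 𝔸] [StarModule ℝ 𝔸]

/-- the commutator -/
def adL : 𝔸 →L[ℝ] 𝔸 →L[ℝ] 𝔸 :=
  ContinuousLinearMap.mul ℝ 𝔸 - (ContinuousLinearMap.mul ℝ 𝔸).flip

@[simp] theorem adL_apply (a y : 𝔸) : adL a y = a * y - y * a := rfl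

/-- the connection induced by a linear map `ρ` (a representation, or `adL`) -/
def rep (ρ : 𝔸 →L[ℝ] V →L[ℝ] V) (Γ : ι → E → E →L[ℝ] 𝔸) : ι → E → E →L[ℝ] V →L[ℝ] V :=
  fun i x => ρ ∘L Γ i x

/-- `g` is a smooth unitary gauge transformation from `Γ` to `B` -/
structure Gauge (Ω : ι → Set E) (Γ B : ι → E → E →L[ℝ] 𝔸) (g : ι → E → 𝔸) : Prop where
  sg : Sm Ω g
  sB : Sm Ω B
  un : ∀ i, ∀ x ∈ Ω i, g i x ∈ unitary 𝔸
  dg : ∀ i, ∀ x ∈ Ω i, ∀ v, fderiv ℝ (g i) x v = g i x * Γ i x v - B i x v * g i x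

variable {Ω : ι → Set E} {Γ B : ι → E → E →L[ℝ] 𝔸} {g : ι → E → 𝔸}

theorem Sm.rep (h : Sm Ω Γ) (ρ : 𝔸 →L[ℝ] V →L[ℝ] V) : Sm Ω (rep ρ Γ) :=
  fun i x hx => contDiffAt_const.clm_comp (h i x hx)

theorem Sm.mul {f h : ι → E → 𝔸} (s : Sm Ω f) (s' : Sm Ω h) : Sm Ω fun i x => f i x * h i x :=
  fun i x hx => (s i x hx).mul (s' i x hx)

theorem Sm.star {f : ι → E → 𝔸} (s : Sm Ω f) : Sm Ω fun i x => star (f i x) :=
  s.clm (starL' ℝ : 𝔸 ≃L[ℝ] 𝔸).toContinuousLinearMap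

theorem Sm.crv (h : Sm Ω Γ) (u v : E) : Sm Ω fun i x => crv (Γ i) x u v :=
  ((((h.pd u).app (Sm.const v)).sub ((h.pd v).app (Sm.const u))).add
    ((h.app (Sm.const u)).mul (h.app (Sm.const v)))).sub
    ((h.app (Sm.const v)).mul (h.app (Sm.const u)))

theorem BC.mul (ho : ∀ i, IsOpen (Ω i)) {k : ℕ} {f h : ι → E → 𝔸} (s : Sm Ω f) (s' : Sm Ω h)
    (b : BC Ω k f) (b' : BC Ω k h) : BC Ω k fun i x => f i x * h i x :=
  BC.app ho (s.clm (ContinuousLinearMap.mul ℝ 𝔸)) s' (BC.clm ho _ s b) b'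

theorem norm_unitary_le {a : 𝔸} (h : a ∈ unitary 𝔸) : ‖a‖ ≤ 1 := by
  nontriviality 𝔸
  exact (CStarRing.norm_of_mem_unitary h).le

theorem Gauge.b0 (h : Gauge Ω Γ B g) : B0 Ω g := ⟨1, fun i x hx => norm_unitary_le (h.un i x hx)⟩

theorem Gauge.b0s (h : Gauge Ω Γ B g) : B0 Ω fun i x => star (g i x) :=
  ⟨1, fun i x hx => norm_unitary_le (Unitary.star_mem (h.un i x hx))⟩

theorem Gauge.reindex {ι' : Type} {Ω' : ι' → Set E} (f : ι' → ι) (hf : ∀ j, Ω' j ⊆ Ω (f j))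
    (h : Gauge Ω Γ B g) : Gauge Ω' (fun j => Γ (f j)) (fun j => B (f j)) fun j => g (f j) :=
  ⟨h.sg.reindex f hf, h.sB.reindex f hf, fun j x hx => h.un _ x (hf j hx),
    fun j x hx => h.dg _ x (hf j hx)⟩

theorem fderiv_star_apply {f : E → 𝔸} {x : E} (v : E) :
    fderiv ℝ (fun y => star (f y)) x v = star (fderiv ℝ f x v) := by
  rw [fderiv_star]; rfl

theorem d_unitary {f : E → 𝔸} {x : E} (hf : DifferentiableAt ℝ f x)
    (h : ∀ᶠ y in 𝓝 x, f y ∈ unitary 𝔸) (v : E) :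
    f x * star (fderiv ℝ f x v) + fderiv ℝ f x v * star (f x) = 0 := by
  have h1 : fderiv ℝ (fun y => f y * star (f y)) x = 0 := by
    rw [Filter.EventuallyEq.fderiv_eq (f := fun _ => (1 : 𝔸))
      (h.mono fun y hy => (Unitary.mem_iff.1 hy).2)]
    simp
  have h2 := congrArg (fun T : E →L[ℝ] 𝔸 => T v) (fderiv_fun_mul' hf hf.star)
  simp only [h1, zero_apply, add_apply, smul_apply, smul_eq_mul, op_smul_eq_mul,
    fderiv_star_apply] at h2
  exact h2.symm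

theorem Gauge.dstar (ho : ∀ i, IsOpen (Ω i)) (h : Gauge Ω Γ B g) {i : ι} {x : E} (hx : x ∈ Ω i)
    (v : E) : star (fderiv ℝ (g i) x v) = star (g i x) * B i x v - Γ i x v * star (g i x) := by
  have h1 := d_unitary (h.sg.da hx) (eventually_of_mem ((ho i).mem_nhds hx) (h.un i)) v
  obtain ⟨a, b⟩ := Unitary.mem_iff.1 (h.un i x hx)
  have h2 := congrArg (star (g i x) * ·) h1
  simp only [mul_add, ← mul_assoc, a, one_mul, mul_zero] at h2
  rw [eq_neg_of_add_eq_zero_left h2, h.dg i x hx]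
  simp only [mul_sub, sub_mul, ← mul_assoc, a, one_mul]
  simp only [mul_assoc, b, mul_one]
  abel

theorem Gauge.skew (ho : ∀ i, IsOpen (Ω i)) (h : Gauge Ω Γ B g)
    (sk : ∀ i, ∀ x ∈ Ω i, ∀ v, star (Γ i x v) = -Γ i x v) {i : ι} {x : E} (hx : x ∈ Ω i) (v : E) :
    star (B i x v) = -B i x v := by
  have h1 := h.dstar ho hx v
  obtain ⟨a, b⟩ := Unitary.mem_iff.1 (h.un i x hx)
  rw [h.dg i x hx, star_sub, star_mul, star_mul, sk i x hx] at h1
  have h2 : star (g i x) * star (B i x v) = -(star (g i x) * B i x v) := by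
    rw [← sub_eq_zero] at h1 ⊢
    rw [← neg_eq_zero, ← h1]
    noncomm_ring
  have h3 := congrArg (g i x * ·) h2
  simpa only [mul_neg, ← mul_assoc, b, one_mul] using h3

/-- covariance of the curvature -/
theorem Gauge.crv (ho : ∀ i, IsOpen (Ω i)) (h : Gauge Ω Γ B g) (s : Sm Ω Γ) {i : ι} {x : E}
    (hx : x ∈ Ω i) (u v : E) :
    crv (B i) x u v = g i x * crv (Γ i) x u v * star (g i x) := by
  have d1 := (h.sg.da hx).hasFDerivAt
  have key : ∀ u v, fderiv ℝ (fderiv ℝ (g i)) x u v =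
      g i x * fderiv ℝ (Γ i) x u v + fderiv ℝ (g i) x u * Γ i x v -
        (B i x v * fderiv ℝ (g i) x u + fderiv ℝ (B i) x u v * g i x) := by
    intro u v
    have e1 := (((h.sg.fderiv.da hx).hasFDerivAt.clm_apply (hasFDerivAt_const v x)).unique
      (((d1.mul' ((s.da hx).hasFDerivAt.clm_apply (hasFDerivAt_const v x))).sub
      (((h.sB.da hx).hasFDerivAt.clm_apply (hasFDerivAt_const v x)).mul' d1)).congr_of_eventuallyEq
      (eventually_of_mem ((ho i).mem_nhds hx) fun y hy => h.dg i y hy v)))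
    simpa using congrArg (fun T : E →L[ℝ] 𝔸 => T u) e1
  have sy := h.sg.symm hx u v
  rw [key, key, h.dg i x hx, h.dg i x hx] at sy
  have e : N207.H.crv (B i) x u v * g i x = g i x * N207.H.crv (Γ i) x u v := by
    rw [← sub_eq_zero] at sy ⊢
    rw [← neg_eq_zero, ← sy, N207.H.crv, N207.H.crv]
    noncomm_ring
  rw [← e, mul_assoc, (Unitary.mem_iff.1 (h.un i x hx)).2, mul_one]

/-- covariant words of sections of a module -/
theorem Gauge.bd (ho : ∀ i, IsOpen (Ω i)) (h : Gauge Ω Γ B g) (s : Sm Ω Γ)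
    (ρ : 𝔸 →L[ℝ] V →L[ℝ] V) (hρ : ∀ a b y, ρ (a * b) y = ρ a (ρ b y)) {k : ℕ} {u : ι → E → V}
    (su : Sm Ω u) (hu : BD Ω (rep ρ Γ) k u) :
    BD Ω (rep ρ B) k fun i x => ρ (g i x) (u i x) := by
  refine BD.gauge ho (s.rep ρ) (h.sg.clm ρ) (h.b0.clm ρ) (fun i x hx v y => ?_) su hu
  have := (ρ.hasFDerivAt.comp x (h.sg.da hx).hasFDerivAt).fderiv
  rw [show fderiv ℝ (fun x => ρ (g i x)) x = _ from this]
  simp [rep, h.dg i x hx, hρ]

theorem B0.mul {f h : ι → E → 𝔸} (b : B0 Ω f) (b' : B0 Ω h) : B0 Ω fun i x => f i x * h i x :=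
  B0.app (b.clm (ContinuousLinearMap.mul ℝ 𝔸)) b'

/-- covariant words in the adjoint representation -/
theorem Gauge.bd_ad (ho : ∀ i, IsOpen (Ω i)) (h : Gauge Ω Γ B g) (s : Sm Ω Γ) : ∀ {k : ℕ}
    {u : ι → E → 𝔸}, Sm Ω u → BD Ω (rep adL Γ) k u →
    BD Ω (rep adL B) k fun i x => g i x * u i x * star (g i x)
  | 0, _, _, hu => (h.b0.mul hu).mul h.b0s
  | _ + 1, u, su, hu => ⟨(h.b0.mul hu.1).mul h.b0s, fun v =>
      (Gauge.bd_ad ho h s ((s.rep adL).cD su v) (hu.2 v)).congr ho fun i x hx => by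
        have d := (((h.sg.da hx).hasFDerivAt.mul' (su.da hx).hasFDerivAt).mul'
          (h.sg.star.da hx).hasFDerivAt).fderiv
        rw [cD, cD, show fderiv ℝ (fun x => g i x * u i x * star (g i x)) x = _ from d]
        simp only [add_apply, smul_apply, smul_eq_mul, op_smul_eq_mul, Pi.mul_apply,
          ContinuousLinearMap.comp_apply, fderiv_star_apply, h.dstar ho hx, rep, adL_apply]
        rw [h.dg i x hx]
        noncomm_ring⟩

/-- bounded gauge transformations between bounded connections have bounded jets -/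
theorem Gauge.bc (ho : ∀ i, IsOpen (Ω i)) (h : Gauge Ω Γ B g) (s : Sm Ω Γ) :
    ∀ k : ℕ, (∀ v, BC Ω k fun i x => Γ i x v) → (∀ v, BC Ω k fun i x => B i x v) →
      BC Ω (k + 1) g
  | 0, a, b => ⟨h.b0, fun v => by
      have ih : BC Ω 0 g := h.b0
      exact (BC.sub ho (h.sg.mul (s.app (Sm.const v)))
        ((h.sB.app (Sm.const v)).mul h.sg) (BC.mul ho h.sg (s.app (Sm.const v)) ih (a v))
        (BC.mul ho (h.sB.app (Sm.const v)) h.sg (b v) ih)).congr ho fun i x hx => h.dg i x hx v⟩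
  | k + 1, a, b => ⟨h.b0, fun v => by
      have ih := Gauge.bc ho h s k (fun v => (a v).pred) fun v => (b v).pred
      exact (BC.sub ho (h.sg.mul (s.app (Sm.const v)))
        ((h.sB.app (Sm.const v)).mul h.sg) (BC.mul ho h.sg (s.app (Sm.const v)) ih (a v))
        (BC.mul ho (h.sB.app (Sm.const v)) h.sg (b v) ih)).congr ho fun i x hx => h.dg i x hx v⟩

/-! ### radial connections -/

/-- the curvature as a linear map of its first argument -/
def crvL (Γ : E → E →L[ℝ] 𝔸) (v x : E) : E →L[ℝ] 𝔸 :=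
  (fderiv ℝ Γ x).flip v - fderiv ℝ Γ x v + (adL.flip (Γ x v)) ∘L Γ x

theorem crvL_apply (Γ : E → E →L[ℝ] 𝔸) (v x u : E) : crvL Γ v x u = crv Γ x u v := by
  simp [crvL, crv, add_sub_assoc]

theorem Sm.on {u : ι → E → V} (s : Sm Ω u) (i : ι) : ContDiffOn ℝ ∞ (u i) (Ω i) :=
  fun x hx => (s i x hx).contDiffWithinAt

theorem Sm.crvL [FiniteDimensional ℝ E] (ho : ∀ i, IsOpen (Ω i)) (h : Sm Ω Γ) (v : E) :
    Sm Ω fun i => crvL (Γ i) v := fun i _ hx =>
  (contDiffOn_clm_apply.2 fun u => ((h.crv u v).on i).congr fun _ _ =>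
    crvL_apply _ _ _ _).contDiffAt ((ho i).mem_nhds hx)

theorem bc_rad [FiniteDimensional ℝ E] (ho : ∀ i, IsOpen (Ω i)) {p : ι → E} (hs : Star Ω p)
    (hb : B0 Ω fun i x => x - p i) (s : Sm Ω B) (r : ∀ i, ∀ x ∈ Ω i, B i x (x - p i) = 0) :
    ∀ k : ℕ, (∀ u v, BD Ω (rep adL B) k fun i x => crv (B i) x u v) →
      ∀ v, BC Ω k fun i x => B i x v := by
  have sp : Sm Ω fun i x => x - p i := fun i x _ => contDiffAt_id.sub contDiffAt_const
  have bp : ∀ k, BC Ω k fun i x => x - p i := by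
    rintro (_ | k)
    · exact hb
    · exact ⟨hb, fun v => (BC.const ho v k).congr ho fun i x _ => by simp [fderiv_sub_const]⟩
  have step : ∀ k, (∀ u v, BC Ω k fun i x => crv (B i) x u v) →
      ∀ v, BC Ω k fun i x => B i x v := by
    intro k h v
    refine bc_of_radial ho hs k 0 (s.app (Sm.const v)) ((BC.app ho (s.crvL ho v) sp
      (bc_of_apply ho (s.crvL ho v) fun u => (h u v).congr ho fun i x _ => crvL_apply _ _ _ _)
      (bp k)).congr ho fun i x hx => ?_)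
    have d := (s.da hx).hasFDerivAt
    have e1 := congrArg (fun T : E →L[ℝ] 𝔸 => T v)
      ((d.clm_apply ((hasFDerivAt_id x).sub_const (p i))).unique
      ((hasFDerivAt_const (0 : 𝔸) x).congr_of_eventuallyEq
        (eventually_of_mem ((ho i).mem_nhds hx) (r i))))
    rw [(d.clm_apply (hasFDerivAt_const v x)).fderiv, crvL_apply, crv, r i x hx]
    simp only [add_apply, ContinuousLinearMap.comp_apply, ContinuousLinearMap.flip_apply, id,
      ContinuousLinearMap.id_apply, zero_apply] at e1 ⊢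
    rw [eq_neg_of_add_eq_zero_right e1]
    simp [add_comm]
  intro k
  induction k with
  | zero => exact fun h => step 0 h
  | succ k ih =>
    intro h
    have a := ih fun u v => (h u v).pred
    exact step (k + 1) fun u v => BD.bc ho (s.rep adL) (s.crv u v)
      (fun w => BC.clm ho adL (s.app (Sm.const w)) (a w)) (h u v)

/-! ### the radial gauge -/

/-- radial gauge transformation -/
def rg (Γ : ι → E → E →L[ℝ] 𝔸) (p : ι → E) (i : ι) (x : E) : 𝔸 := trp (Γ i) (p i, x)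

/-- the transformed connection -/
def gau (Γ : ι → E → E →L[ℝ] 𝔸) (g : ι → E → 𝔸) (i : ι) (x : E) : E →L[ℝ] 𝔸 :=
  (ContinuousLinearMap.mul ℝ 𝔸).flip (star (g i x)) ∘L
    (ContinuousLinearMap.mul ℝ 𝔸 (g i x) ∘L Γ i x - fderiv ℝ (g i) x)

theorem gau_apply (i : ι) (x v : E) :
    gau Γ g i x v = (g i x * Γ i x v - fderiv ℝ (g i) x v) * star (g i x) := rfl

theorem gauge_gau (s : Sm Ω Γ) (sg : Sm Ω g) (un : ∀ i, ∀ x ∈ Ω i, g i x ∈ unitary 𝔸) :
    Gauge Ω Γ (gau Γ g) g :=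
  ⟨sg, fun i x hx => ((sg.star.clm (ContinuousLinearMap.mul ℝ 𝔸).flip) i x hx).clm_comp
      ((((sg.clm (ContinuousLinearMap.mul ℝ 𝔸)) i x hx).clm_comp (s i x hx)).sub
        (sg.fderiv i x hx)), un, fun i x hx v => by
    rw [gau_apply, mul_assoc, (Unitary.mem_iff.1 (un i x hx)).1]; simp⟩

theorem trp_unitary {Γ : E → E →L[ℝ] 𝔸} {U : Set E} (hU : IsOpen U) (hΓ : ContDiffOn ℝ ∞ Γ U)
    (sk : ∀ x ∈ U, ∀ v, star (Γ x v) = -Γ x v) {p x : E} (h : (p, x) ∈ segD U) :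
    trp Γ (p, x) ∈ unitary 𝔸 := by
  have key : ∀ t ∈ Icc (0 : ℝ) 1, HasDerivWithinAt (fun t : ℝ => trp Γ (p, p + t • (x - p)) *
      star (trp Γ (p, p + t • (x - p)))) 0 (Icc 0 1) t := by
    intro t ht
    have a := hasDerivAt_trp hU hΓ (segD_scale h ht)
    refine (a.mul a.star).hasDerivWithinAt.congr_deriv ?_
    rw [star_mul, sk _ (h t ht)]
    noncomm_ring
  have := norm_image_sub_le_of_norm_deriv_le_segment_01' (C := 0) key fun t _ => by simp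
  simp only [one_smul, add_sub_cancel, zero_smul, add_zero, trp_self hΓ (segD_left h), star_one,
    mul_one, norm_le_zero_iff, sub_eq_zero] at this
  have h2 := trp_mul_symm hU hΓ (segD_symm h)
  have e : trp Γ (x, p) = star (trp Γ (p, x)) := left_inv_eq_right_inv h2 this
  exact Unitary.mem_iff.2 ⟨e ▸ h2, this⟩

theorem trp_mem {Γ : E → E →L[ℝ] 𝔸} {U : Set E} (hU : IsOpen U) (hΓ : ContDiffOn ℝ ∞ Γ U)
    (H : Subalgebra ℝ 𝔸) [FiniteDimensional ℝ H] (hH : ∀ x ∈ U, ∀ v, Γ x v ∈ H) {p x : E}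
    (h : (p, x) ∈ segD U) : trp Γ (p, x) ∈ H := by
  have : FiniteDimensional ℝ H.toSubmodule := ‹_›
  obtain ⟨f, hf⟩ := Submodule.ClosedComplemented.of_finiteDimensional H.toSubmodule
  let π : 𝔸 →L[ℝ] 𝔸 := ContinuousLinearMap.id ℝ 𝔸 - H.toSubmodule.subtypeL ∘L f
  have p0 : ∀ a ∈ H, π a = 0 := fun a ha => by
    have := congrArg Subtype.val (hf ⟨a, ha⟩)
    simpa [π, sub_eq_zero] using this.symm
  have p1 : ∀ a, a - π a ∈ H := fun a => by simp [π]
  have hc : ContinuousOn (fun t : ℝ => Γ (p + t • (x - p)) (x - p)) (Icc 0 1) :=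
    (hΓ.continuousOn.comp (by fun_prop) fun t ht => h t ht).clm_apply continuousOn_const
  obtain ⟨K, hK⟩ := isCompact_Icc.exists_bound_of_continuousOn hc
  have hK0 : 0 ≤ K := (norm_nonneg _).trans (hK 0 ⟨le_rfl, zero_le_one⟩)
  have g := gronwall_le (K := ‖π‖ * K) (by positivity) le_rfl
    (fun t ht => π.hasFDerivAt.comp_hasDerivAt t (hasDerivAt_trp hU hΓ (segD_scale h ht)))
    (fun t ht => ?_) 1 ⟨zero_le_one, le_rfl⟩
  · simp only [Function.comp, one_smul, add_sub_cancel, zero_smul, add_zero,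
      trp_self hΓ (segD_left h), p0 1 H.one_mem, norm_zero, zero_mul, norm_le_zero_iff] at g
    simpa [g] using p1 (trp Γ (p, x))
  · set a := trp Γ (p, p + t • (x - p))
    have e : π (a * Γ (p + t • (x - p)) (x - p)) = π (π a * Γ (p + t • (x - p)) (x - p)) := by
      rw [← sub_eq_zero, ← map_sub, ← sub_mul]
      exact p0 _ (H.mul_mem (p1 a) (hH _ (h t ht) _))
    rw [e, add_zero, mul_assoc, mul_comm K]
    exact (π.le_opNorm _).trans (mul_le_mul_of_nonneg_left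
      ((norm_mul_le _ _).trans (mul_le_mul_of_nonneg_left (hK t ht) (norm_nonneg _)))
      (norm_nonneg _))

theorem fderiv_mem (H : Submodule ℝ V) (hH : IsClosed (H : Set V)) {f : E → V} {x : E}
    (hf : DifferentiableAt ℝ f x) (h : ∀ᶠ y in 𝓝 x, f y ∈ H) (v : E) : fderiv ℝ f x v ∈ H := by
  have h1 := hf.hasFDerivAt.lim_real v
  refine hH.mem_of_tendsto h1 ?_
  have h2 : Tendsto (fun d : ℝ => x + d⁻¹ • v) atTop (𝓝 x) := by
    simpa using ((tendsto_inv_atTop_zero (𝕜 := ℝ)).smul_const v).const_add x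
  filter_upwards [h2.eventually h] with d hd
  exact H.smul_mem _ (H.sub_mem hd h.self_of_nhds)

theorem Gauge.mem (ho : ∀ i, IsOpen (Ω i)) (h : Gauge Ω Γ B g) (H : StarSubalgebra ℝ 𝔸)
    (hH : IsClosed (H : Set 𝔸)) (h1 : ∀ i, ∀ x ∈ Ω i, ∀ v, Γ i x v ∈ H)
    (h2 : ∀ i, ∀ x ∈ Ω i, g i x ∈ H) {i : ι} {x : E} (hx : x ∈ Ω i) (v : E) : B i x v ∈ H := by
  have a := fderiv_mem H.toSubalgebra.toSubmodule hH (h.sg.da hx)
    (eventually_of_mem ((ho i).mem_nhds hx) (h2 i)) v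
  have e : B i x v = (g i x * Γ i x v - fderiv ℝ (g i) x v) * star (g i x) := by
    rw [h.dg i x hx, sub_sub_cancel, mul_assoc, (Unitary.mem_iff.1 (h.un i x hx)).2, mul_one]
  rw [e]
  exact mul_mem (sub_mem (mul_mem (h2 i x hx) (h1 i x hx v)) a) (star_mem (h2 i x hx))

variable {p : ι → E}

theorem Star.seg (hs : Star Ω p) {i : ι} {x : E} (hx : x ∈ Ω i) : (p i, x) ∈ segD (Ω i) :=
  hs i x hx

theorem Sm.rg (ho : ∀ i, IsOpen (Ω i)) (hs : Star Ω p) (s : Sm Ω Γ) : Sm Ω (rg Γ p) :=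
  fun i x hx => ContDiffAt.comp (g := trp (Γ i)) x (contDiffAt_trp (ho i) (s.on i) (hs.seg hx))
    (contDiffAt_const.prodMk contDiffAt_id)

theorem gauge_rg (ho : ∀ i, IsOpen (Ω i)) (hs : Star Ω p) (s : Sm Ω Γ)
    (sk : ∀ i, ∀ x ∈ Ω i, ∀ v, star (Γ i x v) = -Γ i x v) :
    Gauge Ω Γ (gau Γ (rg Γ p)) (rg Γ p) :=
  gauge_gau s (s.rg ho hs) fun i _ hx => trp_unitary (ho i) (s.on i) (sk i) (hs.seg hx)

theorem gau_rg_radial (ho : ∀ i, IsOpen (Ω i)) (hs : Star Ω p) (s : Sm Ω Γ) (i : ι) (x : E)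
    (hx : x ∈ Ω i) : gau Γ (rg Γ p) i x (x - p i) = 0 := by
  have h1 := hasDerivAt_trp (ho i) (s.on i) (segD_scale (hs.seg hx) (τ := 1) ⟨zero_le_one, le_rfl⟩)
  have h2 : HasDerivAt (fun t : ℝ => p i + t • (x - p i)) (x - p i) 1 := by
    simpa using ((hasDerivAt_id (1 : ℝ)).smul_const (x - p i)).const_add (p i)
  have h3 := HasFDerivAt.comp_hasDerivAt_of_eq (1 : ℝ) ((s.rg ho hs).da hx).hasFDerivAt h2 (by simp)
  have h4 := h3.unique h1
  simp only [one_smul, add_sub_cancel] at h4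
  rw [gau_apply, h4, rg, sub_self, zero_mul]

/-- **RAD**: in the radial gauge the connection form is bounded in `C^k` by the covariant
`C^k` norm of the curvature, uniformly in the family -/
theorem rad_bc [FiniteDimensional ℝ E] (ho : ∀ i, IsOpen (Ω i)) (hs : Star Ω p)
    (hb : B0 Ω fun i x => x - p i) (s : Sm Ω Γ)
    (sk : ∀ i, ∀ x ∈ Ω i, ∀ v, star (Γ i x v) = -Γ i x v) (k : ℕ)
    (hF : ∀ u v, BD Ω (rep adL Γ) k fun i x => crv (Γ i) x u v) : BC Ω k (gau Γ (rg Γ p)) := by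
  have G := gauge_rg ho hs s sk
  exact bc_of_apply ho G.sB (bc_rad ho hs hb G.sB (gau_rg_radial ho hs s) k fun u v =>
    (G.bd_ad ho s (s.crv u v) (hF u v)).congr ho fun i x hx => G.crv ho s hx u v)

/-- sections in a gauge with bounded connection form -/
theorem Gauge.bc_sec (ho : ∀ i, IsOpen (Ω i)) (h : Gauge Ω Γ B g) (s : Sm Ω Γ)
    (ρ : 𝔸 →L[ℝ] V →L[ℝ] V) (hρ : ∀ a b y, ρ (a * b) y = ρ a (ρ b y)) {k : ℕ} (hB : BC Ω k B)
    {u : ι → E → V} (su : Sm Ω u) (hu : BD Ω (rep ρ Γ) (k + 1) u) :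
    BC Ω (k + 1) fun i x => ρ (g i x) (u i x) :=
  BD.bc ho (h.sB.rep ρ) ((h.sg.clm ρ).app su) (fun v => BC.clm ho ρ (h.sB.app (Sm.const v))
    (BC.app ho h.sB (Sm.const v) hB (BC.const ho v k))) (h.bd ho s ρ hρ su hu)

/-- **RAD**, packaged -/
theorem rad [FiniteDimensional ℝ E] [FiniteDimensional ℝ 𝔸] (ho : ∀ i, IsOpen (Ω i))
    (hs : Star Ω p) (hb : B0 Ω fun i x => x - p i) (s : Sm Ω Γ)
    (sk : ∀ i, ∀ x ∈ Ω i, ∀ v, star (Γ i x v) = -Γ i x v) (H : StarSubalgebra ℝ 𝔸)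
    (hH : ∀ i, ∀ x ∈ Ω i, ∀ v, Γ i x v ∈ H)
    (hF : ∀ k u v, BD Ω (rep adL Γ) k fun i x => crv (Γ i) x u v) :
    ∃ g B, Gauge Ω Γ B g ∧ (∀ k, BC Ω k B) ∧ (∀ i, ∀ x ∈ Ω i, g i x ∈ H) ∧
      (∀ i, ∀ x ∈ Ω i, ∀ v, B i x v ∈ H ∧ star (B i x v) = -B i x v) := by
  have G := gauge_rg ho hs s sk
  have m : ∀ i, ∀ x ∈ Ω i, rg Γ p i x ∈ H := fun i x hx =>
    trp_mem (ho i) (s.on i) H.toSubalgebra (hH i) (hs.seg hx)
  exact ⟨_, _, G, fun k => rad_bc ho hs hb s sk k (hF k), m, fun i x hx v =>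
    ⟨G.mem ho H H.toSubalgebra.toSubmodule.closed_of_finiteDimensional hH m hx v,
      G.skew ho sk hx v⟩⟩

end Crest.Agent.X212.Eps63

end
end

-- ▼ part X212/Pat85/Rad
section

/-!
# X212, PATCH (helper85): parallel frames, the radial gauge for varying fibres
-/

set_option autoImplicit false
set_option linter.unusedSectionVars false
open Set Filter Topology Function
open scoped ContDiff Manifold InnerProductSpace

noncomputable section
namespace Crest.Agent.X212.Pat85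

open Cmp73 Sob92
open Wz78 (nab curv SA)
open N207.H (trp crv segD)

section lin
variable {V F : Type} [NormedAddCommGroup V] [InnerProductSpace ℝ V] [FiniteDimensional ℝ V]
  [NormedAddCommGroup F] [InnerProductSpace ℝ F] [FiniteDimensional ℝ F]

theorem norm_iso {g : F →L[ℝ] V} (h : ad g ∘L g = 1) (v : F) : ‖g v‖ = ‖v‖ := by
  have : ⟪g v, g v⟫_ℝ = ⟪v, v⟫_ℝ := by
    rw [← inner_ad]; exact congrArg (fun L : F →L[ℝ] F => ⟪L v, v⟫_ℝ) h
  rw [real_inner_self_eq_norm_sq, real_inner_self_eq_norm_sq] at this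
  exact (pow_left_inj₀ (norm_nonneg _) (norm_nonneg _) two_ne_zero).1 this

theorem norm_iso_le {g : F →L[ℝ] V} (h : ad g ∘L g = 1) : ‖g‖ ≤ 1 :=
  g.opNorm_le_bound zero_le_one fun v => by rw [norm_iso h, one_mul]

theorem norm_ad_le (g : F →L[ℝ] V) : ‖ad g‖ ≤ ‖g‖ :=
  (ad g).opNorm_le_bound (norm_nonneg _) fun w => by
    have h1 : ‖ad g w‖ ^ 2 ≤ ‖w‖ * (‖g‖ * ‖ad g w‖) := by
      rw [← real_inner_self_eq_norm_sq, inner_ad]
      exact (real_inner_le_norm _ _).trans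
        (mul_le_mul_of_nonneg_left (g.le_opNorm _) (norm_nonneg _))
    rcases (norm_nonneg (ad g w)).eq_or_lt with h | h
    · rw [← h]; positivity
    · nlinarith

theorem ad_star [CompleteSpace V] (A : V →L[ℝ] V) : ad A = star A :=
  ad_eq fun v w => (ContinuousLinearMap.adjoint_inner_right A v w).symm

end lin

section fra
variable {E : Type} [NormedAddCommGroup E] [NormedSpace ℝ E] {HM : Type} [TopologicalSpace HM]
  {I : ModelWithCorners ℝ E HM} {M : Type} [TopologicalSpace M] [ChartedSpace HM M]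
  [IsManifold I ∞ M] {ι : Type} [Fintype ι] {α : Type}
  {F : Type} [NormedAddCommGroup F] [InnerProductSpace ℝ F] [FiniteDimensional ℝ F]

variable (I) in
/-- `g` is an isometric parallel frame at `x` with the connection matrices `B` -/
structure Fra {V : Type} [NormedAddCommGroup V] [InnerProductSpace ℝ V] [FiniteDimensional ℝ V]
    (e : ι → (x : M) → TangentSpace I x) (W : ι → M → V →L[ℝ] V) (p : M → V →L[ℝ] V)
    (B : ι → M → F →L[ℝ] F) (g : M → F →L[ℝ] V) (x : M) : Prop where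
  sg : SA I g x
  sB : ∀ a, SA I (B a) x
  iso : ad (g x) ∘L g x = 1
  rg : g x ∘L ad (g x) = p x
  skW : ∀ a, ad (W a x) = -W a x
  skB : ∀ a, ad (B a x) = -B a x
  par : ∀ a, cov I (e a) (B a) (W a) g x = 0

theorem Fra.par_ad {V : Type} [NormedAddCommGroup V] [InnerProductSpace ℝ V]
    [FiniteDimensional ℝ V] {e : ι → (x : M) → TangentSpace I x} {W : ι → M → V →L[ℝ] V}
    {p : M → V →L[ℝ] V} {B : ι → M → F →L[ℝ] F} {g : M → F →L[ℝ] V} {x : M}
    (h : Fra I e W p B g x) (a : ι) : cov I (e a) (W a) (B a) (fun y => ad (g y)) x = 0 := by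
  rw [cov_ad h.sg (h.skB a) (h.skW a), h.par a, map_zero]

variable {V : α → Type} [∀ n, NormedAddCommGroup (V n)] [∀ n, InnerProductSpace ℝ (V n)]
  [∀ n, FiniteDimensional ℝ (V n)] {𝓕 : Filter (α × M)} {e : α → ι → (x : M) → TangentSpace I x}
  {W : ∀ n, ι → M → V n →L[ℝ] V n} {p : ∀ n, M → V n →L[ℝ] V n} {B B' : α → ι → M → F →L[ℝ] F}
  {g g' : ∀ n, M → F →L[ℝ] V n} {k : ℕ}

theorem DB.fra (ho : OB 𝓕) (h : ∀ᶠ q in 𝓕, Fra I (e q.1) (W q.1) (p q.1) (B q.1) (g q.1) q.2) :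
    DB I 𝓕 e (V := fun n => F →L[ℝ] V n) (fun n => hom (B n) (W n)) k g :=
  DB.par ho (A := fun n => hom (B n) (W n)) (e := e)
    ⟨h.mono fun _ a => a.sg, 1, h.mono fun _ a => norm_iso_le a.iso⟩
    (h.mono fun _ hq a => (add_sub_assoc _ _ _).symm.trans (hq.par a)) k

theorem DB.fra_ad (ho : OB 𝓕) (h : ∀ᶠ q in 𝓕, Fra I (e q.1) (W q.1) (p q.1) (B q.1) (g q.1) q.2) :
    DB I 𝓕 e (V := fun n => V n →L[ℝ] F) (fun n => hom (W n) (B n)) k fun n x => ad (g n x) :=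
  DB.par ho (A := fun n => hom (W n) (B n)) (e := e) (f := fun n x => ad (g n x))
    ⟨h.mono fun _ a => sa_ad a.sg, 1, h.mono fun _ a => (norm_ad_le _).trans (norm_iso_le a.iso)⟩
    (h.mono fun _ hq a => (add_sub_assoc _ _ _).symm.trans (hq.par_ad a)) k

/-- sections read in a frame -/
theorem DB.sec (ho : OB 𝓕) (h : ∀ᶠ q in 𝓕, Fra I (e q.1) (W q.1) (p q.1) (B q.1) (g q.1) q.2)
    (hB : ∀ j < k, ∀ a, DB I 𝓕 e (z0 ι M fun _ => F →L[ℝ] F) j fun n => B n a)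
    {f : ∀ n, M → V n} (hf : DB I 𝓕 e W k f) :
    DB I 𝓕 e (z0 ι M fun _ => F) k fun n x => ad (g n x) (f n x) :=
  DB.plain ho (A := B) hB (DB.app ho (DB.fra_ad ho h) hf)

/-- endomorphisms read in a frame -/
theorem DB.endo (ho : OB 𝓕) (h : ∀ᶠ q in 𝓕, Fra I (e q.1) (W q.1) (p q.1) (B q.1) (g q.1) q.2)
    (hB : ∀ j < k, ∀ a, DB I 𝓕 e (z0 ι M fun _ => F →L[ℝ] F) j fun n => B n a)
    {T : ∀ n, M → V n →L[ℝ] V n} (hT : DB I 𝓕 e (fun n => hom (W n) (W n)) k T) :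
    DB I 𝓕 e (z0 ι M fun _ => F →L[ℝ] F) k fun n x => ad (g n x) ∘L T n x ∘L g n x :=
  DB.plain_hom ho (A := B) (B := B) hB hB
    (DB.comp ho (DB.fra_ad ho h) (DB.comp ho hT (DB.fra ho h)))

/-- transition functions -/
theorem DB.trans (ho : OB 𝓕) (h : ∀ᶠ q in 𝓕, Fra I (e q.1) (W q.1) (p q.1) (B q.1) (g q.1) q.2)
    (h' : ∀ᶠ q in 𝓕, Fra I (e q.1) (W q.1) (p q.1) (B' q.1) (g' q.1) q.2)
    (hB : ∀ j a, DB I 𝓕 e (z0 ι M fun _ => F →L[ℝ] F) j fun n => B n a)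
    (hB' : ∀ j a, DB I 𝓕 e (z0 ι M fun _ => F →L[ℝ] F) j fun n => B' n a) :
    DB I 𝓕 e (z0 ι M fun _ => F →L[ℝ] F) k fun n x => ad (g n x) ∘L g' n x :=
  DB.plain_hom ho (A := B') (B := B) (fun j _ => hB' j) (fun j _ => hB j)
    (DB.comp ho (DB.fra_ad ho h) (DB.fra ho h'))

end fra

section flat
variable {α ι E G : Type} [Fintype ι] [NormedAddCommGroup E] [NormedSpace ℝ E]
  [FiniteDimensional ℝ E] [NormedAddCommGroup G] [NormedSpace ℝ G] {𝓕 : Filter (α × E)}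
  {T : α → ι → E → E} {θ : α → E → E →L[ℝ] ι → ℝ} {k : ℕ} {c : E}

theorem dv_flat (X : E → E) (f : E → G) (z : E) : dv 𝓘(ℝ, E) X f z = fderiv ℝ f z (X z) := by
  unfold dv; rw [mfderiv_eq_fderiv]; rfl

theorem cda_clm {H : Type} [NormedAddCommGroup H] [NormedSpace ℝ H] (L : G →L[ℝ] H) {f : E → G}
    {z : E} (h : ContDiffAt ℝ ∞ f z) : ContDiffAt ℝ ∞ (fun y => L (f y)) z :=
  L.contDiff.contDiffAt.comp z h

/-- spanning frames with bounded jets -/
structure FF (𝓕 : Filter (α × E)) (T : α → ι → E → E) (θ : α → E → E →L[ℝ] ι → ℝ) : Prop where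
  ob : OB 𝓕
  cT : ∀ k a, CB 𝓕 k fun n => T n a
  cθ : ∀ k, CB 𝓕 k θ
  sp : ∀ᶠ q in 𝓕, ∀ v, ∑ a, θ q.1 q.2 v a • T q.1 a q.2 = v

theorem FF.mono (h : FF 𝓕 T θ) {𝓖 : Filter (α × E)} (ho : OB 𝓖) (hG : 𝓖 ≤ 𝓕) : FF 𝓖 T θ :=
  ⟨ho, fun k a => (h.cT k a).mono hG, fun k => (h.cθ k).mono hG, hG h.sp⟩

theorem FF.cb (h : FF 𝓕 T θ) : ∀ {k : ℕ} {f : α → E → G},
    DB 𝓘(ℝ, E) 𝓕 T (z0 ι E fun _ => G) k f → CB 𝓕 k f
  | 0, _, hf => CB.zero_iff.2 ⟨hf.1.mono fun _ a => a.contDiffAt, hf.2⟩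
  | k + 1, f, hf => (FF.cb h (k := 0) hf.1).succ_of_eq
      (((CB.pi fun a => FF.cb h (hf.2 a)).clm (comb ι G)).clm_comp (h.cθ k))
      ((h.ob.ev (p := fun n z => ∀ v, ∑ a, θ n z v a • T n a z = v) h.sp).mono fun q hq =>
        hq.mono fun z hz => by
          ext v
          conv_lhs => rw [← hz v]
          simp [comb_apply, nab, dv_flat])

theorem FF.db (h : FF 𝓕 T θ) : ∀ {k : ℕ} {f : α → E → G}, CB 𝓕 k f →
    DB 𝓘(ℝ, E) 𝓕 T (z0 ι E fun _ => G) k f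
  | 0, _, hf => ⟨hf.smooth.mono fun _ a => a.contMDiffAt, hf.bdd⟩
  | k + 1, f, hf => ⟨⟨hf.smooth.mono fun _ a => a.contMDiffAt, hf.bdd⟩, fun a =>
      (FF.db h (hf.fd.app (h.cT k a))).congr h.ob (.of_forall fun q => by simp [nab, dv_flat])⟩

/-- filters generated by sets with open star shaped fibres -/
def SB (𝓕 : Filter (α × E)) (c : E) : Prop :=
  ∀ D ∈ 𝓕, ∀ᶠ q in 𝓕, q.2 ∈ vis (interior {z | (q.1, z) ∈ D}) c

theorem SB.ob (h : SB 𝓕 c) : OB 𝓕 := fun D hD => (h D hD).mono fun _ hq =>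
  mem_interior_iff_mem_nhds.1 (vis_subset hq)

theorem SB.exists (h : SB 𝓕 c) {P : α × E → Prop} (hP : ∀ᶠ q in 𝓕, P q) : ∃ Ω : α → Set E,
    (∀ n, IsOpen (Ω n)) ∧ Eps63.Star Ω (fun _ => c) ∧ (∀ᶠ q in 𝓕, q.2 ∈ Ω q.1) ∧
      ∀ n, ∀ x ∈ Ω n, P (n, x) :=
  ⟨fun n => vis (interior {z | P (n, z)}) c, fun _ => isOpen_vis isOpen_interior c,
    fun _ x hx t ht => segment_subset_vis hx (by rw [segment_eq_image']; exact ⟨t, ht, rfl⟩),
    h _ hP, fun n _ hx => interior_subset (s := {z | P (n, z)}) (vis_subset hx)⟩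

theorem cb_of_forall {f : α → E → G} (s : ∀ᶠ q in 𝓕, ContDiffAt ℝ ∞ (f q.1) q.2)
    (h : ∀ j ≤ k, ∃ C, ∀ᶠ q in 𝓕, ‖iteratedFDeriv ℝ j (f q.1) q.2‖ ≤ C) : CB 𝓕 k f := by
  choose! C hC using h
  refine ⟨∑ j ∈ Finset.range (k + 1), |C j|, (s.and ((Finset.range (k + 1)).eventually_all.2
    fun j hj => hC j (Nat.lt_succ_iff.1 (Finset.mem_range.1 hj)))).mono fun q hq =>
      ⟨hq.1, fun j hj => ?_⟩⟩
  have hj' := Finset.mem_range.2 (Nat.lt_succ_of_le hj)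
  exact ((hq.2 j hj').trans (le_abs_self _)).trans
    (Finset.single_le_sum (f := fun j => |C j|) (fun _ _ => abs_nonneg _) hj')

theorem cb_radial (hs : SB 𝓕 c) {φ : α → E → G} (s : ∀ᶠ q in 𝓕, ContDiffAt ℝ ∞ (φ q.1) q.2)
    (h : CB 𝓕 k fun n x => φ n x + fderiv ℝ (φ n) x (x - c)) : CB 𝓕 k φ := by
  obtain ⟨C, hC⟩ := h
  obtain ⟨Ω, ho, hst, h1, h2⟩ := hs.exists (s.and hC)
  refine cb_of_forall s fun j hj => ?_
  have s1 : Eps63.Sm Ω φ := fun n x hx => (h2 n x hx).1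
  have s2 : Eps63.Sm Ω fun n x => φ n x + fderiv ℝ (φ n) x (x - c) := fun n x hx => (h2 n x hx).2.1
  have b2 := Eps63.bc_of_itd ho j s2 fun i hi => ⟨C, fun n x hx => (h2 n x hx).2.2 i (hi.trans hj)⟩
  obtain ⟨K, hK⟩ := Eps63.BC.itd ho j s1 (Eps63.bc_of_radial ho hst j 0 s1
    (b2.congr ho fun n x _ => by simp))
  exact ⟨K, h1.mono fun q hq => hK q.1 q.2 hq⟩

variable {𝔸 : Type} [NormedRing 𝔸] [NormedAlgebra ℝ 𝔸]

theorem crv_sum (Γ : E → E →L[ℝ] 𝔸) (z : E) {t : ι → E} (s s' : ι → ℝ) :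
    crv Γ z (∑ a, s a • t a) (∑ b, s' b • t b) = ∑ a, ∑ b, (s a * s' b) • crv Γ z (t a) (t b) := by
  let Q : E →L[ℝ] E →L[ℝ] 𝔸 := fderiv ℝ Γ z - (fderiv ℝ Γ z).flip +
    (ContinuousLinearMap.mul ℝ 𝔸).bilinearComp (Γ z) (Γ z) -
    ((ContinuousLinearMap.mul ℝ 𝔸).bilinearComp (Γ z) (Γ z)).flip
  have h : ∀ u v, crv Γ z u v = Q u v := fun u v => by simp [Q, crv]
  simp only [h, map_sum, map_smul, _root_.sum_apply, _root_.smul_apply, Finset.smul_sum, smul_smul]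
  rw [Finset.sum_comm]
  simp only [mul_comm]

theorem radial_eq {B : E → E →L[ℝ] 𝔸} {x : E} (d : DifferentiableAt ℝ B x)
    (r : ∀ᶠ y in 𝓝 x, B y (y - c) = 0) (v : E) :
    B x v + fderiv ℝ (fun y => B y v) x (x - c) = crv B x (x - c) v := by
  have e1 := congrArg (fun T : E →L[ℝ] 𝔸 => T v)
    ((d.hasFDerivAt.clm_apply ((hasFDerivAt_id x).sub_const c)).unique
    ((hasFDerivAt_const (0 : 𝔸) x).congr_of_eventuallyEq r))
  rw [(d.hasFDerivAt.clm_apply (hasFDerivAt_const v x)).fderiv, crv, r.self_of_nhds]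
  simp only [add_apply, ContinuousLinearMap.comp_apply, ContinuousLinearMap.flip_apply, id,
    ContinuousLinearMap.id_apply, zero_apply] at e1 ⊢
  rw [eq_neg_of_add_eq_zero_right e1]
  simp [add_comm]

variable {V F : Type} [NormedAddCommGroup V] [InnerProductSpace ℝ V] [FiniteDimensional ℝ V]
  [NormedAddCommGroup F] [InnerProductSpace ℝ F] [FiniteDimensional ℝ F]

theorem crv_par {Γ : E → E →L[ℝ] V →L[ℝ] V} {B : E → E →L[ℝ] F →L[ℝ] F} {g : E → F →L[ℝ] V} {z : E}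
    (hΓ : DifferentiableAt ℝ Γ z) (hB : DifferentiableAt ℝ B z) (hg : ContDiffAt ℝ ∞ g z)
    (h : ∀ᶠ y in 𝓝 z, ∀ v, fderiv ℝ g y v = g y ∘L B y v - Γ y v ∘L g y) (u v : E) :
    crv Γ z u v ∘L g z = g z ∘L crv B z u v := by
  have d1 := (hg.differentiableAt (by simp)).hasFDerivAt
  have d2 := ((hg.fderiv_right (m := ∞) (by simp)).differentiableAt (by simp)).hasFDerivAt
  have key : ∀ u v w, fderiv ℝ (fderiv ℝ g) z u v w =
      g z (fderiv ℝ B z u v w) + fderiv ℝ g z u (B z v w) -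
        (Γ z v (fderiv ℝ g z u w) + fderiv ℝ Γ z u v (g z w)) := by
    intro u v w
    have e1 := ((d2.clm_apply (hasFDerivAt_const v z)).unique
      (((d1.clm_comp (hB.hasFDerivAt.clm_apply (hasFDerivAt_const v z))).sub
      ((hΓ.hasFDerivAt.clm_apply (hasFDerivAt_const v z)).clm_comp d1)).congr_of_eventuallyEq
      (h.mono fun y hy => hy v)))
    simpa using congrArg (fun T : E →L[ℝ] F →L[ℝ] V => T u w) e1
  have sy := (hg.isSymmSndFDerivAt (by simpa using (WithTop.coe_le_coe.2 le_top :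
    ((2 : ℕ∞) : WithTop ℕ∞) ≤ ((⊤ : ℕ∞) : WithTop ℕ∞)))) u v
  ext w
  have := congrArg (fun L : F →L[ℝ] V => L w) sy
  simp only [key, h.self_of_nhds, _root_.sub_apply, ContinuousLinearMap.comp_apply, map_sub] at this
  simp only [crv, ContinuousLinearMap.comp_apply, _root_.sub_apply, _root_.add_apply, map_sub,
    map_add, mul_apply_eq_comp]
  linear_combination (norm := abel) -this

/-- the connection matrix of a frame -/
def rcn (Γ : E → E →L[ℝ] V →L[ℝ] V) (g : E → F →L[ℝ] V) (z : E) : E →L[ℝ] F →L[ℝ] F :=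
  ContinuousLinearMap.compL ℝ F V F (ad (g z)) ∘L
    (fderiv ℝ g z + (ContinuousLinearMap.compL ℝ F V V).flip (g z) ∘L Γ z)

theorem rcn_apply (Γ : E → E →L[ℝ] V →L[ℝ] V) (g : E → F →L[ℝ] V) (z v : E) :
    rcn Γ g z v = ad (g z) ∘L (fderiv ℝ g z v + Γ z v ∘L g z) := rfl

/-- radial transport -/
theorem exists_rad (Γ : E → E →L[ℝ] V →L[ℝ] V) (c : E) : ∃ h : E → V →L[ℝ] V, ∀ O : Set E,
    IsOpen O → (∀ z ∈ O, ContDiffAt ℝ ∞ Γ z ∧ ∀ v, ad (Γ z v) = -Γ z v) → ∀ z ∈ vis O c,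
      ContDiffAt ℝ ∞ h z ∧ ad (h z) ∘L h z = 1 ∧ h z ∘L ad (h z) = 1 ∧
      fderiv ℝ h z (z - c) + Γ z (z - c) ∘L h z = 0 ∧
      ∀ S : E → V →L[ℝ] V, (∀ y ∈ O, DifferentiableAt ℝ S y ∧
        ∀ v, fderiv ℝ S y v + (Γ y v ∘L S y - S y ∘L Γ y v) = 0) → S z ∘L h z = h z ∘L S c := by
  have := FiniteDimensional.complete ℝ V
  refine ⟨fun z => star (trp Γ (c, z)), fun O hO hΓ z hz => ?_⟩
  have s : ContDiffOn ℝ ∞ Γ O := fun y hy => (hΓ y hy).1.contDiffWithinAt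
  have sk : ∀ y ∈ O, ∀ v, star (Γ y v) = -Γ y v := fun y hy v => by rw [← ad_star, (hΓ y hy).2]
  have hs : (c, z) ∈ segD O := fun t ht => hz (by rw [segment_eq_image']; exact ⟨t, ht, rfl⟩)
  obtain ⟨u1, u2⟩ := Unitary.mem_iff.1 (Eps63.trp_unitary hO s sk hs)
  have sm : ContDiffAt ℝ ∞ (fun z => trp Γ (c, z)) z := ContDiffAt.comp (g := trp Γ) z
    (N207.H.contDiffAt_trp hO s hs) (contDiffAt_const.prodMk contDiffAt_id)
  have hγ : ∀ t : ℝ, HasDerivAt (fun t : ℝ => c + t • (z - c)) (z - c) t := fun t => by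
    simpa using ((hasDerivAt_id t).smul_const (z - c)).const_add c
  refine ⟨(starL' ℝ : (V →L[ℝ] V) ≃L[ℝ] V →L[ℝ] V).contDiff.contDiffAt.comp z sm,
    by rw [ad_star, star_star]; exact u2, by rw [ad_star, star_star]; exact u1, ?_, fun S hS => ?_⟩
  · have h1 := N207.H.hasDerivAt_trp hO s
      (N207.H.segD_scale hs (τ := 1) ⟨zero_le_one, le_rfl⟩)
    have h3 := HasFDerivAt.comp_hasDerivAt_of_eq (1 : ℝ)
      (sm.differentiableAt (by simp)).hasFDerivAt (hγ 1) (by simp)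
    have h4 := h3.unique h1
    simp only [one_smul, add_sub_cancel] at h4
    rw [Eps63.fderiv_star_apply (f := fun z => trp Γ (c, z)), h4, star_mul, sk z (vis_subset hz),
      neg_mul]
    exact neg_add_cancel _
  · have key : ∀ t ∈ Icc (0 : ℝ) 1, HasDerivWithinAt (fun t : ℝ => trp Γ (c, c + t • (z - c)) *
        S (c + t • (z - c)) * star (trp Γ (c, c + t • (z - c)))) 0 (Icc 0 1) t := by
      intro t ht
      have a := N207.H.hasDerivAt_trp hO s (N207.H.segD_scale hs ht)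
      have b := (hS _ (hs t ht)).1.hasFDerivAt.comp_hasDerivAt t (hγ t)
      refine ((a.mul b).mul a.star).hasDerivWithinAt.congr_deriv ?_
      have e : fderiv ℝ S (c + t • (z - c)) (z - c) = S (c + t • (z - c)) * Γ _ (z - c) -
          Γ (c + t • (z - c)) (z - c) * S (c + t • (z - c)) :=
        (eq_neg_of_add_eq_zero_left ((hS _ (hs t ht)).2 (z - c))).trans (neg_sub _ _)
      rw [star_mul, sk _ (hs t ht), e]
      simp only [Pi.mul_apply, comp_apply]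
      noncomm_ring
    have := norm_image_sub_le_of_norm_deriv_le_segment_01' (C := 0) key fun t _ => by simp
    simp only [one_smul, add_sub_cancel, zero_smul, add_zero,
      N207.H.trp_self s (N207.H.segD_left hs), star_one, mul_one, one_mul, norm_le_zero_iff,
      sub_eq_zero] at this
    change S z * _ = _ * S c
    rw [← this, ← mul_assoc, ← mul_assoc, u1, one_mul]

/-- the flat form of a radial frame -/
structure RF (Γ : E → E →L[ℝ] V →L[ℝ] V) (p : E → V →L[ℝ] V) (c : E) (g : E → F →L[ℝ] V) (z : E) :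
    Prop where
  sΓ : ContDiffAt ℝ ∞ Γ z
  sg : ContDiffAt ℝ ∞ g z
  iso : ad (g z) ∘L g z = 1
  rg : g z ∘L ad (g z) = p z
  sk : ∀ v, ad (Γ z v) = -Γ z v
  skB : ∀ v, ad (rcn Γ g z v) = -rcn Γ g z v
  par : ∀ v, fderiv ℝ g z v = g z ∘L rcn Γ g z v - Γ z v ∘L g z
  rad : rcn Γ g z (z - c) = 0

theorem RF.sB {Γ : E → E →L[ℝ] V →L[ℝ] V} {p : E → V →L[ℝ] V} {g : E → F →L[ℝ] V} {z : E}
    (h : RF Γ p c g z) : ContDiffAt ℝ ∞ (rcn Γ g) z := by
  have h1 := cda_clm (G := V →L[ℝ] F) (H := (F →L[ℝ] V) →L[ℝ] F →L[ℝ] F)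
    (ContinuousLinearMap.compL ℝ F V F) (cda_clm (ad (V := F) (W := V)) h.sg)
  have h2 := cda_clm (G := F →L[ℝ] V) (H := (V →L[ℝ] V) →L[ℝ] F →L[ℝ] V)
    (ContinuousLinearMap.compL ℝ F V V).flip h.sg
  exact h1.clm_comp ((h.sg.fderiv_right (m := ∞) (by simp)).add (h2.clm_comp h.sΓ))

/-- **radial frames** -/
theorem exists_rf (Γ : E → E →L[ℝ] V →L[ℝ] V) (p : E → V →L[ℝ] V) (c : E) (g₀ : F →L[ℝ] V) :
    ∃ g : E → F →L[ℝ] V, ∀ O : Set E, IsOpen O → ad g₀ ∘L g₀ = 1 → g₀ ∘L ad g₀ = p c →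
      (∀ z ∈ O, ContDiffAt ℝ ∞ Γ z ∧ ∀ v, ad (Γ z v) = -Γ z v) →
      (∀ y ∈ O, DifferentiableAt ℝ p y ∧
        ∀ v, fderiv ℝ p y v + (Γ y v ∘L p y - p y ∘L Γ y v) = 0) → ∀ z ∈ vis O c, RF Γ p c g z ∧
      ∀ J : V →L[ℝ] V, J ∘L p c = p c ∘L J → (∀ y ∈ O, ∀ v, J ∘L Γ y v = Γ y v ∘L J) →
        J ∘L g z = g z ∘L ad g₀ ∘L J ∘L g₀ := by
  obtain ⟨h, hh⟩ := exists_rad Γ c
  refine ⟨fun z => h z ∘L g₀, fun O hO i1 i2 hΓ hp z hz => ?_⟩
  have pg : p c ∘L g₀ = g₀ := by rw [← i2, ContinuousLinearMap.comp_assoc, i1]; rfl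
  have H := hh O hO hΓ
  have iso : ∀ y ∈ vis O c, ad (h y ∘L g₀) ∘L (h y ∘L g₀) = 1 := fun y hy => by
    rw [ad_comp, ContinuousLinearMap.comp_assoc, ← ContinuousLinearMap.comp_assoc (ad (h y)),
      (H y hy).2.1, ← i1]; rfl
  have pr : ∀ y ∈ vis O c, p y ∘L (h y ∘L g₀) = h y ∘L g₀ := fun y hy => by
    rw [← ContinuousLinearMap.comp_assoc, (H y hy).2.2.2.2 p hp, ContinuousLinearMap.comp_assoc, pg]
  obtain ⟨h1, h2, h3, h4, h5⟩ := H z hz
  have sg : ContDiffAt ℝ ∞ (fun z => h z ∘L g₀) z := h1.clm_comp contDiffAt_const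
  have dg := (sg.differentiableAt (by simp)).hasFDerivAt
  have nb := (isOpen_vis hO c).eventually_mem hz
  have rg : (h z ∘L g₀) ∘L ad (h z ∘L g₀) = p z := by
    rw [ad_comp, ContinuousLinearMap.comp_assoc, ← ContinuousLinearMap.comp_assoc g₀, i2,
      ← ContinuousLinearMap.comp_assoc, ← h5 p hp, ContinuousLinearMap.comp_assoc, h3]; rfl
  refine ⟨⟨(hΓ z (vis_subset hz)).1, sg, iso z hz, rg, (hΓ z (vis_subset hz)).2, fun v => ?_,
    fun v => ?_, ?_⟩, fun J j1 j2 => ?_⟩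
  · have e1 := congrArg (fun T : E →L[ℝ] F →L[ℝ] F => T v)
      ((((ad (V := F) (W := V)).hasFDerivAt.comp z dg).clm_comp dg).unique
      ((hasFDerivAt_const (1 : F →L[ℝ] F) z).congr_of_eventuallyEq (nb.mono iso)))
    simp only [add_apply, ContinuousLinearMap.comp_apply, ContinuousLinearMap.flip_apply,
      ContinuousLinearMap.compL_apply, comp_apply, zero_apply] at e1
    rw [rcn_apply, ad_comp, ad_ad, map_add, ad_comp, (hΓ z (vis_subset hz)).2,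
      ContinuousLinearMap.add_comp, ContinuousLinearMap.comp_add, eq_neg_of_add_eq_zero_right e1]
    ext w
    simp [add_comm]
  · have e1 := congrArg (fun T : E →L[ℝ] F →L[ℝ] V => T v)
      (((hp z (vis_subset hz)).1.hasFDerivAt.clm_comp dg).unique
      (dg.congr_of_eventuallyEq (nb.mono pr)))
    simp only [add_apply, ContinuousLinearMap.comp_apply, ContinuousLinearMap.flip_apply,
      ContinuousLinearMap.compL_apply] at e1
    rw [rcn_apply, ← ContinuousLinearMap.comp_assoc, rg, ContinuousLinearMap.comp_add]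
    rw [eq_neg_of_add_eq_zero_left ((hp z (vis_subset hz)).2 v), ContinuousLinearMap.neg_comp,
      ContinuousLinearMap.sub_comp, ContinuousLinearMap.comp_assoc, pr z hz,
      ContinuousLinearMap.comp_assoc] at e1
    conv_lhs => rw [← e1]
    abel
  · have e1 : fderiv ℝ (fun z => h z ∘L g₀) z (z - c) = fderiv ℝ h z (z - c) ∘L g₀ := by
      rw [((h1.differentiableAt (by simp)).hasFDerivAt.clm_comp (hasFDerivAt_const g₀ z)).fderiv]
      simp
    rw [rcn_apply, e1, ← ContinuousLinearMap.comp_assoc (Γ z (z - c)),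
      ← ContinuousLinearMap.add_comp, h4]
    simp
  · rw [← ContinuousLinearMap.comp_assoc, h5 (fun _ => J) fun y hy =>
      ⟨differentiableAt_const _, fun v => by simp [j2 y hy v]⟩, ContinuousLinearMap.comp_assoc,
      ContinuousLinearMap.comp_assoc, ← ContinuousLinearMap.comp_assoc g₀, i2,
      ← ContinuousLinearMap.comp_assoc (p c), ← j1, ContinuousLinearMap.comp_assoc J, pg]

theorem RF.fra {Γ : E → E →L[ℝ] V →L[ℝ] V} {p : E → V →L[ℝ] V} {g : E → F →L[ℝ] V} {z : E}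
    (h : RF Γ p c g z) {t : ι → E → E} (ht : ∀ a, ContDiffAt ℝ ∞ (t a) z) :
    Fra 𝓘(ℝ, E) t (fun a y => Γ y (t a y)) p (fun a y => rcn Γ g y (t a y)) g z :=
  ⟨h.sg.contMDiffAt, fun a => (h.sB.clm_apply (ht a)).contMDiffAt, h.iso, h.rg, fun _ => h.sk _,
    fun _ => h.skB _, fun a => by simp only [cov]; rw [dv_flat, h.par]; abel⟩

end flat

section rad
variable {α ι E F : Type} [Fintype ι] [NormedAddCommGroup E] [NormedSpace ℝ E]
  [FiniteDimensional ℝ E] {𝓕 : Filter (α × E)} {T : α → ι → E → E} {θ : α → E → E →L[ℝ] ι → ℝ}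
  {c : E} [NormedAddCommGroup F] [InnerProductSpace ℝ F] [FiniteDimensional ℝ F]
  {V : α → Type} [∀ n, NormedAddCommGroup (V n)] [∀ n, InnerProductSpace ℝ (V n)]
  [∀ n, FiniteDimensional ℝ (V n)] {Γ : ∀ n, E → E →L[ℝ] V n →L[ℝ] V n}
  {p : ∀ n, E → V n →L[ℝ] V n} {g : ∀ n, E → F →L[ℝ] V n}

/-- **RAD** for varying fibres -/
theorem cb_rcn (hT : FF 𝓕 T θ) (hs : SB 𝓕 c) (hb : ∃ K, ∀ᶠ q in 𝓕, ‖q.2 - c‖ ≤ K)
    (hg : ∀ᶠ q in 𝓕, RF (Γ q.1) (p q.1) c (g q.1) q.2) {R : ι → ι → ∀ n, E → V n →L[ℝ] V n}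
    (hR : ∀ k a b, DB 𝓘(ℝ, E) 𝓕 T
      (fun n => hom (fun a y => Γ n y (T n a y)) fun a y => Γ n y (T n a y)) k (R a b))
    (hR' : ∀ᶠ q in 𝓕, ∀ a b, R a b q.1 q.2 ∘L g q.1 q.2 =
      crv (Γ q.1) q.2 (T q.1 a q.2) (T q.1 b q.2) ∘L g q.1 q.2) (k : ℕ) :
    CB 𝓕 k fun n => rcn (Γ n) (g n) := by
  have ho := hT.ob
  have hg' := ho.ev (p := fun n z => RF (Γ n) (p n) c (g n) z) hg
  have fr : ∀ᶠ q in 𝓕, Fra 𝓘(ℝ, E) (T q.1) (fun a y => Γ q.1 y (T q.1 a y)) (p q.1)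
      (fun a y => rcn (Γ q.1) (g q.1) y (T q.1 a y)) (g q.1) q.2 :=
    (hg.and (eventually_all.2 fun a => (hT.cT 0 a).smooth)).mono fun _ hq => hq.1.fra hq.2
  have hx : ∀ k, CB 𝓕 k fun (_ : α) x => x - c := by
    have h0 : CB 𝓕 0 fun (_ : α) x => x - c :=
      CB.zero_iff.2 ⟨.of_forall fun _ => contDiffAt_id.sub contDiffAt_const, hb⟩
    rintro (_ | k)
    · exact h0
    · exact h0.succ_of_eq (CB.const (ContinuousLinearMap.id ℝ E))
        (.of_forall fun _ => .of_forall fun y => by simp [fderiv_sub_const])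
  induction k using Nat.strong_induction_on with
  | _ k ih =>
  have h1 : ∀ a b, CB 𝓕 k fun n z => ad (g n z) ∘L R a b n z ∘L g n z := fun a b =>
    hT.cb (DB.endo ho fr (fun j hj a => hT.db ((ih j hj).app (hT.cT j a))) (hR k a b))
  refine CB.of_apply fun v => cb_radial hs (hg.mono fun _ a => a.sB.clm_apply contDiffAt_const) ?_
  refine (CB.sum fun a => CB.sum fun b => ((((hT.cθ k).app (hx k)).apply a).mul
    (((hT.cθ k).app (CB.const v)).apply b)).smul (h1 a b)).congr (ho.ev (p := fun n z =>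
      rcn (Γ n) (g n) z v + fderiv ℝ (fun y => rcn (Γ n) (g n) y v) z (z - c) =
        ∑ a, ∑ b, (θ n z (z - c) a * θ n z v b) • ad (g n z) ∘L R a b n z ∘L g n z) ?_)
  filter_upwards [hg', hR', hT.sp] with q a1 a2 a3
  have a0 := a1.self_of_nhds
  have dB := a0.sB.differentiableAt (by simp)
  rw [radial_eq dB (a1.mono fun _ h => h.rad)]
  conv_lhs => rw [← a3 (q.2 - c), ← a3 v]
  rw [crv_sum]
  refine Finset.sum_congr rfl fun a _ => Finset.sum_congr rfl fun b _ => ?_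
  rw [a2, crv_par (a0.sΓ.differentiableAt (by simp)) dB a0.sg (a1.mono fun _ h => h.par),
    ← ContinuousLinearMap.comp_assoc, a0.iso]
  rfl

end rad

end Crest.Agent.X212.Pat85
end
end

-- ▼ part X212/Pat85/AA
section

/-!
# X212, PATCH (helper85), part 2: limits of bounded families in a vector space
-/

set_option autoImplicit false

open Set Filter Topology Metric
open scoped ContDiff

noncomputable section

namespace Crest.Agent.X212.Pat85

variable {ι : Type} {E F G : Type} [NormedAddCommGroup E] [NormedSpace ℝ E]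
  [NormedAddCommGroup F] [NormedSpace ℝ F] [NormedAddCommGroup G] [NormedSpace ℝ G]
  {l : Filter ι} {x : E} {f : ι → E → F} {k : ℕ}

namespace CB

/-- explicit form on a ball -/
theorem ball (h : CB (l ×ˢ 𝓝 x) k f) : ∃ r > 0, ∃ C, ∀ᶠ i in l, ∀ y ∈ ball x r,
    ContDiffAt ℝ ∞ (f i) y ∧ ∀ j ≤ k, ‖iteratedFDeriv ℝ j (f i) y‖ ≤ C := by
  obtain ⟨C, hC⟩ := h
  obtain ⟨pa, hpa, pb, hpb, H⟩ := eventually_prod_iff.1 hC
  obtain ⟨r, hr, hb⟩ := Metric.eventually_nhds_iff_ball.1 hpb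
  exact ⟨r, hr, C, hpa.mono fun i hi y hy => H hi (hb y hy)⟩

/-- equi-Lipschitz near the point -/
theorem lip (h : CB (l ×ˢ 𝓝 x) 1 f) : ∃ r > 0, ∃ C, ∀ᶠ i in l, ∀ y ∈ Metric.ball x r,
    ∀ z ∈ Metric.ball x r, ‖f i y - f i z‖ ≤ C * ‖y - z‖ := by
  obtain ⟨r, hr, C, hC⟩ := h.ball
  refine ⟨r, hr, C, hC.mono fun i hi y hy z hz => ?_⟩
  refine (convex_ball x r).norm_image_sub_le_of_norm_fderiv_le
    (fun w hw => (hi w hw).1.differentiableAt (by simp)) (fun w hw => ?_) hz hy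
  simpa using (hi w hw).2 1 le_rfl

/-- convergence at the point gives joint convergence -/
theorem tendsto_of (h : CB (l ×ˢ 𝓝 x) 1 f) {c : F} (hc : Tendsto (fun i => f i x) l (𝓝 c)) :
    Tendsto (fun q : ι × E => f q.1 q.2) (l ×ˢ 𝓝 x) (𝓝 c) := by
  obtain ⟨r, hr, C, hC⟩ := h.lip
  have h1 : Tendsto (fun q : ι × E => f q.1 q.2 - f q.1 x) (l ×ˢ 𝓝 x) (𝓝 0) := by
    have h2 : Tendsto (fun q : ι × E => C * ‖q.2 - x‖) (l ×ˢ 𝓝 x) (𝓝 (C * ‖x - x‖)) :=
      ((tendsto_snd.sub_const x).norm).const_mul C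
    rw [sub_self, norm_zero, mul_zero] at h2
    refine squeeze_zero_norm' ?_ h2
    filter_upwards [hC.prod_inl (𝓝 x), (isOpen_ball.eventually_mem (mem_ball_self hr)).prod_inr l]
      with q h3 h4 using h3 _ h4 _ (mem_ball_self hr)
  simpa using h1.add (hc.comp tendsto_fst)

/-- post-composition with a map which is smooth near the limit value -/
theorem post_at {𝓕 : Filter (ι × E)} (h : CB 𝓕 k f) {c : F}
    (hc : Tendsto (fun q : ι × E => f q.1 q.2) 𝓕 (𝓝 c)) {Φ : F → G}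
    (hΦ : ∀ᶠ y in 𝓝 c, ContDiffAt ℝ ∞ Φ y) : CB 𝓕 k fun i y => Φ (f i y) :=
  (cb_fixed hΦ (⊤ : Filter Unit) k).comp h (fun _ => ()) (tendsto_top.prodMk hc)

/-- the property spreads to nearby points -/
theorem ev (h : CB (l ×ˢ 𝓝 x) k f) : ∀ᶠ y in 𝓝 x, CB (l ×ˢ 𝓝 y) k f := by
  obtain ⟨r, hr, C, hC⟩ := h.ball
  filter_upwards [isOpen_ball.eventually_mem (mem_ball_self hr)] with y hy
  refine ⟨C, ?_⟩
  filter_upwards [hC.prod_inl (𝓝 y), (isOpen_ball.eventually_mem hy).prod_inr l] with q h1 h2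
    using h1 _ h2

end CB

namespace CBOn

variable {U : Set E} {g : E → F}

theorem ultra [FiniteDimensional ℝ E] [FiniteDimensional ℝ F] (𝒰 : Ultrafilter ι)
    (hU : IsOpen U) (h : CBOn (𝒰 : Filter ι) U f) (hx : x ∈ U) : ∃ r > 0, ball x r ⊆ U ∧
      ∃ v, ContDiffOn ℝ ∞ v (ball x r) ∧ N250.Gr.JLim (𝒰 : Filter ι) f v (ball x r) := by
  have := FiniteDimensional.proper_real E
  obtain ⟨r, hr, hrU⟩ := nhds_basis_closedBall.mem_iff.1 (hU.mem_nhds hx)
  have hb := h.bound (isCompact_closedBall x r) hrU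
  refine ⟨r, hr, ball_subset_closedBall.trans hrU, N250.Gr.sm_lim 𝒰 f isOpen_ball
    (convex_ball x r) isBounded_ball ?_ fun k => ?_⟩
  · obtain ⟨C, hC⟩ := hb 0
    exact hC.mono fun i hi y hy => (hi y (ball_subset_closedBall hy)).1.contDiffWithinAt
  · obtain ⟨C, hC⟩ := hb k
    exact ⟨C, hC.mono fun i hi y hy => (hi y (ball_subset_closedBall hy)).2 k le_rfl⟩

/-- a pointwise limit of a bounded family is smooth -/
theorem lim_smooth [FiniteDimensional ℝ E] [FiniteDimensional ℝ F] [l.NeBot] (hU : IsOpen U)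
    (h : CBOn l U f) (hg : ∀ y ∈ U, Tendsto (fun i => f i y) l (𝓝 (g y))) (hx : x ∈ U) :
    ContDiffAt ℝ ∞ g x := by
  obtain ⟨r, hr, hrU, v, hv, hl⟩ :=
    ultra (Ultrafilter.of l) hU (h.mono (Ultrafilter.of_le l) subset_rfl) hx
  refine (hv.contDiffAt (ball_mem_nhds x hr)).congr_of_eventuallyEq ?_
  filter_upwards [ball_mem_nhds x hr] with y hy
  exact tendsto_nhds_unique ((hg y (hrU hy)).mono_left (Ultrafilter.of_le l))
    (hl.val.tendsto_at hy)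

/-- the derivatives converge -/
theorem lim_fd [FiniteDimensional ℝ E] [FiniteDimensional ℝ F] (hU : IsOpen U)
    (h : CBOn l U f) (hg : ∀ y ∈ U, Tendsto (fun i => f i y) l (𝓝 (g y))) (hx : x ∈ U) :
    Tendsto (fun i => fderiv ℝ (f i) x) l (𝓝 (fderiv ℝ g x)) := by
  refine (tendsto_iff_ultrafilter _ _ _).2 fun 𝒰 h𝒰 => ?_
  obtain ⟨r, hr, hrU, v, -, hl⟩ := ultra 𝒰 hU (h.mono h𝒰 subset_rfl) hx
  have e : g =ᶠ[𝓝 x] v := by
    filter_upwards [ball_mem_nhds x hr] with y hy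
    exact tendsto_nhds_unique ((hg y (hrU hy)).mono_left h𝒰) (hl.val.tendsto_at hy)
  rw [e.fderiv_eq]
  exact hl.d1.tendsto_at (mem_ball_self hr)

end CBOn

/-- bounded families of points converge along an ultrafilter -/
theorem ultra_lim [FiniteDimensional ℝ F] (𝒰 : Ultrafilter ι) {c : ι → F} {C : ℝ}
    (hc : ∀ᶠ i in (𝒰 : Filter ι), ‖c i‖ ≤ C) : Tendsto c 𝒰 (𝓝 (limUnder (𝒰 : Filter ι) c)) := by
  have := FiniteDimensional.proper_real F
  obtain ⟨a, -, ha⟩ := (isCompact_closedBall (0 : F) C).ultrafilter_le_nhds (𝒰.map c) (by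
    rw [Ultrafilter.coe_map, le_principal_iff, mem_map]
    filter_upwards [hc] with j hj
    simpa using hj)
  exact tendsto_nhds_limUnder ⟨a, ha⟩

end Crest.Agent.X212.Pat85
end
end

-- ▼ part X212/Eps63/Ext
section

/-!
# Row 212, AN (helper63): functions with bounded jets off a thin set extend smoothly
-/

set_option autoImplicit false
set_option linter.unusedSectionVars false

open Set Filter Topology Metric
open scoped ContDiff

noncomputable section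

namespace Crest.Agent.X212.Eps63

variable {E V : Type} [NormedAddCommGroup E] [NormedSpace ℝ E] [NormedAddCommGroup V]
  [NormedSpace ℝ V]

/-- every line can be pushed off `S` -/
def Thin (S : Set E) : Prop :=
  ∀ x y : E, ∃ w : E, ∀ a b ε : ℝ, a + b = 1 → ε ≠ 0 → a • x + b • y + ε • w ∉ S

theorem Thin.mono {S T : Set E} (h : Thin T) (hS : S ⊆ T) : Thin S := fun x y =>
  (h x y).imp fun _ hw a b ε hab hε hm => hw a b ε hab hε (hS hm)

theorem thin_line [FiniteDimensional ℝ E] (h : 3 < Module.finrank ℝ E) (o q : E) :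
    Thin {z | ∃ c : ℝ, z = o + c • q} := by
  classical
  intro x y
  have h1 : Submodule.span ℝ (({q, x - o, y - o} : Finset E) : Set E) ≠ ⊤ := by
    intro e
    have h2 := finrank_span_finset_le_card (R := ℝ) ({q, x - o, y - o} : Finset E)
    have h3 : ({q, x - o, y - o} : Finset E).card ≤ 3 := Finset.card_le_three
    rw [Set.finrank, e, finrank_top] at h2
    omega
  obtain ⟨w, hw⟩ : ∃ w, w ∉ Submodule.span ℝ (({q, x - o, y - o} : Finset E) : Set E) := by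
    by_contra! hc
    exact h1 (Submodule.eq_top_iff'.2 hc)
  refine ⟨w, fun a b ε hab hε ⟨c, hc⟩ => hw ?_⟩
  have e : w = ε⁻¹ • (c • q - a • (x - o) - b • (y - o)) := by
    have : c • q - a • (x - o) - b • (y - o) = ε • w := by
      rw [← sub_eq_iff_eq_add'] at hc
      rw [← hc, show b = 1 - a by linarith]
      module
    rw [this, smul_smul, inv_mul_cancel₀ hε, one_smul]
  rw [e]
  refine Submodule.smul_mem _ _ (sub_mem (sub_mem ?_ ?_) ?_) <;>
    exact Submodule.smul_mem _ _ (Submodule.subset_span (by simp))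

variable {S : Set E}

theorem tendsto_push (x w : E) : Tendsto (fun ε : ℝ => x + ε • w) (𝓝[>] 0) (𝓝 x) := by
  have : ContinuousAt (fun ε : ℝ => x + ε • w) 0 := by fun_prop
  simpa using this.tendsto.mono_left nhdsWithin_le_nhds

theorem Thin.mem_closure (hS : Thin S) {B : Set E} (ho : IsOpen B) {x : E} (hx : x ∈ B) :
    x ∈ closure (B \ S) := by
  obtain ⟨w, hw⟩ := hS x x
  refine mem_closure_of_tendsto (tendsto_push x w) ?_
  filter_upwards [(tendsto_push x w).eventually (ho.mem_nhds hx), self_mem_nhdsWithin] with ε h1 h2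
  exact ⟨h1, by simpa using hw 1 0 ε (by simp) (ne_of_gt h2)⟩

theorem Thin.lip (hS : Thin S) {B : Set E} (ho : IsOpen B) (hc : Convex ℝ B) {f : E → V} {K : ℝ}
    (hf : ∀ z ∈ B \ S, DifferentiableAt ℝ f z ∧ ‖fderiv ℝ f z‖ ≤ K) {x y : E} (hx : x ∈ B)
    (hy : y ∈ B) (cx : ContinuousAt f x) (cy : ContinuousAt f y) : ‖f y - f x‖ ≤ K * ‖y - x‖ := by
  obtain ⟨w, hw⟩ := hS x y
  refine le_of_tendsto (((cy.tendsto.comp (tendsto_push y w)).sub
    (cx.tendsto.comp (tendsto_push x w))).norm) ?_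
  filter_upwards [(tendsto_push x w).eventually (ho.mem_nhds hx),
    (tendsto_push y w).eventually (ho.mem_nhds hy), self_mem_nhdsWithin] with ε h1 h2 h3
  have sub : segment ℝ (x + ε • w) (y + ε • w) ⊆ B \ S := fun z hz =>
    ⟨hc.segment_subset h1 h2 hz, by
      obtain ⟨a, b, -, -, hab, rfl⟩ := hz
      have e : a • (x + ε • w) + b • (y + ε • w) = a • x + b • y + ε • w := by
        rw [smul_add, smul_add, add_add_add_comm, ← add_smul, hab, one_smul]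
      rw [e]
      exact hw a b ε hab (ne_of_gt h3)⟩
  have := (convex_segment (x + ε • w) (y + ε • w)).norm_image_sub_le_of_norm_fderiv_le
    (fun z hz => (hf z (sub hz)).1) (fun z hz => (hf z (sub hz)).2) (left_mem_segment ℝ _ _)
    (right_mem_segment ℝ _ _)
  simpa using this

variable [FiniteDimensional ℝ E] {B Ω : Set E}

theorem Thin.ext0 [FiniteDimensional ℝ V] (hS : Thin S) (ho : IsOpen B) (hc : Convex ℝ B)
    (hΩ : IsOpen Ω) (h1 : B \ S ⊆ Ω) (h2 : Ω ⊆ B) {f : E → V}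
    (s : Sm (fun _ : Unit => Ω) fun _ => f) (h : BC (fun _ : Unit => Ω) 1 fun _ => f) :
    ∃ g : E → V, Continuous g ∧ EqOn g f Ω := by
  obtain ⟨K, hK⟩ := (h.fderiv (fun _ => hΩ) s).b0
  have : LipschitzOnWith (Real.toNNReal K) f Ω := by
    refine LipschitzOnWith.of_dist_le' fun x hx y hy => ?_
    rw [dist_eq_norm, dist_eq_norm]
    exact hS.lip ho hc (fun z hz => ⟨s.da (i := ()) (h1 hz), hK () z (h1 hz)⟩) (h2 hy) (h2 hx)
      (s () y hy).continuousAt (s () x hx).continuousAt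
  obtain ⟨g, hg, e⟩ := this.extend_finite_dimension
  exact ⟨g, hg.continuous, e.symm⟩

theorem Thin.extn (hS : Thin S) (ho : IsOpen B) (hc : Convex ℝ B) (hΩ : IsOpen Ω)
    (h1 : B \ S ⊆ Ω) (h2 : Ω ⊆ B) : ∀ (n : ℕ) {V : Type} [NormedAddCommGroup V] [NormedSpace ℝ V]
    [FiniteDimensional ℝ V] {f g : E → V}, Sm (fun _ : Unit => Ω) (fun _ => f) →
    (∀ k, BC (fun _ : Unit => Ω) k fun _ => f) → Continuous g → EqOn g f Ω → ContDiffOn ℝ n g B
  | 0, _, _, _, _, _, _, _, _, hg, _ => by simpa using hg.continuousOn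
  | n + 1, V, _, _, _, f, g, s, h, hg, e => by
    have h' : ∀ k, BC (fun _ : Unit => Ω) k fun _ => fderiv ℝ f :=
      fun k => (h (k + 1)).fderiv (fun _ => hΩ) s
    obtain ⟨G, hG, eG⟩ := hS.ext0 ho hc hΩ h1 h2 s.fderiv (h' 1)
    have key : ∀ x ∈ B, HasFDerivAt g (G x) x := by
      intro x hx
      rw [hasFDerivAt_iff_isLittleO, Asymptotics.isLittleO_iff]
      intro c hc0
      have a1 : ∀ᶠ y in 𝓝 x, ‖G y - G x‖ ≤ c := by
        have : Tendsto (fun y => ‖G y - G x‖) (𝓝 x) (𝓝 0) := by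
          simpa using ((hG.tendsto x).sub_const (G x)).norm
        exact this.eventually (ge_mem_nhds hc0)
      obtain ⟨r, hr, hb⟩ := Metric.eventually_nhds_iff_ball.1 (a1.and (ho.mem_nhds hx))
      filter_upwards [ball_mem_nhds x hr] with y hy
      have c1 : Continuous fun y => g y - G x y := hg.sub (G x).continuous
      have := hS.lip isOpen_ball (convex_ball x r) (f := fun y => g y - G x y) (K := c)
        (fun z hz => ?_) (mem_ball_self hr) hy c1.continuousAt c1.continuousAt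
      · rwa [show g y - G x y - (g x - G x x) = g y - g x - G x (y - x) by rw [map_sub]; abel]
          at this
      · have hz' : z ∈ Ω := h1 ⟨(hb z hz.1).2, hz.2⟩
        have d : HasFDerivAt g (fderiv ℝ f z) z := (s.da (i := ()) hz').hasFDerivAt.congr_of_eventuallyEq
          (eventually_of_mem (hΩ.mem_nhds hz') e)
        have d' := d.sub (G x).hasFDerivAt
        refine ⟨d'.differentiableAt, ?_⟩
        rw [show fderiv ℝ (fun y => g y - G x y) z = _ from d'.fderiv, ← eG hz']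
        exact (hb z hz.1).1
    rw [Nat.cast_succ, contDiffOn_succ_iff_fderiv_of_isOpen ho]
    exact ⟨fun x hx => (key x hx).differentiableAt.differentiableWithinAt, by simp,
      (Thin.extn hS ho hc hΩ h1 h2 n s.fderiv h' hG eG).congr fun x hx => (key x hx).fderiv⟩

/-- **EXT**, convex case -/
theorem Thin.ext [FiniteDimensional ℝ V] (hS : Thin S) (ho : IsOpen B) (hc : Convex ℝ B)
    (hΩ : IsOpen Ω) (h1 : B \ S ⊆ Ω) (h2 : Ω ⊆ B) {f : E → V}
    (s : Sm (fun _ : Unit => Ω) fun _ => f) (h : ∀ k, BC (fun _ : Unit => Ω) k fun _ => f) :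
    ∃ g : E → V, (∀ x ∈ B, ContDiffAt ℝ ∞ g x) ∧ EqOn g f Ω := by
  obtain ⟨g, hg, e⟩ := hS.ext0 ho hc hΩ h1 h2 s (h 1)
  exact ⟨g, fun x hx => (contDiffOn_infty.2 fun n => hS.extn ho hc hΩ h1 h2 n s h hg e).contDiffAt
    (ho.mem_nhds hx), e⟩

/-- **EXT**, local form -/
theorem Thin.ext_loc [FiniteDimensional ℝ V] (hS : Thin S) {U : Set E} (hΩ : IsOpen Ω)
    (h1 : U \ S ⊆ Ω) {f : E → V} (s : Sm (fun _ : Unit => Ω) fun _ => f)
    (h : ∀ z ∈ U, ∃ r > 0, ball z r ⊆ U ∧ ∀ k, BC (fun _ : Unit => ball z r ∩ Ω) k fun _ => f) :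
    ∃ g : E → V, (∀ x ∈ U, ContDiffAt ℝ ∞ g x) ∧ EqOn g f Ω := by
  refine ⟨extendFrom Ω f, fun z hz => ?_, fun x hx =>
    extendFrom_eq (subset_closure hx) ((s () x hx).continuousAt.tendsto.mono_left
      nhdsWithin_le_nhds)⟩
  obtain ⟨r, hr, hb, hk⟩ := h z hz
  have sub : ball z r \ S ⊆ ball z r ∩ Ω := fun y hy => ⟨hy.1, h1 ⟨hb hy.1, hy.2⟩⟩
  obtain ⟨g, hg, e⟩ := hS.ext isOpen_ball (convex_ball z r) (isOpen_ball.inter hΩ) sub
    inter_subset_left (fun _ x hx => s () x hx.2) hk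
  refine (hg z (mem_ball_self hr)).congr_of_eventuallyEq ?_
  filter_upwards [ball_mem_nhds z hr] with y hy
  refine extendFrom_eq (closure_mono (fun x hx => (sub hx).2) (hS.mem_closure isOpen_ball hy)) ?_
  refine ((hg y hy).continuousAt.tendsto.mono_left nhdsWithin_le_nhds).congr' ?_
  filter_upwards [self_mem_nhdsWithin, nhdsWithin_le_nhds (isOpen_ball.mem_nhds hy)] with x a b
  exact e ⟨b, a⟩

theorem mem_of_dense {X : Type} [TopologicalSpace X] {f : E → X} {x : E} (hd : x ∈ closure Ω)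
    (cf : ContinuousAt f x) {K : Set X} (hK : IsClosed K) (h : ∀ y ∈ Ω, f y ∈ K) : f x ∈ K :=
  hK.closure_subset (cf.continuousWithinAt.mem_closure hd h)

theorem BC.dense {ι : Type} {Ω B : ι → Set E} (hd : ∀ i, B i ⊆ closure (Ω i)) :
    ∀ {k : ℕ} {f : ι → E → V}, Sm B f → BC Ω k f → BC B k f := by
  have h0 : ∀ {f : ι → E → V}, Sm B f → B0 Ω f → B0 B f := fun s h => h.imp fun C hC i x hx =>
    mem_of_dense (hd i hx) (s i x hx).continuousAt.norm (isClosed_Iic (a := C)) (hC i)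
  intro k
  induction k with
  | zero => exact h0
  | succ k ih => exact fun s h => ⟨h0 s h.1, fun v => ih (s.pd v) (h.2 v)⟩

/-- smooth functions have bounded jets on subsets of compact sets -/
theorem bc_of_compact {K : Set E} (hK : IsCompact K) (hΩ : IsOpen Ω) (h : Ω ⊆ K) {f : E → V}
    (s : ∀ x ∈ K, ContDiffAt ℝ ∞ f x) (k : ℕ) : BC (fun _ : Unit => Ω) k fun _ => f := by
  refine bc_of_itd (fun _ => hΩ) k (fun _ x hx => s x (h hx)) fun j _ => ?_
  have : ContinuousOn (iteratedFDeriv ℝ j f) K := fun x hx =>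
    ((s x hx).continuousAt_iteratedFDeriv (by exact_mod_cast le_top)).continuousWithinAt
  obtain ⟨C, hC⟩ := hK.exists_bound_of_continuousOn this
  exact ⟨C, fun _ x hx => hC x (h hx)⟩

end Crest.Agent.X212.Eps63

end
end

-- ▼ part X212/Pat85/Cht

/-!
# X212, PATCH (helper85): converging frames in charts, limits which extend over thin sets
-/

set_option autoImplicit false
set_option linter.unusedSectionVars false
open Set Filter Topology Function Metric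
open scoped ContDiff Manifold InnerProductSpace

noncomputable section
namespace Crest.Agent.X212.Pat85

open Cmp73 Sob92
open Wz78 (nab curv SA)
open Eps63 (Thin)

section flat
variable {ι E G α : Type} [Fintype ι] [NormedAddCommGroup E] [InnerProductSpace ℝ E]
  [FiniteDimensional ℝ E] [NormedAddCommGroup G] [NormedSpace ℝ G]

/-- the Gram operator -/
def gram (t : ι → E) : E →L[ℝ] E := ∑ a, (innerSL ℝ (t a)).smulRight (t a)

/-- the canonical right inverse of a spanning family -/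
def rinv (t : ι → E) : E →L[ℝ] ι → ℝ :=
  ContinuousLinearMap.pi fun a => innerSL ℝ (t a) ∘L (gram t).inverse

theorem rinv_sum {t : ι → E} (h : (gram t).IsInvertible) (v : E) : ∑ a, rinv t v a • t a = v := by
  conv_rhs => rw [← h.self_apply_inverse v]
  simp [rinv, gram, _root_.sum_apply]

theorem gram_inv {t : ι → E} (h : ∀ v, ∃ s : ι → ℝ, ∑ a, s a • t a = v) :
    (gram t).IsInvertible := by
  have hi : Injective (gram t : E →ₗ[ℝ] E) := by
    refine (injective_iff_map_eq_zero _).2 fun v hv => ?_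
    have h1 : ∑ a, ⟪t a, v⟫_ℝ * ⟪t a, v⟫_ℝ = 0 := by
      have := congrArg (fun w => ⟪w, v⟫_ℝ) hv
      simpa [gram, _root_.sum_apply, sum_inner, inner_smul_left] using this
    have h2 := (Finset.sum_eq_zero_iff_of_nonneg fun a _ => mul_self_nonneg _).1 h1
    obtain ⟨s, hs⟩ := h v
    refine inner_self_eq_zero (𝕜 := ℝ).1 ?_
    conv_lhs => arg 2; rw [← hs]
    rw [sum_inner]
    exact Finset.sum_eq_zero fun a _ => by
      rw [inner_smul_left, mul_self_eq_zero.1 (h2 a (Finset.mem_univ a)), mul_zero]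
  exact ⟨(LinearEquiv.ofInjectiveEndo _ hi).toContinuousLinearEquiv, by ext; rfl⟩

/-- converging spanning frames -/
theorem ff_of {l : Filter α} {z : E} {T : α → ι → E → E} {t : ι → E}
    (hT : ∀ k a, CB (l ×ˢ 𝓝 z) k fun n => T n a) (ht : ∀ a, Tendsto (fun n => T n a z) l (𝓝 (t a)))
    (h : ∀ v, ∃ s : ι → ℝ, ∑ a, s a • t a = v) :
    FF (l ×ˢ 𝓝 z) T (fun n y => rinv fun a => T n a y) ∧
      ∀ᶠ q in l ×ˢ 𝓝 z, (gram fun a => T q.1 a q.2).IsInvertible := by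
  have := FiniteDimensional.complete ℝ E
  have hG : ∀ k, CB (l ×ˢ 𝓝 z) k fun n y => gram fun a => T n a y := fun k => CB.sum fun a =>
    ((hT k a).clm (innerSL ℝ : E →L[ℝ] E →L[ℝ] ℝ)).bil (ContinuousLinearMap.smulRightL ℝ E E) (hT k a)
  have h1 : Tendsto (fun q : α × E => gram fun a => T q.1 a q.2) (l ×ˢ 𝓝 z) (𝓝 (gram t)) :=
    (hG 1).tendsto_of (tendsto_finsetSum _ fun a _ =>
      ((ContinuousLinearMap.smulRightL ℝ E E).continuous₂.tendsto (_, _)).comp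
        ((((innerSL ℝ : E →L[ℝ] E →L[ℝ] ℝ).continuous.tendsto _).comp (ht a)).prodMk_nhds (ht a)))
  have hop : ∀ᶠ L in 𝓝 (gram t), L.IsInvertible :=
    ContinuousLinearEquiv.isOpen.mem_nhds (gram_inv h)
  have h2 : ∀ᶠ q in l ×ˢ 𝓝 z, (gram fun a => T q.1 a q.2).IsInvertible := h1.eventually hop
  have h3 : ∀ k v a, CB (l ×ˢ 𝓝 z) k fun n y => rinv (fun a => T n a y) v a := fun k v a =>
    ((hT k a).clm (innerSL ℝ : E →L[ℝ] E →L[ℝ] ℝ)).app (((hG k).post_at h1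
      (hop.mono fun L hL => hL.contDiffAt_map_inverse)).app (CB.const v))
  exact ⟨⟨ob_prod l z, hT, fun k => CB.of_apply fun v => CB.pi (h3 k v),
    h2.mono fun q hq v => rinv_sum (t := fun a => T q.1 a q.2) hq v⟩, h2⟩

theorem lim_itd {l : Filter α} [l.NeBot] {U : Set E} (hU : IsOpen U) {x : E} (hx : x ∈ U) {C : ℝ} :
    ∀ (j : ℕ) {G : Type} [NormedAddCommGroup G] [NormedSpace ℝ G] [FiniteDimensional ℝ G]
    {f : α → E → G} {g : E → G}, CBOn l U f → (∀ y ∈ U, Tendsto (fun i => f i y) l (𝓝 (g y))) →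
    (∀ᶠ n in l, ‖iteratedFDeriv ℝ j (f n) x‖ ≤ C) → ‖iteratedFDeriv ℝ j g x‖ ≤ C
  | 0, _, _, _, _, _, _, _, hg, h => by
      simp only [norm_iteratedFDeriv_zero] at h ⊢
      exact le_of_tendsto (hg x hx).norm h
  | j + 1, _, _, _, _, _, _, hf, hg, h => by
      simp only [← norm_iteratedFDeriv_fderiv] at h ⊢
      exact lim_itd hU hx j hf.fd (fun y hy => hf.lim_fd hU hg hy) h

/-- limits with iterated bounds extend over thin sets -/
theorem ext_flat [FiniteDimensional ℝ G] {l : Filter α} [l.NeBot] {U Ω Z : Set E} (hZ : Thin Z)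
    (hU : IsOpen U) (hΩ : IsOpen Ω) (h1 : U \ Z ⊆ Ω) (h2 : Ω ⊆ U) {f : α → E → G} {g : E → G}
    (hf : ∀ k, ∀ z ∈ U, CB (iF l Ω z) k f) (hg : ∀ y ∈ Ω, Tendsto (fun i => f i y) l (𝓝 (g y))) :
    ∃ g' : E → G, (∀ x ∈ U, ContDiffAt ℝ ∞ g' x) ∧ EqOn g' g Ω := by
  have := FiniteDimensional.proper_real E
  have hb : CBOn l Ω f := fun k x hx => iF_eq (l := l) hx ▸ hf k x (h2 hx)
  have sm : ∀ x ∈ Ω, ContDiffAt ℝ ∞ g x := fun x hx => hb.lim_smooth hΩ hg hx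
  refine hZ.ext_loc hΩ h1 (fun _ => sm) fun z hz => ?_
  obtain ⟨r, hr, hrU⟩ := nhds_basis_closedBall.mem_iff.1 (hU.mem_nhds hz)
  refine ⟨r, hr, ball_subset_closedBall.trans hrU, fun k => Eps63.bc_of_itd
    (fun _ => isOpen_ball.inter hΩ) k (fun _ x hx => sm x hx.2) fun j _ => ?_⟩
  suffices ∃ C, ∀ x ∈ closedBall z r, x ∈ Ω → ‖iteratedFDeriv ℝ j g x‖ ≤ C from
    this.imp fun C hC _ x hx => hC x (ball_subset_closedBall hx.1) hx.2
  refine (isCompact_closedBall z r).induction_on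
    (p := fun S => ∃ C, ∀ x ∈ S, x ∈ Ω → ‖iteratedFDeriv ℝ j g x‖ ≤ C) ⟨0, by simp⟩
    (fun s t hst ht => ht.imp fun C hC x hx => hC x (hst hx))
    (fun s t ⟨C, hC⟩ ⟨D, hD⟩ => ⟨max C D, fun x hx hx' => hx.elim
      (fun a => (hC x a hx').trans (le_max_left _ _)) fun a => (hD x a hx').trans (le_max_right _ _)⟩)
    fun w hw => ?_
  obtain ⟨C, hC⟩ := hf j w (hrU hw)
  refine ⟨_, mem_nhdsWithin_of_mem_nhds (eventually_nhdsWithin_iff.1 (ev_iF.1 hC)), C,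
    fun x hx hx' => lim_itd hΩ hx' j hb hg ?_⟩
  exact (ev_at (p := fun n y => ContDiffAt ℝ ∞ (f n) y ∧
    ∀ i ≤ j, ‖iteratedFDeriv ℝ i (f n) y‖ ≤ C) (hx hx')).mono fun n hn => hn.2 j le_rfl

/-- countably many lines through a point form a thin set -/
theorem thin_lines (hd : 3 < Module.finrank ℝ E) (c : E) {S : Set E} (hS : S.Countable) :
    Thin {z | ∃ s ∈ S, ∃ t : ℝ, z = c + t • (s - c)} := by
  classical
  have := FiniteDimensional.complete ℝ E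
  intro x y
  let W : E → Submodule ℝ E := fun s => Submodule.span ℝ (({s - c, x - c, y - c} : Finset E) : Set E)
  have hW : ∀ s, W s ≠ ⊤ := fun s e => by
    have h2 := finrank_span_finset_le_card (R := ℝ) ({s - c, x - c, y - c} : Finset E)
    have h3 : ({s - c, x - c, y - c} : Finset E).card ≤ 3 := Finset.card_le_three
    rw [Set.finrank, show Submodule.span ℝ _ = ⊤ from e, finrank_top] at h2
    omega
  have hD : Dense (⋂ s ∈ S, (W s : Set E)ᶜ) :=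
    dense_biInter_of_isOpen (fun s _ => (W s).closed_of_finiteDimensional.isOpen_compl) hS
      fun s _ => interior_eq_empty_iff_dense_compl.1
        (not_nonempty_iff_eq_empty.1 fun h => hW s ((W s).eq_top_of_nonempty_interior' h))
  obtain ⟨w, hw⟩ := hD.nonempty
  refine ⟨w, fun a b ε hab hε ⟨s, hs, t, ht⟩ => mem_iInter₂.1 hw s hs ?_⟩
  have e : w = ε⁻¹ • (t • (s - c) - a • (x - c) - b • (y - c)) := by
    have : t • (s - c) - a • (x - c) - b • (y - c) = ε • w := by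
      rw [← sub_eq_iff_eq_add'] at ht
      rw [← ht, show b = 1 - a by linarith]
      module
    rw [this, smul_smul, inv_mul_cancel₀ hε, one_smul]
  rw [e]
  refine Submodule.smul_mem _ _ (sub_mem (sub_mem ?_ ?_) ?_) <;>
    exact Submodule.smul_mem _ _ (Submodule.subset_span (by simp))

theorem diff_lines {C S : Set E} {c : E} (hC : Convex ℝ C) (hc : c ∈ C \ S) :
    C \ {z | ∃ s ∈ S, ∃ t : ℝ, z = c + t • (s - c)} ⊆ vis (C \ S) c := fun z hz y hy =>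
  ⟨hC.segment_subset hc.1 hz.1 hy, fun hs => hz.2 ⟨y, hs, by
    rw [segment_eq_image'] at hy
    obtain ⟨t, -, rfl⟩ := hy
    have : t ≠ 0 := fun h => hc.2 (by simpa [h] using hs)
    exact ⟨t⁻¹, by simp [smul_smul, this]⟩⟩⟩

/-! ### the star filter -/

/-- neighbourhoods of the segments from `c` to the visible points near `z` -/
def sF (l : Filter α) (O : Set E) (c z : E) : Filter (α × E) :=
  (𝓝[vis O c] z).bind fun y => l ×ˢ 𝓝ˢ (segment ℝ c y)

variable {l : Filter α} {O : Set E} {c z : E}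

theorem iF_le_sF : iF l (vis O c) z ≤ sF l O c z := fun _ hD => ev_iF.2
  (Eventually.mono (mem_bind'.1 hD) fun y hy =>
    prod_mono le_rfl (nhds_le_nhdsSet (right_mem_segment ℝ c y)) hy)

theorem sb_sF : SB (sF l O c z) c := fun D hD => eventually_bind.2
  (Eventually.mono (mem_bind'.1 hD) fun y hy => by
    obtain ⟨A, hA, W, hW, H⟩ := mem_prod_iff.1 hy
    obtain ⟨W', h1, h2, h3⟩ := mem_nhdsSet_iff_exists.1 hW
    filter_upwards [prod_mem_prod hA ((isOpen_vis h1 c).mem_nhdsSet.2 (segment_subset_vis h2))]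
      with q hq
    have h4 : W' ⊆ interior {w | (q.1, w) ∈ D} :=
      interior_maximal (fun w hw => H (mk_mem_prod hq.1 (h3 hw))) h1
    exact fun w hw => h4 (hq.2 hw))

theorem isCompact_seg (c z : E) : IsCompact (segment ℝ c z) := by
  rw [segment_eq_image']; exact isCompact_Icc.image (by fun_prop)

theorem sF_ex {P : ℝ → α × E → Prop} (hP : ∀ K K' q, K ≤ K' → P K q → P K' q)
    (h : ∀ w ∈ segment ℝ c z, ∃ K, ∀ᶠ q in iF l O w, P K q) : ∃ K, ∀ᶠ q in sF l O c z, P K q := by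
  have key : ∃ K, ∀ᶠ y in 𝓝ˢ (segment ℝ c z), y ∈ O → ∀ᶠ q in l ×ˢ 𝓝 y, P K q := by
    refine (isCompact_seg c z).induction_on
      (p := fun S => ∃ K, ∀ᶠ y in 𝓝ˢ S, y ∈ O → ∀ᶠ q in l ×ˢ 𝓝 y, P K q) ⟨0, by simp⟩
      (fun s t hst ht => ht.imp fun K hK => nhdsSet_mono hst hK)
      (fun s t ⟨K, hK⟩ ⟨K', hK'⟩ => ⟨max K K', ?_⟩) fun w hw => ?_
    · rw [nhdsSet_union, eventually_sup]
      exact ⟨hK.mono fun y a b => (a b).mono fun q => hP _ _ q (le_max_left _ _),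
        hK'.mono fun y a b => (a b).mono fun q => hP _ _ q (le_max_right _ _)⟩
    · obtain ⟨K, hK⟩ := h w hw
      obtain ⟨W, h1, h2, h3⟩ := _root_.eventually_nhds_iff.1 (eventually_nhdsWithin_iff.1 (ev_iF.1 hK))
      exact ⟨W, mem_nhdsWithin_of_mem_nhds (h2.mem_nhds h3), K,
        (show ∀ᶠ y in 𝓝ˢ W, y ∈ W from h2.mem_nhdsSet.2 subset_rfl).mono h1⟩
  obtain ⟨K, hK⟩ := key
  obtain ⟨W, h1, h2, h3⟩ := mem_nhdsSet_iff_exists.1 hK
  refine ⟨K, eventually_bind.2 ?_⟩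
  filter_upwards [self_mem_nhdsWithin, nhdsWithin_le_nhds ((isOpen_vis h1 c).mem_nhds h2)]
    with y a b
  exact (isCompact_seg c y).mem_prod_nhdsSet_of_forall fun w hw => h3 (b hw) (a hw)

theorem sF_ev {P : α × E → Prop} (h : ∀ w ∈ O, ∀ᶠ q in l ×ˢ 𝓝 w, P q) :
    ∀ᶠ q in sF l O c z, P q :=
  let ⟨_, hK⟩ := sF_ex (P := fun _ => P) (fun _ _ _ _ a => a) fun _ _ => ⟨0, ev_iF_of h⟩; hK

theorem sF_cb {k : ℕ} {f : α → E → G} (h : ∀ w ∈ segment ℝ c z, CB (iF l O w) k f) :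
    CB (sF l O c z) k f :=
  sF_ex (fun _ _ _ hK a => ⟨a.1, fun j hj => (a.2 j hj).trans hK⟩) h

theorem sF_db {V : α → Type} [∀ n, NormedAddCommGroup (V n)] [∀ n, NormedSpace ℝ (V n)]
    {T : α → ι → E → E} {A : ∀ n, ι → E → V n →L[ℝ] V n} : ∀ {k : ℕ} {f : ∀ n, E → V n},
    (∀ w ∈ segment ℝ c z, DB 𝓘(ℝ, E) (iF l O w) T A k f) → DB 𝓘(ℝ, E) (sF l O c z) T A k f := by
  have h0 : ∀ {f : ∀ n, E → V n}, (∀ w ∈ segment ℝ c z, D0 𝓘(ℝ, E) (iF l O w) f) →
      D0 𝓘(ℝ, E) (sF l O c z) f := fun {f} h => by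
    obtain ⟨K, hK⟩ := sF_ex (P := fun K q => SA 𝓘(ℝ, E) (f q.1) q.2 ∧ ‖f q.1 q.2‖ ≤ K)
      (fun _ _ _ hK a => ⟨a.1, a.2.trans hK⟩) fun w hw => (h w hw).2.imp fun _ a => (h w hw).1.and a
    exact ⟨hK.mono fun _ a => a.1, K, hK.mono fun _ a => a.2⟩
  intro k
  induction k with
  | zero => exact h0
  | succ k ih => exact fun h => ⟨h0 fun w hw => (h w hw).1, fun a => ih fun w hw => (h w hw).2 a⟩

end flat

variable {E : Type} [NormedAddCommGroup E] [NormedSpace ℝ E] [FiniteDimensional ℝ E]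
  {HM : Type} [TopologicalSpace HM] {I : ModelWithCorners ℝ E HM} [I.Boundaryless]
  {M : Type} [TopologicalSpace M] [ChartedSpace HM M] [IsManifold I ∞ M]
  {E' : Type} [NormedAddCommGroup E'] [InnerProductSpace ℝ E'] [FiniteDimensional ℝ E']
  {ι α G : Type} [Fintype ι] [NormedAddCommGroup G] [NormedSpace ℝ G]
  {l : Filter α} {e : α → ι → (x : M) → TangentSpace I x} {e₀ : ι → (x : M) → TangentSpace I x}
  {φ : OpenPartialHomeomorph M E'} {k : ℕ} {x : M}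

theorem mb_to_cb {ψ : E' → M} {y : E'} {f : α → M → G} (hf : MB I l (ψ y) k f)
    (hψ : ∀ᶠ z in 𝓝 y, ContMDiffAt 𝓘(ℝ, E') I ∞ ψ z) : CB (l ×ˢ 𝓝 y) k fun i z => f i (ψ z) := by
  have hs := hψ.self_of_nhds.continuousAt.eventually (chart_source_mem_nhds HM (ψ y))
  refine (CB.comp_fixed (ψ := fun z => extChartAt I (ψ y) (ψ z)) hf ?_).congr
    ((tendsto_snd.eventually hs.eventually_nhds).mono fun q hq => hq.mono fun z hz => ?_)
  · filter_upwards [hs, hψ] with z h1 h2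
    exact ((contMDiffAt_extChartAt' h1).comp z h2).contDiffAt
  · simp only
    rw [(extChartAt I (ψ y)).left_inv (by rw [extChartAt_source]; exact hz)]

variable (I) in
/-- frames converging everywhere to a smooth spanning frame -/
structure VC (l : Filter α) (e : α → ι → (x : M) → TangentSpace I x)
    (e₀ : ι → (x : M) → TangentSpace I x) : Prop where
  mb : ∀ a k x, MB I l x k fun n => dv I (e n a) (extChartAt I x)
  pt : ∀ a x, Tendsto (fun n => dv I (e n a) (extChartAt I x) x) l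
    (𝓝 (dv I (e₀ a) (extChartAt I x) x))
  s0 : SmV I e₀
  sp : ∀ x (v : TangentSpace I x), ∃ s : ι → ℝ, v = ∑ a, s a • e₀ a x

theorem VC.const (h : VC I l e e₀) (l' : Filter α) : VC I l' (fun _ => e₀) e₀ :=
  ⟨fun a _ _ => MB.vf (.of_forall (h.s0 a)), fun _ _ => tendsto_const_nhds, h.s0, h.sp⟩

theorem VC.dv [FiniteDimensional ℝ G] [l.NeBot] (h : VC I l e e₀) {Ω : Set M} (hΩ : IsOpen Ω)
    {f : α → M → G} {g : M → G} (hf : Cv I l Ω f g) (a : ι) :
    Cv I l Ω (fun n => dv I (e n a) (f n)) (dv I (e₀ a) g) :=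
  hf.dv hΩ (fun k x _ => h.mb a k x) fun x _ => h.pt a x

theorem VC.to_mb (h : VC I l e e₀) : ∀ {k : ℕ} {f : α → M → G},
    DB I (l ×ˢ 𝓝 x) e (z0 ι M fun _ => G) k f → MB I l x k f
  | 0, _, hf => MB.zero_of hf.1 hf.2
  | k + 1, f, hf => by
    refine MB.gain (X := fun a n => e n a) (fun a => h.mb a k x)
      (fun a => (h.mb a 1 x).tendsto (h.pt a x)) (fun v => ?_) (MB.zero_of hf.1.1 hf.1.2)
      fun a => (VC.to_mb h (hf.2 a)).congr (.of_forall fun q => by simp [nab])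
    obtain ⟨R, -, hR⟩ := exists_rinv (I := I) h.s0 x (h.sp x)
    exact ⟨R x v, (comb_apply _ _).symm.trans (hR.self_of_nhds v)⟩

theorem VC.to_db (h : VC I l e e₀) : ∀ {k : ℕ} {f : α → M → G},
    MB I l x k f → DB I (l ×ˢ 𝓝 x) e (z0 ι M fun _ => G) k f
  | 0, _, hf => ⟨hf.smooth, hf.bdd⟩
  | k + 1, f, hf => ⟨⟨hf.smooth, hf.bdd⟩, fun a => (VC.to_db h (hf.dv (h.mb a k x))).congr
      (ob_prod l x) (.of_forall fun q => by simp [nab])⟩

/-- a fixed smooth function -/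
theorem VC.db_fixed (h : VC I l e e₀) {T : Set M} {g : M → G} (hg : ∀ᶠ y in 𝓝 x, SA I g y) :
    DB I (iF l T x) e (z0 ι M fun _ => G) k fun _ => g := (h.to_db (MB.fixed hg)).mono iF_le

variable (I) in
/-- a frame read in a chart -/
def chT (φ : OpenPartialHomeomorph M E') (e : α → ι → (x : M) → TangentSpace I x) (n : α) (a : ι)
    (z : E') : E' :=
  dv I (e n a) φ (φ.symm z)

namespace SCh
variable (h : SCh I φ)
include h

theorem rel (hx : x ∈ φ.source) (n : α) (a : ι) :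
    mfderiv I 𝓘(ℝ, E') φ x (e n a x) = chT I φ e n a (φ x) := by
  rw [chT, φ.left_inv hx]; rfl

theorem inv_rel (hx : x ∈ φ.source) (v : TangentSpace I x) :
    mfderiv 𝓘(ℝ, E') I φ.symm (φ x) (mfderiv I 𝓘(ℝ, E') φ x v) = v := by
  have h2 : mfderiv I I (φ.symm ∘ φ) x = ContinuousLinearMap.id ℝ _ :=
    (EventuallyEq.mfderiv_eq (f := id) (φ.eventually_left_inverse hx)).trans mfderiv_id
  rw [mfderiv_comp x ((h.sm' _ (φ.map_source hx)).mdifferentiableAt (by simp))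
    ((h.sm x hx).mdifferentiableAt (by simp))] at h2
  exact congrArg (fun L => L v) h2

theorem rel' {z : E'} (hz : z ∈ φ.target) (n : α) (a : ι) :
    mfderiv 𝓘(ℝ, E') I φ.symm z (chT (E' := E') I φ e n a z) = e n a (φ.symm z) := by
  have := h.inv_rel (φ.map_target hz) (e n a (φ.symm z))
  rwa [φ.right_inv hz] at this

theorem surj (hx : x ∈ φ.source) (v : E') : ∃ w, mfderiv I 𝓘(ℝ, E') φ x w = v := by
  have hz := φ.map_source hx
  have h2 : mfderiv 𝓘(ℝ, E') 𝓘(ℝ, E') (φ ∘ φ.symm) (φ x) = ContinuousLinearMap.id ℝ _ :=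
    (EventuallyEq.mfderiv_eq (f := id) (φ.eventually_right_inverse hz)).trans mfderiv_id
  rw [mfderiv_comp (φ x) ((h.sm _ (φ.map_target hz)).mdifferentiableAt (by simp))
    ((h.sm' _ hz).mdifferentiableAt (by simp))] at h2
  have h3 := congrArg (fun L => L v) h2
  have key : ∀ y, y = x → ∀ w : E, mfderiv I 𝓘(ℝ, E') φ y w = v →
      ∃ w, mfderiv I 𝓘(ℝ, E') φ x w = v := by rintro _ rfl w hw; exact ⟨w, hw⟩
  exact key _ (φ.left_inv hx) _ h3

theorem ev_symm {z : E'} (hz : z ∈ φ.target) : ∀ᶠ y in 𝓝 z, ContMDiffAt 𝓘(ℝ, E') I ∞ φ.symm y :=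
  (φ.open_target.eventually_mem hz).mono h.sm'

theorem ff [l.NeBot] (hv : VC I l e e₀) {z : E'} (hz : z ∈ φ.target) :
    FF (l ×ˢ 𝓝 z) (chT I φ e) (fun n y => rinv fun a => chT I φ e n a y) ∧
      ∀ᶠ q in l ×ˢ 𝓝 z, (gram fun a => chT I φ e q.1 a q.2).IsInvertible := by
  have hx := φ.map_target hz
  have h1 := fun a => hv.dv φ.open_source (Cv.fixed φ.open_source h.sm) a
  refine ff_of (T := chT I φ e) (t := fun a => dv I (e₀ a) φ (φ.symm z))
    (fun k a => mb_to_cb (f := fun n => dv I (e n a) φ) ((h1 a).mb k _ hx) (h.ev_symm hz))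
    (fun a => (h1 a).pt _ hx) fun v => ?_
  obtain ⟨w, hw⟩ := h.surj hx v
  obtain ⟨s, rfl⟩ := hv.sp _ w
  refine ⟨s, ?_⟩
  rw [← hw, map_sum]
  simp only [map_smul]
  rfl

variable {V : α → Type} [∀ n, NormedAddCommGroup (V n)] [∀ n, NormedSpace ℝ (V n)]

theorem to_flat {Ω : Set M} {z : E'} (hz : z ∈ φ.target) {A : ∀ n, ι → M → V n →L[ℝ] V n}
    {f : ∀ n, M → V n} (hf : DB I (iF l Ω (φ.symm z)) e A k f) :
    DB 𝓘(ℝ, E') (iF l (φ.target ∩ φ.symm ⁻¹' Ω) z) (chT I φ e) (fun n a y => A n a (φ.symm y)) k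
      fun n y => f n (φ.symm y) :=
  DB.pull ob_iF (tendsto_iF (h.sm' z hz).continuousAt (eventually_nhdsWithin_of_forall
    fun y hy => ⟨(h.sm' y hy.1).continuousAt, hy.2⟩)) (ev_iF_of fun _ hy =>
      (tendsto_snd.eventually (φ.open_target.eventually_mem hy.1)).mono fun q hq =>
        ⟨h.sm' _ hq, h.rel' hq q.1⟩) hf

theorem of_flat {O : Set E'} (hx : x ∈ φ.source) {f : α → E' → G}
    (hf : DB 𝓘(ℝ, E') (iF l O (φ x)) (chT I φ e) (z0 ι E' fun _ => G) k f) :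
    DB I (iF l (φ.source ∩ φ ⁻¹' O) x) e (z0 ι M fun _ => G) k fun n y => f n (φ y) :=
  DB.pull ob_iF (tendsto_iF (h.sm x hx).continuousAt (eventually_nhdsWithin_of_forall
    fun y hy => ⟨(h.sm y hy.1).continuousAt, hy.2⟩)) (ev_iF_of fun _ hy =>
      (tendsto_snd.eventually (φ.open_source.eventually_mem hy.1)).mono fun q hq =>
        ⟨h.sm _ hq, h.rel hq q.1⟩) hf

/-- **limits extend over thin sets** -/
theorem ext_lim [FiniteDimensional ℝ G] {𝒰 : Ultrafilter α} (hv : VC I (𝒰 : Filter α) e e₀)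
    {U Ω : Set M} {Z : Set E'} (hZ : Thin Z) (hU : IsOpen U) (hΩ : IsOpen Ω) (h1 : U ⊆ φ.source)
    (h2 : Ω ⊆ U) (h3 : ∀ x ∈ U, φ x ∉ Z → x ∈ Ω) {f : α → M → G}
    (hf : ∀ k, ∀ x ∈ U, DB I (iF 𝒰 Ω x) e (z0 ι M fun _ => G) k f) :
    ∃ g, (∀ x ∈ U, SA I g x) ∧ Cv I (𝒰 : Filter α) Ω f g := by
  obtain ⟨g, hg⟩ := MBOn.exists_cv (I := I) (𝒰 := 𝒰) (Ω := Ω) (f := f) fun k x hx =>
    hv.to_mb (iF_eq (l := (𝒰 : Filter α)) hx ▸ hf k x (h2 hx))
  obtain ⟨g', a, b⟩ := ext_flat (l := (𝒰 : Filter α)) hZ (φ.isOpen_inter_preimage_symm hU)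
    (φ.isOpen_inter_preimage_symm hΩ) (fun z hz => ⟨hz.1.1, h3 _ hz.1.2
      (by rw [φ.right_inv hz.1.1]; exact hz.2)⟩) (fun z hz => ⟨hz.1, h2 hz.2⟩)
    (f := fun n y => f n (φ.symm y)) (g := fun y => g (φ.symm y))
    (fun k z hz => (((h.ff hv hz.1).1.mono ob_iF iF_le).cb (h.to_flat hz.1 (hf k _ hz.2))))
    fun y hy => hg.pt _ hy.2
  have m : ∀ {T : Set M}, T ⊆ U → ∀ x ∈ T, φ x ∈ φ.target ∩ φ.symm ⁻¹' T := fun hT x hx =>
    ⟨φ.map_source (h1 (hT hx)), by rwa [mem_preimage, φ.left_inv (h1 (hT hx))]⟩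
  refine ⟨fun x => g' (φ x), fun x hx => (a _ (m subset_rfl x hx)).contMDiffAt.comp x
    (h.sm x (h1 hx)), hg.congr (fun _ _ => .of_forall fun _ => rfl) fun x hx => ?_⟩
  rw [b (m h2 x hx)]
  simp only [φ.left_inv (h1 (h2 hx))]

/-- complements of thin sets are dense -/
theorem mem_closure {U Ω : Set M} {Z : Set E'} (hZ : Thin Z) (hU : IsOpen U) (h1 : U ⊆ φ.source)
    (h3 : ∀ x ∈ U, φ x ∉ Z → x ∈ Ω) (hx : x ∈ U) : x ∈ closure Ω := by
  have hz : φ x ∈ φ.target ∩ φ.symm ⁻¹' U :=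
    ⟨φ.map_source (h1 hx), by rwa [mem_preimage, φ.left_inv (h1 hx)]⟩
  have := (h.sm' _ hz.1).continuousAt.continuousWithinAt.mem_closure
    (hZ.mem_closure (φ.isOpen_inter_preimage_symm hU) hz) (t := Ω)
    fun z hz => h3 _ hz.1.2 (by rw [φ.right_inv hz.1.1]; exact hz.2)
  rwa [φ.left_inv (h1 hx)] at this

end SCh

end Crest.Agent.X212.Pat85
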