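import Crest.Agent.X212.Lix26.Fin
import Crest.Agent.X212.Exc36.Gen
import Crest.Agent.X212.Exc36.Line
import Crest.Agent.X212.Exc36.Trn
import Crest.Agent.X212.Exc36.Nf
import Crest.Agent.X212.Exc36.Main
import Crest.Agent.X212.Cut63.Cv
import Crest.Agent.X212.Cut63.Nat
import Crest.Agent.X212.Cut63.Up
import Crest.Agent.X212.Cut63.Main
import Crest.Agent.X212.Pte3.Tl3
import Crest.Agent.X212.Pat85.UqB
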